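import Mathlib

namespace Vale.Agent.P249
open Finset

lemma exists_le_avg {Ω : Type*} [Fintype Ω] (P g : Ω → ℝ) (h0 : ∀ ω, 0 ≤ P ω)
    (h1 : ∑ ω, P ω = 1) : ∃ ω, g ω ≤ ∑ ω, P ω * g ω := by
  have hne : (univ : Finset Ω).Nonempty := by
    by_contra h
    rw [not_nonempty_iff_eq_empty] at h
    rw [h] at h1; simp at h1
  obtain ⟨ω, _, hω⟩ := exists_min_image univ g hne
  refine ⟨ω, ?_⟩
  rw [← one_mul (g ω), ← h1, sum_mul]
  exact sum_le_sum fun a _ => mul_le_mul_of_nonneg_left (hω a (mem_univ _)) (h0 a)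

lemma sample {Ω K : Type*} [Fintype Ω] [Fintype K] (P : Ω → ℝ) (h0 : ∀ ω, 0 ≤ P ω)
    (h1 : ∑ ω, P ω = 1) (ξ : K → Ω → ℝ) (hm : ∀ k, ∑ ω, P ω * ξ k ω = 0) {c : ℝ} (hc : c ≤ 1)
    (hξ : ∀ k ω, |ξ k ω| ≤ c) (d : ℕ) : ∃ seq : Fin d → Ω,
      ∑ k, Real.exp (∑ i, ξ k (seq i)) ≤ Fintype.card K * Real.exp (d * c ^ 2) := by
  induction d with
  | zero => exact ⟨Fin.elim0, by simp⟩
  | succ d ih =>
    obtain ⟨seq, hs⟩ := ih
    obtain ⟨ω, hω⟩ := exists_le_avg P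
      (fun ω => ∑ k, Real.exp (∑ i, ξ k (seq i)) * Real.exp (ξ k ω)) h0 h1
    refine ⟨Fin.cons ω seq, ?_⟩
    simp only [Fin.sum_univ_succ, Fin.cons_zero, Fin.cons_succ, Real.exp_add]
    simp only [mul_comm (Real.exp (ξ _ ω))]
    refine hω.trans ?_
    simp only [mul_sum]
    rw [sum_comm]
    have key : ∀ k, ∑ ω, P ω * (Real.exp (∑ i, ξ k (seq i)) * Real.exp (ξ k ω)) ≤
        Real.exp (∑ i, ξ k (seq i)) * Real.exp (c ^ 2) := by
      intro k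
      have a : ∑ ω, P ω * Real.exp (ξ k ω) ≤ ∑ ω, P ω * (ξ k ω + (c ^ 2 + 1)) := by
        refine sum_le_sum fun ω _ => mul_le_mul_of_nonneg_left ?_ (h0 ω)
        have b := (abs_le.1 (Real.abs_exp_sub_one_sub_id_le ((hξ k ω).trans hc))).2
        have c' : ξ k ω ^ 2 ≤ c ^ 2 := by
          rw [← sq_abs]; exact pow_le_pow_left₀ (abs_nonneg _) (hξ k ω) 2
        linarith
      simp only [mul_add (P _), sum_add_distrib, hm, ← sum_mul, h1] at a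
      have b := Real.add_one_le_exp (c ^ 2)
      simp only [mul_left_comm (P _), ← mul_sum]
      exact mul_le_mul_of_nonneg_left (by linarith) (Real.exp_pos _).le
    refine (sum_le_sum fun k _ => key k).trans ?_
    rw [← sum_mul]
    refine (mul_le_mul_of_nonneg_right hs (Real.exp_pos _).le).trans (le_of_eq ?_)
    rw [mul_assoc, ← Real.exp_add]
    congr 2; push_cast; ring

lemma sample2 {Ω K : Type*} [Fintype Ω] [Fintype K] (P : Ω → ℝ) (h0 : ∀ ω, 0 ≤ P ω)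
    (h1 : ∑ ω, P ω = 1) (Z : K → Ω → ℝ) {L ε : ℝ} (hL : 0 < L) (hε : 0 < ε) (hεL : ε ≤ 2 * L)
    (hZ : ∀ k ω, 0 ≤ Z k ω ∧ Z k ω ≤ L) (d : ℕ)
    (hd : 2 * Fintype.card K ≤ Real.exp (d * ε ^ 2 / (4 * L ^ 2))) : ∃ seq : Fin d → Ω,
      ∀ k, |∑ i, Z k (seq i) - d * ∑ ω, P ω * Z k ω| ≤ ε * d := by
  obtain ⟨t, ht⟩ : ∃ t, t = ε / (2 * L ^ 2) := ⟨_, rfl⟩
  have ht0 : 0 < t := by rw [ht]; positivity
  have hm : ∀ k, 0 ≤ ∑ ω, P ω * Z k ω ∧ ∑ ω, P ω * Z k ω ≤ L := fun k =>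
    ⟨sum_nonneg fun ω _ => mul_nonneg (h0 ω) (hZ k ω).1, by
      rw [← one_mul L, ← h1, sum_mul]
      exact sum_le_sum fun ω _ => mul_le_mul_of_nonneg_left (hZ k ω).2 (h0 ω)⟩
  obtain ⟨seq, hs⟩ := sample (K := K × Bool) P h0 h1
    (fun k ω => (if k.2 then t else -t) * (Z k.1 ω - ∑ ω, P ω * Z k.1 ω)) (c := t * L)
    (fun k => by
      simp only [mul_left_comm (P _), ← mul_sum, mul_sub (P _), sum_sub_distrib, ← sum_mul, h1]
      simp)
    (by rw [ht, div_mul_eq_mul_div, div_le_one (by positivity)]; nlinarith)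
    (fun k ω => by
      rw [abs_mul]
      refine mul_le_mul ?_ ?_ (abs_nonneg _) ht0.le
      · split_ifs <;> simp [abs_of_pos ht0]
      · have := hZ k.1 ω; have := hm k.1; rw [abs_le]; constructor <;> linarith) d
  refine ⟨seq, fun k => ?_⟩
  have hb : (Fintype.card (K × Bool) : ℝ) * Real.exp (d * (t * L) ^ 2) ≤ Real.exp (t * (ε * d)) := by
    rw [Fintype.card_prod, Fintype.card_bool]
    push_cast
    rw [mul_comm _ (2 : ℝ)]
    refine (mul_le_mul_of_nonneg_right hd (Real.exp_pos _).le).trans (le_of_eq ?_)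
    rw [← Real.exp_add, ht]; congr 1; field_simp; ring
  have one : ∀ b : Bool, (if b then t else -t) * (∑ i, Z k (seq i) - d * ∑ ω, P ω * Z k ω) ≤
      t * (ε * d) := by
    intro b
    have a := (single_le_sum (f := fun k : K × Bool => Real.exp (∑ i, (if k.2 then t else -t) *
      (Z k.1 (seq i) - ∑ ω, P ω * Z k.1 ω))) (fun _ _ => (Real.exp_pos _).le)
      (mem_univ (k, b))).trans (hs.trans hb)
    have := Real.exp_le_exp.1 a
    simpa only [← mul_sum, sum_sub_distrib, sum_const, card_univ, Fintype.card_fin,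
      nsmul_eq_mul] using this
  have a := one true
  have b := one false
  simp only [if_true, Bool.false_eq_true, if_false] at a b
  rw [abs_le]
  constructor <;> nlinarith

section
variable {A : Type*} [Fintype A] [DecidableEq A]

noncomputable def PB (q : A → ℝ) (𝒜 : A → Bool) : ℝ := ∏ a, if 𝒜 a then q a else 1 - q a
def ind (𝒜 : A → Bool) (a : A) : ℝ := if 𝒜 a then 1 else 0

lemma PB_prod (q : A → ℝ) (s : Finset A) :
    ∑ 𝒜, PB q 𝒜 * ∏ a ∈ s, ind 𝒜 a = ∏ a ∈ s, q a := by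
  have h := prod_univ_sum (fun _ : A => (univ : Finset Bool))
    (fun a β => (if β then q a else 1 - q a) * (if a ∈ s then (if β then 1 else 0) else 1 : ℝ))
  rw [Fintype.piFinset_univ] at h
  simp only [prod_mul_distrib, prod_ite_mem, univ_inter] at h
  refine h.symm.trans ?_
  rw [← univ_inter s, ← prod_ite_mem, univ_inter]
  refine prod_congr rfl fun a _ => ?_
  split_ifs <;> simp

lemma PB_sum (q : A → ℝ) : ∑ 𝒜, PB q 𝒜 = 1 := by simpa using PB_prod q ∅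

lemma PB_one (q : A → ℝ) (a : A) : ∑ 𝒜, PB q 𝒜 * ind 𝒜 a = q a := by simpa using PB_prod q {a}

lemma PB_two (q : A → ℝ) {a b : A} (h : a ≠ b) :
    ∑ 𝒜, PB q 𝒜 * (ind 𝒜 a * ind 𝒜 b) = q a * q b := by
  simpa [prod_pair h] using PB_prod q {a, b}

lemma PB_form (q g : A → ℝ) (B : Finset A) (c : ℝ) :
    ∑ 𝒜, PB q 𝒜 * ∑ a ∈ B, ind 𝒜 a * g a * (1 + c * ∑ b ∈ B.erase a, ind 𝒜 b) =
      ∑ a ∈ B, q a * g a * (1 + c * ∑ b ∈ B.erase a, q b) := by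
  simp only [mul_sum]
  rw [sum_comm]
  refine sum_congr rfl fun a _ => ?_
  have e : ∀ 𝒜, PB q 𝒜 * (ind 𝒜 a * g a * (1 + ∑ b ∈ B.erase a, c * ind 𝒜 b)) =
      g a * (PB q 𝒜 * ind 𝒜 a) +
        ∑ b ∈ B.erase a, g a * c * (PB q 𝒜 * (ind 𝒜 a * ind 𝒜 b)) := by
    intro 𝒜
    simp only [mul_add, mul_sum]
    congr 1
    · ring
    · exact sum_congr rfl fun b _ => by ring
  rw [sum_congr rfl fun 𝒜 _ => e 𝒜, sum_add_distrib, sum_comm, ← mul_sum, PB_one,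
    sum_congr rfl fun b hb => by rw [← mul_sum, PB_two q (ne_of_mem_erase hb).symm]]
  simp only [← mul_sum]
  ring

noncomputable def smax (𝒜 : A → Bool) (u : A → ℝ) : ℝ :=
  (univ.filter fun a => 𝒜 a = true).fold max 0 u

noncomputable def Ψ (𝒜 : A → Bool) (u : A → ℝ) : ℝ := smax 𝒜 u - smax 𝒜 (fun a => -u a)

omit [DecidableEq A] in
lemma smax_le (𝒜 : A → Bool) (u v : A → ℝ) {c : ℝ} (hc : 0 ≤ c)
    (h : ∀ a, 𝒜 a = true → u a ≤ v a + c) : smax 𝒜 u ≤ smax 𝒜 v + c := by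
  unfold smax
  refine (fold_max_le _).2 ⟨add_nonneg ((le_fold_max _).2 (Or.inl le_rfl)) hc, fun a ha => ?_⟩
  have : v a ≤ (univ.filter fun a => 𝒜 a = true).fold max 0 v :=
    (le_fold_max _).2 (Or.inr ⟨a, ha, le_rfl⟩)
  linarith [h a (mem_filter.1 ha).2]

omit [DecidableEq A] in
lemma Ψ_lip (𝒜 : A → Bool) (u v : A → ℝ) {c : ℝ} (hc : 0 ≤ c)
    (h : ∀ a, 𝒜 a = true → |u a - v a| ≤ c) : |Ψ 𝒜 u - Ψ 𝒜 v| ≤ 2 * c := by
  have a1 := smax_le 𝒜 u v hc fun a ha => by linarith [(abs_le.1 (h a ha)).2]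
  have a2 := smax_le 𝒜 v u hc fun a ha => by linarith [(abs_le.1 (h a ha)).1]
  have a3 := smax_le 𝒜 (fun a => -u a) (fun a => -v a) hc fun a ha => by
    linarith [(abs_le.1 (h a ha)).1]
  have a4 := smax_le 𝒜 (fun a => -v a) (fun a => -u a) hc fun a ha => by
    linarith [(abs_le.1 (h a ha)).2]
  unfold Ψ
  rw [abs_le]; constructor <;> linarith

omit [DecidableEq A] in
lemma smax_single (𝒜 : A → Bool) (u : A → ℝ) {a0 : A} (h0 : 𝒜 a0 = true)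
    (h : ∀ a, 𝒜 a = true → a ≠ a0 → u a = 0) : smax 𝒜 u = max 0 (u a0) := by
  unfold smax
  apply le_antisymm
  · refine (fold_max_le _).2 ⟨le_max_left _ _, fun a ha => ?_⟩
    by_cases e : a = a0
    · rw [e]; exact le_max_right _ _
    · rw [h a (mem_filter.1 ha).2 e]; exact le_max_left _ _
  · exact max_le ((le_fold_max _).2 (Or.inl le_rfl))
      ((le_fold_max _).2 (Or.inr ⟨a0, mem_filter.2 ⟨mem_univ _, h0⟩, le_rfl⟩))

omit [DecidableEq A] in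
lemma Ψ_single (𝒜 : A → Bool) (u : A → ℝ) {a0 : A} (h0 : 𝒜 a0 = true)
    (h : ∀ a, 𝒜 a = true → a ≠ a0 → u a = 0) : Ψ 𝒜 u = u a0 := by
  unfold Ψ
  rw [smax_single 𝒜 u h0 h, smax_single 𝒜 _ h0 fun a ha hb => by rw [h a ha hb, neg_zero]]
  rcases le_total 0 (u a0) with a | a
  · rw [max_eq_right a, max_eq_left (by linarith), sub_zero]
  · rw [max_eq_left a, max_eq_right (by linarith)]; ring

lemma Ψ_pt {p : ℝ} (hp : 1 ≤ p) (𝒜 : A → Bool) (u v : A → ℝ) (B : Finset A)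
    (hB : ∀ a, a ∉ B → u a = 0 ∧ v a = 0) :
    ∑ a ∈ B, ind 𝒜 a * |u a - v a| ^ p * (1 + (-1) * ∑ b ∈ B.erase a, ind 𝒜 b) ≤
      |Ψ 𝒜 u - Ψ 𝒜 v| ^ p ∧ |Ψ 𝒜 u - Ψ 𝒜 v| ^ p ≤
    ∑ a ∈ B, ind 𝒜 a * |u a - v a| ^ p * (1 + 2 ^ p * ∑ b ∈ B.erase a, ind 𝒜 b) := by
  obtain ⟨C, hC⟩ : ∃ C, C = B.filter fun a => 𝒜 a = true := ⟨_, rfl⟩
  have form : ∀ c : ℝ, ∑ a ∈ B, ind 𝒜 a * |u a - v a| ^ p * (1 + c * ∑ b ∈ B.erase a, ind 𝒜 b) =
      (∑ a ∈ C, |u a - v a| ^ p) * (1 + c * (C.card - 1)) := by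
    intro c
    rw [hC, sum_mul, sum_filter]
    refine sum_congr rfl fun a ha => ?_
    by_cases h : 𝒜 a = true
    · have e := add_sum_erase B (ind 𝒜) ha
      have e2 : ∑ b ∈ B, ind 𝒜 b = ((B.filter fun a => 𝒜 a = true).card : ℝ) := by
        rw [card_filter, Nat.cast_sum]
        exact sum_congr rfl fun b _ => by unfold ind; split_ifs <;> simp
      have e3 : ind 𝒜 a = 1 := by unfold ind; rw [if_pos h]
      rw [if_pos h, e3, one_mul, ← e2, ← e, e3, add_sub_cancel_left]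
    · have e3 : ind 𝒜 a = 0 := by unfold ind; rw [if_neg h]
      rw [if_neg h, e3, zero_mul, zero_mul]
  rw [form, form]
  have G0 : 0 ≤ ∑ a ∈ C, |u a - v a| ^ p := sum_nonneg fun _ _ => by positivity
  have up : |Ψ 𝒜 u - Ψ 𝒜 v| ^ p ≤ 2 ^ p * ∑ a ∈ C, |u a - v a| ^ p := by
    have h := Ψ_lip 𝒜 u v (c := (∑ a ∈ C, |u a - v a| ^ p) ^ (1 / p)) (by positivity)
      (fun a ha => by
        by_cases hb : a ∈ B
        · have : |u a - v a| ^ p ≤ ∑ a ∈ C, |u a - v a| ^ p :=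
            single_le_sum (f := fun a => |u a - v a| ^ p) (fun _ _ => by positivity)
              (hC ▸ mem_filter.2 ⟨hb, ha⟩)
          have h2 := Real.rpow_le_rpow (by positivity) this (by positivity : 0 ≤ 1 / p)
          rwa [← Real.rpow_mul (abs_nonneg _), mul_one_div_cancel (by linarith),
            Real.rpow_one] at h2
        · rw [(hB a hb).1, (hB a hb).2, sub_self, abs_zero]; positivity)
    have h2 := Real.rpow_le_rpow (abs_nonneg _) h (by linarith : 0 ≤ p)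
    rwa [Real.mul_rpow (by norm_num) (by positivity), ← Real.rpow_mul G0,
      one_div_mul_cancel (by linarith), Real.rpow_one] at h2
  have Z0 : 0 ≤ |Ψ 𝒜 u - Ψ 𝒜 v| ^ p := by positivity
  rcases Nat.lt_trichotomy C.card 1 with h | h | h
  · have : C = ∅ := card_eq_zero.1 (by omega)
    rw [this] at up ⊢
    simp only [sum_empty, zero_mul, mul_zero] at up ⊢
    exact ⟨Z0, up⟩
  · obtain ⟨a0, ha0⟩ := card_eq_one.1 h
    have m : a0 ∈ B.filter fun a => 𝒜 a = true := by rw [← hC, ha0]; exact mem_singleton_self _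
    have nb : ∀ a, 𝒜 a = true → a ≠ a0 → a ∉ B := fun a h1 h2 h3 => h2 (by
      have : a ∈ C := hC ▸ mem_filter.2 ⟨h3, h1⟩
      rwa [ha0, mem_singleton] at this)
    rw [Ψ_single 𝒜 u (mem_filter.1 m).2 fun a h1 h2 => (hB a (nb a h1 h2)).1,
      Ψ_single 𝒜 v (mem_filter.1 m).2 fun a h1 h2 => (hB a (nb a h1 h2)).2, ha0]
    simp
  · have h2 : (2 : ℝ) ≤ C.card := by exact_mod_cast h
    have h3 : (0 : ℝ) ≤ 2 ^ p := by positivity
    constructor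
    · exact le_trans (mul_nonpos_of_nonneg_of_nonpos G0 (by linarith)) Z0
    · refine up.trans ?_
      rw [mul_comm]
      exact mul_le_mul_of_nonneg_left (by nlinarith) G0

lemma Ψ_mean {p θ : ℝ} (hp : 1 ≤ p) (q : A → ℝ) (hq : ∀ a, 0 ≤ q a ∧ q a ≤ 1) (u v : A → ℝ)
    (B : Finset A) (hB : ∀ a, a ∉ B → u a = 0 ∧ v a = 0) (hθ : ∑ a ∈ B, q a ≤ θ) :
    (∑ a ∈ B, q a * |u a - v a| ^ p) * (1 - θ) ≤ ∑ 𝒜, PB q 𝒜 * |Ψ 𝒜 u - Ψ 𝒜 v| ^ p ∧
      ∑ 𝒜, PB q 𝒜 * |Ψ 𝒜 u - Ψ 𝒜 v| ^ p ≤ (∑ a ∈ B, q a * |u a - v a| ^ p) * (1 + 2 ^ p * θ) := by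
  have P0 : ∀ 𝒜, 0 ≤ PB q 𝒜 := fun 𝒜 => prod_nonneg fun a _ => by
    have := hq a; split_ifs <;> linarith
  have er : ∀ a, ∑ b ∈ B.erase a, q b ≤ θ := fun a =>
    (sum_le_sum_of_subset_of_nonneg (erase_subset _ _) fun b _ _ => (hq b).1).trans hθ
  constructor
  · refine le_trans ?_ (sum_le_sum fun 𝒜 _ =>
      mul_le_mul_of_nonneg_left (Ψ_pt hp 𝒜 u v B hB).1 (P0 𝒜))
    rw [PB_form, sum_mul]
    exact sum_le_sum fun a _ => mul_le_mul_of_nonneg_left (by linarith [er a])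
      (mul_nonneg (hq a).1 (by positivity))
  · refine le_trans (sum_le_sum fun 𝒜 _ =>
      mul_le_mul_of_nonneg_left (Ψ_pt hp 𝒜 u v B hB).2 (P0 𝒜)) ?_
    rw [PB_form, sum_mul]
    refine sum_le_sum fun a _ => mul_le_mul_of_nonneg_left ?_
      (mul_nonneg (hq a).1 (by positivity))
    have := mul_le_mul_of_nonneg_left (er a) (by positivity : (0 : ℝ) ≤ 2 ^ p)
    linarith

theorem hash_sample {ι : Type*} [Fintype ι] {p θ S Λ lo hi ε : ℝ} (hp : 1 ≤ p) (ν : A → ℝ)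
    (hν : ∀ a, 0 ≤ ν a) (ψ : ι → A → ℝ) (ρ : ι → ι → ℝ) (hρ : ∀ x y, 0 ≤ ρ x y) (hS : 0 < S)
    (hΛ : 0 < Λ) (hθ : 0 < θ) (hθ1 : 2 * θ ≤ 1) (hε : 0 < ε) (hεL : ε ≤ 2 * (2 * Λ) ^ p)
    (hact : ∀ x (B : Finset A), (∀ a ∈ B, ψ x a ≠ 0) → ∑ a ∈ B, ν a ≤ S)
    (hlip : ∀ x y a, |ψ x a - ψ y a| ≤ Λ * ρ x y)
    (hW : ∀ x y, lo * ρ x y ^ p ≤ ∑ a, ν a * |ψ x a - ψ y a| ^ p ∧
      ∑ a, ν a * |ψ x a - ψ y a| ^ p ≤ hi * ρ x y ^ p) (d : ℕ)
    (hd : 2 * Fintype.card (ι × ι) ≤ Real.exp (d * ε ^ 2 / (4 * ((2 * Λ) ^ p) ^ 2))) :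
    ∃ f : ι → Fin d → ℝ, ∀ x y,
      d * (θ / S * lo * (1 - 2 * θ) - ε) * ρ x y ^ p ≤ ∑ i, |f x i - f y i| ^ p ∧
      ∑ i, |f x i - f y i| ^ p ≤ d * (θ / S * hi * (1 + 2 ^ p * (2 * θ)) + ε) * ρ x y ^ p := by
  classical
  obtain ⟨q, hq⟩ : ∃ q : A → ℝ, q = fun a => if ν a ≤ S then θ / S * ν a else 0 := ⟨_, rfl⟩
  have q01 : ∀ a, 0 ≤ q a ∧ q a ≤ 1 := fun a => by
    rw [hq]; dsimp only
    split_ifs with h
    · have := hν a
      refine ⟨by positivity, ?_⟩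
      rw [div_mul_eq_mul_div, div_le_one hS]; nlinarith
    · exact ⟨le_rfl, zero_le_one⟩
  have qa : ∀ x a, ψ x a ≠ 0 → q a = θ / S * ν a := fun x a h => by
    have := hact x {a} (by simpa using h)
    rw [sum_singleton] at this
    rw [hq]; exact if_pos this
  have P0 : ∀ 𝒜, 0 ≤ PB q 𝒜 := fun 𝒜 => prod_nonneg fun a _ => by
    have := q01 a; split_ifs <;> linarith
  have lipΨ : ∀ x y 𝒜, |Ψ 𝒜 (ψ x) - Ψ 𝒜 (ψ y)| ^ p ≤ (2 * Λ) ^ p * ρ x y ^ p := by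
    intro x y 𝒜
    have h := Ψ_lip 𝒜 (ψ x) (ψ y) (mul_nonneg hΛ.le (hρ x y)) fun a _ => hlip x y a
    rw [← Real.mul_rpow (by positivity) (hρ x y), mul_assoc]
    exact Real.rpow_le_rpow (abs_nonneg _) h (by linarith)
  obtain ⟨seq, hs⟩ := sample2 (K := ι × ι) (PB q) P0 (PB_sum q)
    (fun k 𝒜 => |Ψ 𝒜 (ψ k.1) - Ψ 𝒜 (ψ k.2)| ^ p / ρ k.1 k.2 ^ p) (L := (2 * Λ) ^ p)
    (by positivity) hε hεL (fun k 𝒜 => by
      have := Real.rpow_nonneg (hρ k.1 k.2) p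
      exact ⟨by positivity, div_le_of_le_mul₀ this (by positivity) (lipΨ _ _ _)⟩) d hd
  refine ⟨fun x i => Ψ (seq i) (ψ x), fun x y => ?_⟩
  rcases (Real.rpow_nonneg (hρ x y) p).eq_or_lt with h | h
  · rw [← h, mul_zero, mul_zero]
    refine ⟨sum_nonneg fun _ _ => by positivity, sum_nonpos fun i _ => ?_⟩
    have := lipΨ x y (seq i)
    rwa [← h, mul_zero] at this
  · have a := hs (x, y)
    simp only [← mul_div_assoc, ← sum_div] at a
    rw [← sub_div, abs_div, abs_of_pos h, div_le_iff₀ h, abs_le] at a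
    obtain ⟨B, hB⟩ : ∃ B : Finset A, B = univ.filter (fun a => ψ x a ≠ 0) ∪
      univ.filter (fun a => ψ y a ≠ 0) := ⟨_, rfl⟩
    have hB1 : ∀ a, a ∉ B → ψ x a = 0 ∧ ψ y a = 0 := fun a ha => by
      rw [hB] at ha; simpa using ha
    have hB2 : ∀ a ∈ B, q a = θ / S * ν a := fun a ha => by
      rw [hB, mem_union, mem_filter, mem_filter] at ha
      rcases ha with ha | ha
      · exact qa x a ha.2
      · exact qa y a ha.2
    have hB3 : ∑ a ∈ B, q a ≤ 2 * θ := by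
      rw [sum_congr rfl hB2, ← mul_sum]
      have b1 := hact x (univ.filter (fun a => ψ x a ≠ 0)) fun a ha => (mem_filter.1 ha).2
      have b2 := hact y (univ.filter (fun a => ψ y a ≠ 0)) fun a ha => (mem_filter.1 ha).2
      have b3 := sum_union_inter (s₁ := univ.filter (fun a => ψ x a ≠ 0))
        (s₂ := univ.filter (fun a => ψ y a ≠ 0)) (f := ν)
      have b4 : 0 ≤ ∑ a ∈ univ.filter (fun a => ψ x a ≠ 0) ∩ univ.filter (fun a => ψ y a ≠ 0),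
        ν a := sum_nonneg fun a _ => hν a
      rw [← hB] at b3
      calc _ ≤ θ / S * (2 * S) := mul_le_mul_of_nonneg_left (by linarith) (by positivity)
        _ = _ := by field_simp
    obtain ⟨m1, m2⟩ := Ψ_mean hp q q01 (ψ x) (ψ y) B hB1 hB3
    have e : ∑ a ∈ B, q a * |ψ x a - ψ y a| ^ p = θ / S * ∑ a, ν a * |ψ x a - ψ y a| ^ p := by
      rw [mul_sum, ← sum_subset (subset_univ B)]
      · exact sum_congr rfl fun a ha => by rw [hB2 a ha]; ring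
      · intro a _ ha
        rw [(hB1 a ha).1, (hB1 a ha).2, sub_self, abs_zero, Real.zero_rpow (by linarith)]; simp
    rw [e] at m1 m2
    obtain ⟨w1, w2⟩ := hW x y
    have c1 := mul_le_mul_of_nonneg_right (mul_le_mul_of_nonneg_left w1
      (by positivity : 0 ≤ θ / S)) (by linarith : 0 ≤ 1 - 2 * θ)
    have c2 := mul_le_mul_of_nonneg_right (mul_le_mul_of_nonneg_left w2
      (by positivity : 0 ≤ θ / S)) (by positivity : 0 ≤ 1 + 2 ^ p * (2 * θ))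
    have d0 : (0 : ℝ) ≤ d := Nat.cast_nonneg _
    have c3 := mul_le_mul_of_nonneg_left (c1.trans m1) d0
    have c4 := mul_le_mul_of_nonneg_left (m2.trans c2) d0
    constructor <;> linarith [a.1, a.2]

end
end Vale.Agent.P249
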