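import Mathlib

namespace Vale.Agent.P249
open Finset

variable {ι : Type*} [DecidableEq ι]

lemma nearest (U : Finset ι) (f : ι → ℝ) : ∀ t ≤ U.card, ∃ N ⊆ U, N.card = t ∧
    ∀ z0 ∈ N, ∀ z ∈ U, z ∉ N → f z0 ≤ f z := by
  intro t
  induction t with
  | zero => exact fun _ => ⟨∅, empty_subset _, rfl, by simp⟩
  | succ t ih =>
    intro ht
    obtain ⟨N, h1, h2, h3⟩ := ih (by omega)
    have hne : (U \ N).Nonempty := by
      rw [← card_pos, card_sdiff_of_subset h1]; omega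
    obtain ⟨a, ha, hm⟩ := exists_min_image (U \ N) f hne
    obtain ⟨ha1, ha2⟩ := mem_sdiff.1 ha
    refine ⟨insert a N, insert_subset ha1 h1, by rw [card_insert_of_notMem ha2, h2], ?_⟩
    intro z0 hz0 z hz hz'
    rw [mem_insert, not_or] at hz'
    rcases mem_insert.1 hz0 with rfl | h
    · exact hm z (mem_sdiff.2 ⟨hz, hz'.2⟩)
    · exact h3 z0 h z hz hz'.2

lemma hitting (U : Finset ι) (hU : U.Nonempty) (N : ι → Finset ι) (t : ℕ) (htU : t ≤ U.card)
    (hN : ∀ x, N x ⊆ U ∧ t ≤ (N x).card) : ∀ (k : ℕ) (X : Finset ι), ∃ H : Finset ι,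
      H.card ≤ k ∧ ((X.filter fun x => ∀ z ∈ H, z ∉ N x).card : ℝ) ≤
        X.card * (1 - t / U.card) ^ k := by
  have hu : (0 : ℝ) < U.card := by exact_mod_cast hU.card_pos
  have h0 : (0 : ℝ) ≤ 1 - t / U.card := by
    rw [sub_nonneg, div_le_one hu]; exact_mod_cast htU
  intro k
  induction k with
  | zero => exact fun X => ⟨∅, le_rfl, by simp⟩
  | succ k ih =>
    intro X
    obtain ⟨z, _, hz⟩ : ∃ z ∈ U, (X.card : ℝ) * t / U.card ≤
        ((X.filter fun x => z ∈ N x).card : ℝ) := by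
      refine exists_le_of_sum_le hU ?_
      rw [sum_const, nsmul_eq_mul, mul_div_cancel₀ _ hu.ne']
      simp only [card_filter, Nat.cast_sum]
      rw [sum_comm, ← nsmul_eq_mul, ← sum_const]
      refine sum_le_sum fun x _ => ?_
      rw [← Nat.cast_sum, ← card_filter, filter_mem_eq_inter, inter_eq_right.2 (hN x).1]
      exact_mod_cast (hN x).2
    obtain ⟨H, h1, h2⟩ := ih (X.filter fun x => z ∉ N x)
    refine ⟨insert z H, (card_insert_le _ _).trans (by omega), ?_⟩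
    have e : (X.filter fun x => ∀ w ∈ insert z H, w ∉ N x) =
        (X.filter fun x => z ∉ N x).filter fun x => ∀ w ∈ H, w ∉ N x := by
      rw [filter_filter]; simp only [forall_mem_insert]
    rw [e]
    refine h2.trans ?_
    have e2 : ((X.filter fun x => z ∈ N x).card : ℝ) + (X.filter fun x => z ∉ N x).card =
        X.card := by exact_mod_cast card_filter_add_card_filter_not (s := X) (fun x => z ∈ N x)
    rw [pow_succ', ← mul_assoc]
    refine mul_le_mul_of_nonneg_right ?_ (pow_nonneg h0 _)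
    rw [mul_sub, mul_one, ← mul_div_assoc]
    linarith

lemma hier_step [Fintype ι] [Nonempty ι] (ρ : ι → ι → ℝ) {g t : ℕ} (hg : 1 ≤ g)
    (hn : (Fintype.card ι : ℝ) < Real.exp (t / g)) (k : ℕ) (U : Finset ι) :
    ∃ U' : Finset ι, U.Nonempty → U.card ≤ max t (g * k) → U'.Nonempty ∧ U'.card ≤ max t k ∧
      ∀ x, ∀ W ⊆ U, (∀ z ∈ W, ∀ z' ∈ U', ρ x z < ρ x z') → W.card ≤ t := by
  by_cases h : U.card ≤ t
  · exact ⟨U, fun h1 _ => ⟨h1, le_max_of_le_left h, fun x W hW _ => (card_le_card hW).trans h⟩⟩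
  by_cases h' : U.Nonempty ∧ U.card ≤ max t (g * k)
  swap
  · exact ⟨U, fun h1 h2 => absurd ⟨h1, h2⟩ h'⟩
  obtain ⟨hU, hU'⟩ := h'
  have hk : U.card ≤ g * k := by omega
  choose N hN1 hN2 hN3 using fun x => nearest U (ρ x) t (by omega)
  obtain ⟨H, h1, h2⟩ := hitting U hU N t (by omega) (fun x => ⟨hN1 x, (hN2 x).ge⟩) k univ
  have hu : (0 : ℝ) < U.card := by exact_mod_cast hU.card_pos
  have h3 : (1 - (t : ℝ) / U.card) ^ k ≤ Real.exp (-(t / g)) := by
    have a : 1 - (t : ℝ) / U.card ≤ Real.exp (-(t / U.card)) := by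
      linarith [Real.add_one_le_exp (-(t / U.card : ℝ))]
    have b : (0 : ℝ) ≤ 1 - t / U.card := by
      rw [sub_nonneg, div_le_one hu]; exact_mod_cast (by omega : t ≤ U.card)
    refine (pow_le_pow_left₀ b a k).trans ?_
    rw [← Real.exp_nat_mul]
    refine Real.exp_le_exp.2 ?_
    have c : (U.card : ℝ) ≤ g * k := by exact_mod_cast hk
    have d : (0 : ℝ) < g := by exact_mod_cast hg
    rw [mul_neg, neg_le_neg_iff, ← mul_div_assoc, div_le_div_iff₀ d hu]
    have := mul_le_mul_of_nonneg_left c (Nat.cast_nonneg t : (0 : ℝ) ≤ t)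
    linarith
  have h4' : ((univ : Finset ι).card : ℝ) * Real.exp (-(t / g)) < ((1 : ℕ) : ℝ) := by
    rw [card_univ, Real.exp_neg, ← div_eq_mul_inv, Nat.cast_one, div_lt_one (Real.exp_pos _)]
    exact hn
  have h4 := Nat.cast_lt.1
    (h2.trans_lt ((mul_le_mul_of_nonneg_left h3 (Nat.cast_nonneg _)).trans_lt h4'))
  have h5 : ∀ x, ∃ z ∈ H, z ∈ N x := by
    intro x
    by_contra hc
    push Not at hc
    rw [Nat.lt_one_iff, card_eq_zero] at h4
    exact (@filter_eq_empty_iff _ _ (_) _).1 h4 (mem_univ x) hc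
  refine ⟨H, fun _ _ => ⟨?_, le_max_of_le_right h1, fun x W hW hW' => ?_⟩⟩
  · obtain ⟨z, hz, _⟩ := h5 (Classical.arbitrary ι)
    exact ⟨z, hz⟩
  · obtain ⟨z0, a, b⟩ := h5 x
    rw [← hN2 x]
    refine card_le_card fun z hz => ?_
    by_contra hc
    exact absurd (hW' z hz z0 a) (not_lt.2 (hN3 x z0 b z (hW hz) hc))

lemma hierarchy [Fintype ι] [Nonempty ι] (ρ : ι → ι → ℝ) {g t J : ℕ} (hg : 1 ≤ g) (ht : 1 ≤ t)
    (hn : (Fintype.card ι : ℝ) < Real.exp (t / g)) (hJ : Fintype.card ι ≤ g ^ J) :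
    ∃ (Y : ℕ → Finset ι) (y0 : ι), Y 0 = univ ∧ Y (J + 1) = {y0} ∧ (∀ j, (Y j).Nonempty) ∧
      ∀ j ≤ J + 1, ∀ x, ∀ W ⊆ Y j,
        (j < J + 1 → ∀ z ∈ W, ∀ z' ∈ Y (j + 1), ρ x z < ρ x z') → W.card ≤ t := by
  choose F hF using hier_step ρ hg hn
  obtain ⟨Y, hY0, hY1⟩ : ∃ Y : ℕ → Finset ι, Y 0 = univ ∧
      ∀ j, Y (j + 1) = F (g ^ (J - (j + 1))) (Y j) :=
    ⟨fun j => Nat.rec univ (fun j U => F (g ^ (J - (j + 1))) U) j, rfl, fun _ => rfl⟩
  have pw : ∀ j, g ^ (J - j) ≤ g * g ^ (J - (j + 1)) := fun j => by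
    rw [← pow_succ']; exact Nat.pow_le_pow_right hg (by omega)
  have inv : ∀ j, (Y j).Nonempty ∧ (Y j).card ≤ max t (g ^ (J - j)) := by
    intro j
    induction j with
    | zero => rw [hY0]; exact ⟨univ_nonempty, le_max_of_le_right hJ⟩
    | succ j ih =>
      obtain ⟨a, b, _⟩ := hF _ (Y j) ih.1 (ih.2.trans (max_le_max le_rfl (pw j)))
      rw [hY1]; exact ⟨a, b⟩
  refine ⟨fun j => if j ≤ J then Y j else {Classical.arbitrary ι}, Classical.arbitrary ι,
    by simp [hY0], by simp, fun j => ?_, fun j hj x W hW h => ?_⟩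
  · dsimp only; split_ifs
    · exact (inv j).1
    · exact singleton_nonempty _
  · dsimp only at hW h
    rcases Nat.lt_trichotomy j J with a | a | a
    · rw [if_pos a.le] at hW
      rw [if_pos (by omega : j + 1 ≤ J), hY1] at h
      exact (hF _ (Y j) (inv j).1 ((inv j).2.trans (max_le_max le_rfl (pw j)))).2.2 x W hW
        (h (by omega))
    · rw [if_pos a.le] at hW
      have := (card_le_card hW).trans (inv j).2
      rw [a, Nat.sub_self, pow_zero] at this
      omega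
    · rw [if_neg (by omega)] at hW
      exact (card_le_card hW).trans (by simpa using ht)

end Vale.Agent.P249
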