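import Vale.Agent.P249.Level3

namespace Vale.Agent.P249
open Finset

namespace Su
variable {ι : Type*} (s : Su ι)

noncomputable def Sg (δ : ℝ) (x : ι) (f : ι → ℝ) (l : ℕ) : ℝ :=
  δ + ∑ l' ∈ range (l + 1), s.e l' x f
noncomputable def σ (l : ℕ) : ℝ := s.E l / s.Q
noncomputable def W (l : ℕ) (x : ι) (f : ι → ℝ) : ℝ :=
  ∑ j ∈ range (s.J + 1), 32 ^ j * s.PP l j x f

lemma σ_pos (l : ℕ) : 0 < s.σ l := div_pos (s.E_pos l) s.Q_pos
lemma σ_succ (l : ℕ) : s.σ l = 2 * s.σ (l + 1) := by unfold σ; rw [s.E_succ l]; ring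

lemma Sg_succ (δ : ℝ) (x : ι) (f : ι → ℝ) (l : ℕ) :
    s.Sg δ x f (l + 1) = s.Sg δ x f l + s.e (l + 1) x f := by
  unfold Sg; rw [sum_range_succ _ (l + 1)]; ring

lemma Sg_zero (δ : ℝ) (x : ι) (f : ι → ℝ) : s.Sg δ x f 0 = δ + s.e 0 x f := by
  unfold Sg; simp

lemma Sg_mono (δ : ℝ) (x : ι) (f : ι → ℝ) : Monotone (s.Sg δ x f) :=
  monotone_nat_of_le_succ fun l => by rw [Sg_succ]; linarith [s.e_nonneg (l + 1) x f]

lemma Sg_ge (δ : ℝ) (x : ι) (f : ι → ℝ) (l : ℕ) : δ ≤ s.Sg δ x f l :=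
  le_add_of_nonneg_right (sum_nonneg fun _ _ => s.e_nonneg _ _ _)

lemma e_le_Sg {δ : ℝ} (hδ : 0 ≤ δ) (x : ι) (f : ι → ℝ) (l : ℕ) : s.e l x f ≤ s.Sg δ x f l := by
  rcases l with _ | l
  · rw [Sg_zero]; linarith
  · rw [Sg_succ]; linarith [s.Sg_ge δ x f l]

lemma a_le (l : ℕ) (x : ι) (f : ι → ℝ) :
    |s.mix (l + 1) x f - s.mix l x f| ≤ s.σ (l + 1) * s.e (l + 1) x f := by
  have hE := s.E_pos (l + 1)
  have hQ := s.Q_pos
  have e : s.σ (l + 1) * s.e (l + 1) x f =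
      |s.mix (l + 1) x f - s.mix l x f| + s.U (l + 1) x f := by
    unfold σ e; simp only [Nat.add_sub_cancel]; field_simp
  rw [e]; linarith [s.U_nonneg (l + 1) x f]

lemma mix_close (l : ℕ) (x : ι) {h h' : ι → ℝ} {c : ℝ} (hc : ∀ z, |h z - h' z| ≤ c) :
    |s.mix l x h - s.mix l x h'| ≤ c := by
  have e : s.mix l x h - s.mix l x h' =
      ∑ j ∈ range (s.J + 1), s.π l j x * (s.Ex l j x h - s.Ex l j x h') := by
    simp only [mul_sub, sum_sub_distrib]; rfl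
  rw [e, ← one_mul c, ← s.π_sum l x, sum_mul]
  refine (abs_sum_le_sum_abs _ _).trans (sum_le_sum fun j hj => ?_)
  rw [abs_mul, abs_of_nonneg (s.π_nonneg _ _ _)]
  by_cases ha : 0 < s.γ l j x
  · apply mul_le_mul_of_nonneg_left _ (s.π_nonneg _ _ _)
    have hZ := (s.Zμ (Nat.lt_succ_iff.1 (mem_range.1 hj)) ha).1
    have e2 : s.Ex l j x h - s.Ex l j x h' = s.Ex l j x (fun z => h z - h' z) := by
      unfold Ex av; simp only [mul_sub, sum_sub_distrib, sub_div]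
    rw [e2]
    have h1 := abs_av_sub_le (h := fun z => h z - h' z) (g := fun _ => c) hZ
      (fun z _ => s.kx_nonneg l j x z) 0 (fun z _ => by rw [sub_zero]; exact hc z)
    rw [sub_zero] at h1
    refine h1.trans (le_of_eq ?_)
    unfold av; rw [← sum_mul]; field_simp
  · rw [s.π_dead ha]; simp

lemma De (l : ℕ) (x y : ι) (f : ι → ℝ) {Θ : ℝ} (h1 : |s.mix l x f - s.mix l y f| ≤ Θ)
    (h2 : |s.mix (l - 1) x f - s.mix (l - 1) y f| ≤ Θ)
    (h3 : |s.mix l x (fun z => |f z - s.mix l y f|) - s.mix l y (fun z => |f z - s.mix l y f|)|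
      ≤ Θ) : |s.e l x f - s.e l y f| * s.σ l ≤ 4 * Θ := by
  have hE := s.E_pos l
  have hQ := s.Q_pos
  have h4 : |s.U l x f - s.mix l x (fun z => |f z - s.mix l y f|)| ≤ Θ := by
    refine s.mix_close l x fun z => (abs_abs_sub_abs_le_abs_sub _ _).trans ?_
    rw [sub_sub_sub_cancel_left, abs_sub_comm]; exact h1
  have h5 := abs_abs_sub_abs_le_abs_sub (s.mix l x f - s.mix (l - 1) x f)
    (s.mix l y f - s.mix (l - 1) y f)
  have h3' : |s.mix l x (fun z => |f z - s.mix l y f|) - s.U l y f| ≤ Θ := h3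
  have e : (s.e l x f - s.e l y f) * s.σ l =
      (|s.mix l x f - s.mix (l - 1) x f| - |s.mix l y f - s.mix (l - 1) y f|) +
        (s.U l x f - s.U l y f) := by
    unfold σ e; field_simp; ring
  rw [← abs_of_pos (s.σ_pos l), ← abs_mul, e]
  have h6 : |s.mix l x f - s.mix (l - 1) x f - (s.mix l y f - s.mix (l - 1) y f)| ≤ 2 * Θ := by
    rw [abs_le] at h1 h2 ⊢; constructor <;> linarith
  have h7 := h5.trans h6
  rw [abs_le] at h4 h3' h7 ⊢
  constructor <;> linarith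

lemma DS (δ : ℝ) (x y : ι) (f : ι → ℝ) (i : ℕ) (Θ : ℕ → ℝ) (hΘ : Monotone Θ)
    (h : ∀ l ≤ i, |s.e l x f - s.e l y f| * s.σ l ≤ 4 * Θ l) :
    ∀ l ≤ i, |s.Sg δ x f l - s.Sg δ y f l| * s.σ l ≤ 8 * Θ l := by
  intro l
  induction l with
  | zero =>
    intro hl
    have := h 0 hl
    have h0 : 0 ≤ |s.e 0 x f - s.e 0 y f| * s.σ 0 := mul_nonneg (abs_nonneg _) (s.σ_pos _).le
    rw [Sg_zero, Sg_zero, add_sub_add_left_eq_sub]; linarith
  | succ l ih =>
    intro hl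
    have h1 := ih (by omega)
    have h2 := h (l + 1) hl
    have h3 := hΘ (Nat.le_succ l)
    rw [s.σ_succ] at h1
    rw [Sg_succ, Sg_succ, add_sub_add_comm]
    have h4 := mul_le_mul_of_nonneg_right
      (abs_add_le (s.Sg δ x f l - s.Sg δ y f l) (s.e (l + 1) x f - s.e (l + 1) y f))
      (s.σ_pos (l + 1)).le
    simp only [Nat.succ_eq_add_one] at h3
    linarith

lemma D0 (x y : ι) (f : ι → ℝ) (i : ℕ) {S τ lam δ : ℝ} (hδ : 0 ≤ δ)
    (hS : ∀ l ≤ i, ∀ j ≤ s.J, s.PP l j x f ≤ S ∧ s.PP l j y f ≤ S) (hτ : 1 ≤ τ)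
    (hτ' : ∀ l ≤ i, ∀ j ≤ s.J, (0 < s.γ l j x ∨ 0 < s.γ l j y) → τ ≤ 32 ^ j)
    (hl : 1 ≤ lam) (h0 : s.mix 0 x f = s.mix 0 y f) :
    ∀ l ≤ i, |s.mix l x f - s.mix l y f| ≤
        36 * s.μ * s.ρ x y * (lam * (s.Sg δ x f l + s.Sg δ y f l) / τ + (lam ^ s.c)⁻¹ * S) ∧
      |s.Sg δ x f l - s.Sg δ y f l| * s.σ l ≤
        8 * (36 * s.μ * s.ρ x y *
          (lam * (s.Sg δ x f l + s.Sg δ y f l) / τ + (lam ^ s.c)⁻¹ * S)) := by
  have hρ := s.ρ0 x y
  have hQ := s.Q_pos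
  have hμ := s.μ_ge
  have hS0 : 0 ≤ S := (s.PP_nonneg 0 0 x f).trans (hS 0 (Nat.zero_le _) 0 (Nat.zero_le _)).1
  have hl0 : 0 < lam := by linarith
  have hτ0 : 0 < τ := by linarith
  obtain ⟨Θ, hΘ⟩ : ∃ Θ : ℕ → ℝ, Θ = fun l =>
    36 * s.μ * s.ρ x y * (lam * (s.Sg δ x f l + s.Sg δ y f l) / τ + (lam ^ s.c)⁻¹ * S) :=
    ⟨_, rfl⟩
  have hΘ' : ∀ l, 36 * s.μ * s.ρ x y *
    (lam * (s.Sg δ x f l + s.Sg δ y f l) / τ + (lam ^ s.c)⁻¹ * S) = Θ l := fun l => by rw [hΘ]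
  simp only [hΘ']
  have mono : Monotone Θ := by
    intro a b hab
    rw [← hΘ', ← hΘ']
    have := s.Sg_mono δ x f hab
    have := s.Sg_mono δ y f hab
    gcongr
  have cmp : ∀ l ≤ i, 4 * s.μ * s.Q * s.ρ x y ≤ s.E l * τ → ∀ g, Lip1 g →
      |s.mix l x (fun z => g (f z)) - s.mix l y (fun z => g (f z))| ≤ Θ l := by
    intro l hl' hc g hg
    refine (s.B2 l x y f hg (fun j hj => (hS l hl' j hj).1) (fun j hj => (hS l hl' j hj).2) hτ
      (hτ' l hl') hc hl0).trans ?_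
    rw [← hΘ']
    have := s.e_le_Sg hδ x f l
    have := s.e_le_Sg hδ y f l
    gcongr
  have ncmp : ∀ l, ¬ 4 * s.μ * s.Q * s.ρ x y ≤ s.E l * τ → ∀ t, 0 ≤ t →
      s.σ l * t ≤ 36 * s.μ * s.ρ x y * (lam * t / τ) := by
    intro l hc t ht
    push Not at hc
    have a : s.σ l ≤ 4 * s.μ * s.ρ x y / τ := by
      unfold σ; rw [div_le_div_iff₀ hQ hτ0]; linarith
    have b := mul_le_mul_of_nonneg_right a ht
    have c : 0 ≤ s.μ * s.ρ x y * (t / τ) := by positivity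
    have d := mul_le_mul_of_nonneg_right hl c
    have e1 : 4 * s.μ * s.ρ x y / τ * t = 4 * (s.μ * s.ρ x y * (t / τ)) := by ring
    have e2 : 36 * s.μ * s.ρ x y * (lam * t / τ) = 36 * (lam * (s.μ * s.ρ x y * (t / τ))) := by
      ring
    linarith
  have d1 : ∀ l ≤ i, |s.mix l x f - s.mix l y f| ≤ Θ l := by
    intro l
    induction l with
    | zero =>
      intro _
      rw [h0, sub_self, abs_zero, ← hΘ']
      have := s.Sg_ge δ x f 0
      have := s.Sg_ge δ y f 0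
      have : 0 ≤ s.Sg δ x f 0 + s.Sg δ y f 0 := by linarith
      positivity
    | succ l ih =>
      intro hl'
      by_cases hc : 4 * s.μ * s.Q * s.ρ x y ≤ s.E (l + 1) * τ
      · exact cmp _ hl' hc (fun a => a) lip1_id
      · have a := ih (by omega)
        have b := ncmp _ hc _ (add_nonneg (s.e_nonneg (l + 1) x f) (s.e_nonneg (l + 1) y f))
        have c := s.a_le l x f
        have d := s.a_le l y f
        have e : Θ (l + 1) = Θ l + 36 * s.μ * s.ρ x y *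
            (lam * (s.e (l + 1) x f + s.e (l + 1) y f) / τ) := by
          rw [← hΘ', ← hΘ', Sg_succ, Sg_succ]; ring
        rw [abs_le] at a c d ⊢
        constructor <;> linarith
  have d2 := s.DS δ x y f i Θ mono (fun l hl' => by
    by_cases hc : 4 * s.μ * s.Q * s.ρ x y ≤ s.E l * τ
    · exact s.De l x y f (d1 l hl') ((d1 (l - 1) (by omega)).trans (mono (Nat.sub_le _ _)))
        (cmp l hl' hc (fun a => |a - s.mix l y f|) (lip1_abs _))
    · have a := s.e_le_Sg hδ x f l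
      have b := s.e_le_Sg hδ y f l
      have c := s.e_nonneg l x f
      have d := s.e_nonneg l y f
      have e := ncmp l hc _ (add_nonneg (c.trans a) (d.trans b))
      have g : |s.e l x f - s.e l y f| ≤ s.Sg δ x f l + s.Sg δ y f l := by
        rw [abs_le]; constructor <;> linarith
      have k := mul_le_mul_of_nonneg_right g (s.σ_pos l).le
      have m : 0 ≤ 36 * s.μ * s.ρ x y * ((lam ^ s.c)⁻¹ * S) := by positivity
      have n := hΘ' l
      have o : 0 ≤ |s.e l x f - s.e l y f| * s.σ l := mul_nonneg (abs_nonneg _) (s.σ_pos _).le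
      linarith)
  exact fun l hl' => ⟨d1 l hl', d2 l hl'⟩

lemma D0' (x y : ι) (f : ι → ℝ) (i : ℕ) {F : ℝ} (δ : ℝ)
    (hS : ∀ l ≤ i, ∀ j ≤ s.J, s.PP l j x f ≤ F ∧ s.PP l j y f ≤ F)
    (hv : |f x - f y| ≤ s.ρ x y * F) :
    ∀ l ≤ i, |s.mix l x f - s.mix l y f| ≤ 18 * s.μ * s.ρ x y * F ∧
      |s.Sg δ x f l - s.Sg δ y f l| * s.σ l ≤ 8 * (18 * s.μ * s.ρ x y * F) := by
  have hρ := s.ρ0 x y
  have hμ := s.μ_ge
  have hS0 : 0 ≤ F := (s.PP_nonneg 0 0 x f).trans (hS 0 (Nat.zero_le _) 0 (Nat.zero_le _)).1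
  have cmp : ∀ l ≤ i, ∀ g, Lip1 g →
      |s.mix l x (fun z => g (f z)) - s.mix l y (fun z => g (f z))| ≤
        18 * s.μ * s.ρ x y * F := by
    intro l hl' g hg
    refine (s.B1 l x y f hg (fun j hj => (hS l hl' j hj).1)
      (fun j hj => (hS l hl' j hj).2)).trans ?_
    have := mul_le_mul_of_nonneg_right hμ (by positivity : 0 ≤ s.ρ x y * F)
    linarith
  have d2 := s.DS δ x y f i (fun _ => 18 * s.μ * s.ρ x y * F) monotone_const (fun l hl' =>
    s.De l x y f (cmp l hl' (fun a => a) lip1_id) (cmp (l - 1) (by omega) (fun a => a) lip1_id)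
      (cmp l hl' (fun a => |a - s.mix l y f|) (lip1_abs _)))
  exact fun l hl' => ⟨cmp l hl' (fun a => a) lip1_id, d2 l hl'⟩

lemma W_nonneg (l : ℕ) (x : ι) (f : ι → ℝ) : 0 ≤ s.W l x f :=
  sum_nonneg fun j _ => mul_nonneg (by positivity) (s.PP_nonneg l j x f)

lemma πP_le (l : ℕ) (x : ι) (f : ι → ℝ) :
    ∑ j ∈ range (s.J + 1), s.π l j x * s.P l j x f ≤ s.σ l * s.W l x f := by
  unfold W
  rw [mul_sum]
  refine sum_le_sum fun j hj => ?_
  have hσ := s.σ_pos l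
  have hP := s.PP_nonneg l j x f
  by_cases h : 0 < s.γ l j x
  · refine (mul_le_of_le_one_left (s.P_nonneg _ _ _ _)
      (s.π_le_one (Nat.lt_succ_iff.1 (mem_range.1 hj)) x)).trans (le_of_eq ?_)
    rw [s.P_eq h]; unfold σ R; ring
  · rw [s.π_dead h, zero_mul]; positivity

lemma e_le (l : ℕ) (x : ι) (f : ι → ℝ) : s.e l x f ≤ 3 * s.W l x f + 2 * s.W (l - 1) x f := by
  have h1 := (s.mix_dev l x f).trans (s.πP_le l x f)
  have h2 := (s.mix_dev (l - 1) x f).trans (s.πP_le (l - 1) x f)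
  have h3 : s.σ (l - 1) ≤ 2 * s.σ l := by
    rcases l with _ | l
    · have := s.σ_pos 0; simp only [Nat.zero_sub]; linarith
    · exact (s.σ_succ l).le
  have h4 : s.U l x f ≤ 2 * (s.σ l * s.W l x f) := by
    have a : s.U l x f ≤ ∑ j ∈ range (s.J + 1),
        (s.π l j x * s.P l j x f + s.π l j x * |f x - s.mix l x f|) := by
      rw [U_eq]
      refine sum_le_sum fun j hj => ?_
      rw [← mul_add]
      by_cases h : 0 < s.γ l j x
      · exact mul_le_mul_of_nonneg_left (s.u_le (Nat.lt_succ_iff.1 (mem_range.1 hj)) h f)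
          (s.π_nonneg _ _ _)
      · rw [s.π_dead h]; simp
    rw [sum_add_distrib, ← sum_mul, s.π_sum] at a
    linarith [s.πP_le l x f]
  have h5 := mul_le_mul_of_nonneg_right h3 (s.W_nonneg (l - 1) x f)
  have h6 : |s.mix l x f - s.mix (l - 1) x f| + s.U l x f ≤
      s.σ l * (3 * s.W l x f + 2 * s.W (l - 1) x f) := by
    have := abs_sub_le (s.mix l x f) (f x) (s.mix (l - 1) x f)
    rw [abs_sub_comm _ (f x)] at this
    linarith
  have hE := s.E_pos l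
  have hQ := s.Q_pos
  refine (mul_le_mul_of_nonneg_left h6 (by positivity)).trans (le_of_eq ?_)
  unfold σ; field_simp

lemma Sg_tail (δ : ℝ) (x : ι) (f : ι → ℝ) (a : ℕ) : ∀ L, a ≤ L →
    s.Sg δ x f L + 2 * s.W L x f ≤ s.Sg δ x f a + 5 * ∑ l ∈ Icc a L, s.W l x f := by
  intro L hL
  induction L, hL using Nat.le_induction with
  | base => simp only [Icc_self, sum_singleton]; linarith [s.W_nonneg a x f]
  | succ L hL ih =>
    rw [Sg_succ, sum_Icc_succ_top (by omega)]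
    have := s.e_le (L + 1) x f
    simp only [Nat.add_sub_cancel] at this
    linarith

lemma geo32 (k : ℕ) : ∑ j ∈ range (k + 1), (32 : ℝ) ^ j ≤ 2 * 32 ^ k := by
  induction k with
  | zero => simp
  | succ k ih =>
    rw [sum_range_succ, pow_succ]
    have : (0 : ℝ) < 32 ^ k := by positivity
    linarith

lemma W_sum (x : ι) (f : ι → ℝ) {a L k : ℕ} {F : ℝ} (hk : k ≤ s.J)
    (hF : ∀ j ≤ s.J, ∑ l ∈ range (L + 1), s.PP l j x f ≤ F)
    (h : ∀ l, a ≤ l → ∀ j ≤ s.J, 0 < s.γ l j x → j ≤ k) :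
    ∑ l ∈ Icc a L, s.W l x f ≤ 2 * 32 ^ k * F := by
  have hF0 : 0 ≤ F := (sum_nonneg fun l _ => s.PP_nonneg l 0 x f).trans (hF 0 (Nat.zero_le _))
  have h1 : ∀ l ∈ Icc a L, s.W l x f = ∑ j ∈ range (k + 1), 32 ^ j * s.PP l j x f := by
    intro l hl
    symm
    refine sum_subset (range_subset_range.2 (by omega)) fun j hj hj' => ?_
    have : ¬ 0 < s.γ l j x := fun hh => hj' (mem_range.2 (Nat.lt_succ_of_le
      (h l (mem_Icc.1 hl).1 j (Nat.lt_succ_iff.1 (mem_range.1 hj)) hh)))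
    unfold PP; rw [if_neg this, mul_zero]
  rw [sum_congr rfl h1, sum_comm]
  refine le_trans (sum_le_sum fun j hj => ?_)
    ((sum_mul _ _ F).symm.le.trans (mul_le_mul_of_nonneg_right (geo32 k) hF0))
  rw [← mul_sum]
  refine mul_le_mul_of_nonneg_left (le_trans ?_ (hF j (by have := mem_range.1 hj; omega)))
    (by positivity)
  exact sum_le_sum_of_subset_of_nonneg (fun l hl => mem_range.2 (by have := mem_Icc.1 hl; omega))
    (fun l _ _ => s.PP_nonneg _ _ _ _)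

lemma Sg_total (δ : ℝ) (x : ι) (f : ι → ℝ) {L : ℕ} {F : ℝ}
    (hF : ∀ j ≤ s.J, ∑ l ∈ range (L + 1), s.PP l j x f ≤ F) :
    s.Sg δ x f L ≤ δ + 20 * 32 ^ s.J * F := by
  have h1 := s.Sg_tail δ x f 0 L (Nat.zero_le _)
  have h2 := s.W_sum x f (a := 0) le_rfl hF (fun _ _ _ hj _ => hj)
  have h3 : s.W 0 x f ≤ ∑ l ∈ Icc 0 L, s.W l x f :=
    single_le_sum (f := fun l => s.W l x f) (fun l _ => s.W_nonneg l x f)
      (mem_Icc.2 ⟨le_rfl, Nat.zero_le _⟩)
  have h4 := s.e_le 0 x f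
  have h5 := s.W_nonneg L x f
  rw [Sg_zero] at h1
  simp only [Nat.zero_sub] at h4
  linarith

lemma class_mono {x y : ι} {i l l' j j' : ℕ} (hρ : s.ρ x y ≤ s.E i) (hl : l ≤ i)
    (hl' : i + 3 ≤ l') (hj' : j' ≤ s.J) (h : 0 < s.γ l j x) (h' : 0 < s.γ l' j' y) : j' ≤ j := by
  by_contra hc
  push Not at hc
  have a := s.alive2 h hc hj'
  have b := s.alive1 h'
  have c := s.rlip j' x y
  have d := s.E_anti hl
  have e := s.E_anti hl'
  have g : s.E i = 8 * s.E (i + 3) := by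
    rw [s.E_succ i, s.E_succ (i + 1), s.E_succ (i + 1 + 1)]; ring
  have k : (32 : ℝ) ^ 1 ≤ 32 ^ j' := pow_le_pow_right₀ (by norm_num) (by omega)
  have hE := s.E_pos i
  unfold R at a b
  generalize (32 : ℝ) ^ j' = T at *
  have h1 := mul_le_mul_of_nonneg_right d (by linarith : 0 ≤ T)
  have h2 := mul_le_mul_of_nonneg_right e (by linarith : 0 ≤ T)
  have h3 := mul_le_mul_of_nonneg_left k hE.le
  have h4 : s.E (i + 3) * T = s.E i * T / 8 := by rw [g]; ring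
  linarith

lemma exists_jstar {x y : ι} {i : ℕ} (hxx : s.ρ x x ≤ s.E i) (hyy : s.ρ y y ≤ s.E i)
    (hρ : s.ρ x y ≤ s.E i) : ∃ k ≤ s.J,
    (∀ l ≤ i, ∀ j ≤ s.J, (0 < s.γ l j x ∨ 0 < s.γ l j y) → k ≤ j) ∧
    (∀ l, i + 3 ≤ l → ∀ j ≤ s.J, (0 < s.γ l j x ∨ 0 < s.γ l j y) → j ≤ k) := by
  classical
  have ex : ∃ j, j ≤ s.J ∧ ∃ l ≤ i, (0 < s.γ l j x ∨ 0 < s.γ l j y) := by
    obtain ⟨j, hj, h⟩ := s.exists_γ_one 0 x
    exact ⟨j, hj, 0, Nat.zero_le _, Or.inl (by rw [h]; exact one_pos)⟩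
  obtain ⟨h1, l0, hl0, h2⟩ := Nat.find_spec ex
  refine ⟨Nat.find ex, h1, fun l hl j hj h => Nat.find_min' ex ⟨hj, l, hl, h⟩,
    fun l hl j hj h => ?_⟩
  rcases h2 with h2 | h2 <;> rcases h with h | h
  · exact s.class_mono hxx hl0 hl hj h2 h
  · exact s.class_mono hρ hl0 hl hj h2 h
  · exact s.class_mono (by rw [s.symm]; exact hρ) hl0 hl hj h2 h
  · exact s.class_mono hyy hl0 hl hj h2 h

lemma mix_top {y0 : ι} (hY : s.Y s.J = {y0}) (x : ι) (hx : 8 * s.r s.J x ≤ s.R 0 s.J)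
    (f : ι → ℝ) : s.mix 0 x f = f y0 := by
  have h1 : ∀ j ∈ range (s.J + 1), s.π 0 j x * s.Ex 0 j x f = s.π 0 j x * f y0 := by
    intro j hj
    have hj' := Nat.lt_succ_iff.1 (mem_range.1 hj)
    by_cases h : 0 < s.γ 0 j x
    · have e : j = s.J := by
        by_contra hc
        have := s.alive2 h (lt_of_le_of_ne hj' hc) le_rfl
        linarith
      subst e
      have hZ := (s.Zμ le_rfl h).1
      unfold Ex av
      rw [hY] at hZ ⊢
      simp only [sum_singleton] at hZ ⊢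
      field_simp
    · rw [s.π_dead h]; simp
  unfold mix
  rw [sum_congr rfl h1, ← sum_mul, s.π_sum, one_mul]

lemma mix_bot (l : ℕ) (x : ι) (f : ι → ℝ) (hx : ∀ z, s.ρ x z < s.R l s.J → f z = f x) :
    s.mix l x f = f x := by
  have h1 : ∀ j ∈ range (s.J + 1), s.π l j x * s.P l j x f = 0 := by
    intro j hj
    have hj' := Nat.lt_succ_iff.1 (mem_range.1 hj)
    have : s.P l j x f = 0 := by
      unfold P av
      rw [sum_eq_zero, zero_div]
      intro z _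
      by_cases h : s.ρ x z / s.R l j < 1
      · dsimp only
        rw [hx z, sub_self, abs_zero, mul_zero]
        rw [div_lt_one (s.R_pos _ _)] at h
        exact h.trans_le (mul_le_mul_of_nonneg_left (pow_le_pow_right₀ (by norm_num) hj')
          (s.E_pos l).le)
      · unfold Su.hx hh; rw [if_neg h, zero_mul]
    rw [this, mul_zero]
  have h2 := s.mix_dev l x f
  rw [sum_eq_zero h1] at h2
  have := abs_nonpos_iff.1 h2
  linarith

end Su
end Vale.Agent.P249
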