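import Vale.Agent.P249.Defs
import Vale.Agent.P249.Level4

namespace Vale.Agent.P249
open Finset

section
variable {κ : Type*} [Fintype κ] {p : ℝ}

lemma lp_nonneg (v : κ → ℝ) : 0 ≤ lp p v :=
  Real.rpow_nonneg (sum_nonneg fun _ _ => Real.rpow_nonneg (abs_nonneg _) _) _

lemma lp_rpow (hp : 1 ≤ p) (v : κ → ℝ) : lp p v ^ p = ∑ k, |v k| ^ p := by
  unfold lp
  rw [← Real.rpow_mul (sum_nonneg fun _ _ => Real.rpow_nonneg (abs_nonneg _) _),
    one_div_mul_cancel (by linarith), Real.rpow_one]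

lemma lp_add_le (hp : 1 ≤ p) (v w : κ → ℝ) : lp p (fun k => v k + w k) ≤ lp p v + lp p w :=
  Real.Lp_add_le univ v w hp

lemma lp_mono (hp : 1 ≤ p) {v w : κ → ℝ} (h : ∀ k, |v k| ≤ w k) : lp p v ≤ lp p w := by
  unfold lp
  refine Real.rpow_le_rpow (sum_nonneg fun _ _ => Real.rpow_nonneg (abs_nonneg _) _)
    (sum_le_sum fun k _ => Real.rpow_le_rpow (abs_nonneg _) ((h k).trans (le_abs_self _))
      (by linarith)) (by positivity)

lemma lp_congr {v w : κ → ℝ} (h : ∀ k, |v k| = |w k|) : lp p v = lp p w := by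
  unfold lp; simp only [h]

lemma lp_smul (hp : 1 ≤ p) {c : ℝ} (hc : 0 ≤ c) (v : κ → ℝ) :
    lp p (fun k => c * v k) = c * lp p v := by
  unfold lp
  simp only [abs_mul, abs_of_nonneg hc, Real.mul_rpow hc (abs_nonneg _), ← mul_sum]
  rw [Real.mul_rpow (Real.rpow_nonneg hc _)
    (sum_nonneg fun _ _ => Real.rpow_nonneg (abs_nonneg _) _), ← Real.rpow_mul hc,
    mul_one_div_cancel (by linarith), Real.rpow_one]

lemma lp_zero (hp : 1 ≤ p) : lp p (fun _ : κ => (0 : ℝ)) = 0 := by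
  have := lp_smul hp le_rfl (fun _ : κ => (0 : ℝ))
  simpa using this

lemma lp_sum_le (hp : 1 ≤ p) {α : Type*} (s : Finset α) (v : α → κ → ℝ) :
    lp p (fun k => ∑ a ∈ s, v a k) ≤ ∑ a ∈ s, lp p (v a) := by
  classical
  induction s using Finset.induction_on with
  | empty => simp [lp_zero hp]
  | insert a s ha ih =>
    simp only [sum_insert ha]
    exact (lp_add_le hp _ _).trans (add_le_add le_rfl ih)

lemma lp_le_of_rpow (hp : 1 ≤ p) {v : κ → ℝ} {c : ℝ} (hc : 0 ≤ c)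
    (h : ∑ k, |v k| ^ p ≤ c ^ p) : lp p v ≤ c := by
  rw [← lp_rpow hp] at h
  exact (Real.rpow_le_rpow_iff (lp_nonneg _) hc (by linarith)).1 h

lemma le_lp_of_rpow (hp : 1 ≤ p) {v : κ → ℝ} {c : ℝ} (hc : 0 ≤ c)
    (h : c ^ p ≤ ∑ k, |v k| ^ p) : c ≤ lp p v := by
  rw [← lp_rpow hp] at h
  exact (Real.rpow_le_rpow_iff hc (lp_nonneg _) (by linarith)).1 h

lemma abs_le_lp (hp : 1 ≤ p) (v : κ → ℝ) (k : κ) : |v k| ≤ lp p v :=
  le_lp_of_rpow hp (abs_nonneg _) (single_le_sum (f := fun k => |v k| ^ p)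
    (fun _ _ => Real.rpow_nonneg (abs_nonneg _) _) (mem_univ k))

lemma norm_eq_lp (hp : 1 ≤ p) [Fact (1 ≤ ENNReal.ofReal p)]
    (v : PiLp (ENNReal.ofReal p) (fun _ : κ => ℝ)) : ‖v‖ = lp p (fun k => v k) := by
  have e : (ENNReal.ofReal p).toReal = p := ENNReal.toReal_ofReal (by linarith)
  rw [PiLp.norm_eq_sum (by rw [e]; linarith), e]
  rfl

lemma lp_prod (hp : 1 ≤ p) {κ' : Type*} [Fintype κ'] (v : κ × κ' → ℝ) :
    lp p v = lp p (fun k => lp p (fun k' => v (k, k'))) := by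
  have : ∀ k, |lp p (fun k' => v (k, k'))| ^ p = ∑ k', |v (k, k')| ^ p := fun k => by
    rw [abs_of_nonneg (lp_nonneg _), lp_rpow hp]
  conv_rhs => unfold lp
  conv_lhs => unfold lp
  rw [Fintype.sum_prod_type]
  congr 1
  exact sum_congr rfl fun k _ => (this k).symm

end

noncomputable def χ (w u : ℝ) : ℝ := max 0 (1 - |u - w| / w)

lemma χ_nonneg (w u : ℝ) : 0 ≤ χ w u := le_max_left _ _

lemma χ_le_one {w : ℝ} (hw : 0 < w) (u : ℝ) : χ w u ≤ 1 :=
  max_le zero_le_one (by have : 0 ≤ |u - w| / w := by positivity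
                         linarith)

lemma χ_lip {w : ℝ} (hw : 0 < w) (a b : ℝ) : |χ w a - χ w b| ≤ |a - b| / w := by
  unfold χ
  rw [max_comm 0, max_comm 0]
  refine (abs_max_sub_max_le_abs _ _ _).trans ?_
  rw [sub_sub_sub_cancel_left, ← sub_div, abs_div, abs_of_pos hw]
  apply div_le_div_of_nonneg_right _ hw.le
  have := abs_abs_sub_abs_le_abs_sub (b - w) (a - w)
  rwa [sub_sub_sub_cancel_right, abs_sub_comm b a] at this

lemma χ_zero {w u : ℝ} (hw : 0 < w) (h : u ≤ 0 ∨ 2 * w ≤ u) : χ w u = 0 := by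
  unfold χ
  apply max_eq_left
  have : 1 ≤ |u - w| / w := by
    rw [le_div_iff₀ hw, one_mul, le_abs]
    rcases h with h | h
    · right; linarith
    · left; linarith
  linarith

noncomputable def κ0 (p : ℝ) (w : ℕ) : ℝ :=
  lp p (fun u : ↥(Icc (0 : ℤ) (2 * w)) => χ w ((u : ℤ) : ℝ))

lemma κ0_ge {p : ℝ} (hp : 1 ≤ p) {h : ℕ} (hh : 1 ≤ h) :
    ((2 * h : ℕ) : ℝ) ^ (1 / p) / 2 ≤ κ0 p (2 * h) := by
  have hw : (0 : ℝ) < ((2 * h : ℕ) : ℝ) := by positivity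
  refine le_lp_of_rpow hp (by positivity) ?_
  rw [sum_coe_sort (Icc (0 : ℤ) (2 * (2 * h : ℕ)))
    (fun u : ℤ => |χ ((2 * h : ℕ) : ℝ) (u : ℝ)| ^ p)]
  rw [Real.div_rpow (by positivity) (by norm_num), ← Real.rpow_mul hw.le,
    one_div_mul_cancel (by linarith), Real.rpow_one]
  have h1 : Ico (h : ℤ) (3 * h) ⊆ Icc (0 : ℤ) (2 * (2 * h : ℕ)) := by
    intro u hu
    rw [mem_Ico] at hu; rw [mem_Icc]; push_cast; omega
  refine le_trans ?_ (sum_le_sum_of_subset_of_nonneg h1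
    fun _ _ _ => Real.rpow_nonneg (abs_nonneg _) _)
  have h2 := card_nsmul_le_sum (Ico (h : ℤ) (3 * h))
    (fun u : ℤ => |χ ((2 * h : ℕ) : ℝ) (u : ℝ)| ^ p) ((1 / 2 : ℝ) ^ p) (fun u hu => by
      refine Real.rpow_le_rpow (by norm_num) (le_trans ?_ (le_abs_self _)) (by linarith)
      refine le_max_of_le_right ?_
      rw [mem_Ico] at hu
      have a : (h : ℝ) ≤ u := by exact_mod_cast hu.1
      have b : (u : ℝ) ≤ 3 * h := by exact_mod_cast hu.2.le
      have : |(u : ℝ) - ((2 * h : ℕ) : ℝ)| / ((2 * h : ℕ) : ℝ) ≤ 1 / 2 := by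
        rw [div_le_iff₀ hw, abs_le]; push_cast; constructor <;> linarith
      linarith)
  refine le_trans (le_of_eq ?_) h2
  rw [Int.card_Ico, show (3 * (h : ℤ) - h).toNat = 2 * h by omega, nsmul_eq_mul,
    Real.div_rpow (by norm_num) (by norm_num), Real.one_rpow]
  ring

lemma tent_lip {p : ℝ} (hp : 1 ≤ p) {h : ℕ} (hh : 1 ≤ h) (S : Finset ℤ) (a b : ℝ) :
    lp p (fun t : ↥S => χ ((2 * h : ℕ) : ℝ) (((t : ℤ) : ℝ) + a) -
      χ ((2 * h : ℕ) : ℝ) (((t : ℤ) : ℝ) + b)) ≤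
      12 * κ0 p (2 * h) / ((2 * h : ℕ) : ℝ) * |a - b| := by
  have k0 := κ0_ge hp hh
  obtain ⟨w, hw⟩ : ∃ w : ℕ, w = 2 * h := ⟨_, rfl⟩
  rw [← hw] at k0 ⊢
  have hw1 : 1 ≤ w := by omega
  have hw0 : (0 : ℝ) < w := by positivity
  have h1 : lp p (fun t : ↥S => χ w (((t : ℤ) : ℝ) + a) - χ w (((t : ℤ) : ℝ) + b)) ≤
      ((6 * w : ℝ)) ^ (1 / p) * (|a - b| / w) := by
    refine lp_le_of_rpow hp (by positivity) ?_
    rw [sum_coe_sort S (fun t : ℤ => |χ w ((t : ℝ) + a) - χ w ((t : ℝ) + b)| ^ p),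
      Real.mul_rpow (by positivity) (by positivity), ← Real.rpow_mul (by positivity),
      one_div_mul_cancel (by linarith), Real.rpow_one]
    obtain ⟨U, hU⟩ : ∃ U : Finset ℤ,
      U = Icc ⌈-a⌉ (⌈-a⌉ + 2 * w) ∪ Icc ⌈-b⌉ (⌈-b⌉ + 2 * w) := ⟨_, rfl⟩
    have out : ∀ (c : ℝ) (t : ℤ), t ∉ Icc ⌈-c⌉ (⌈-c⌉ + 2 * w) → χ w ((t : ℝ) + c) = 0 := by
      intro c t ht
      apply χ_zero hw0
      rw [mem_Icc, not_and_or, not_le, not_le] at ht
      rcases ht with ht | ht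
      · left; have := Int.lt_ceil.1 ht; linarith
      · right
        have h1 : ((⌈-c⌉ + 2 * w : ℤ) : ℝ) ≤ t := by exact_mod_cast ht.le
        have h2 := Int.le_ceil (-c)
        push_cast at h1; linarith
    have e : ∑ t ∈ S, |χ w ((t : ℝ) + a) - χ w ((t : ℝ) + b)| ^ p ≤
        ∑ t ∈ U, |χ w ((t : ℝ) + a) - χ w ((t : ℝ) + b)| ^ p := by
      rw [← sum_filter_ne_zero S]
      refine sum_le_sum_of_subset_of_nonneg (fun t ht => ?_)
        fun _ _ _ => Real.rpow_nonneg (abs_nonneg _) _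
      by_contra hc
      rw [hU, mem_union, not_or] at hc
      apply (mem_filter.1 ht).2
      rw [out a t hc.1, out b t hc.2, sub_self, abs_zero, Real.zero_rpow (by linarith)]
    have e2 := sum_le_card_nsmul U (fun t : ℤ => |χ w ((t : ℝ) + a) - χ w ((t : ℝ) + b)| ^ p)
      ((|a - b| / w) ^ p) (fun t _ => Real.rpow_le_rpow (abs_nonneg _) (by
        have := χ_lip hw0 ((t : ℝ) + a) ((t : ℝ) + b)
        rwa [add_sub_add_left_eq_sub] at this) (by linarith))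
    have e3 : U.card ≤ 6 * w := by
      rw [hU]
      refine (card_union_le _ _).trans ?_
      rw [Int.card_Icc, Int.card_Icc]; omega
    have e4 : (U.card : ℝ) ≤ 6 * w := by exact_mod_cast e3
    rw [nsmul_eq_mul] at e2
    exact e.trans (e2.trans (mul_le_mul_of_nonneg_right e4 (by positivity)))
  refine h1.trans ?_
  have h2 : ((6 * w : ℝ)) ^ (1 / p) ≤ 12 * κ0 p w := by
    rw [Real.mul_rpow (by norm_num) hw0.le]
    have : (6 : ℝ) ^ (1 / p) ≤ 6 ^ (1 : ℝ) :=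
      Real.rpow_le_rpow_of_exponent_le (by norm_num) (by rw [div_le_one (by linarith)]; exact hp)
    rw [Real.rpow_one] at this
    have := mul_le_mul_of_nonneg_right this (by positivity : 0 ≤ (w : ℝ) ^ (1 / p))
    linarith
  calc _ ≤ 12 * κ0 p w * (|a - b| / w) := mul_le_mul_of_nonneg_right h2 (by positivity)
    _ = _ := by ring

lemma tent_int {p : ℝ} (hp : 1 ≤ p) {w : ℕ} (hw : 1 ≤ w) {Tm a : ℤ} (h1 : -Tm ≤ -a)
    (h2 : 2 * w - a ≤ Tm) :
    lp p (fun t : ↥(Icc (-Tm) Tm) => χ w (((t : ℤ) : ℝ) + a)) = κ0 p w := by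
  have hw0 : (0 : ℝ) < w := by positivity
  unfold κ0 lp
  congr 1
  rw [sum_coe_sort (Icc (-Tm) Tm) (fun t : ℤ => |χ w ((t : ℝ) + a)| ^ p),
    sum_coe_sort (Icc (0 : ℤ) (2 * w)) (fun u : ℤ => |χ w (u : ℝ)| ^ p)]
  symm
  refine sum_bij_ne_zero (fun u _ _ => u - a) (fun u hu _ => ?_) (fun _ _ _ _ _ _ h => by omega)
    (fun t _ ht => ⟨t + a, ?_, by push_cast; exact ht, by omega⟩) (fun u _ _ => by simp)
  · rw [mem_Icc] at hu ⊢; omega
  · by_contra hc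
    apply ht
    rw [mem_Icc, not_and_or, not_le, not_le] at hc
    rw [χ_zero hw0, abs_zero, Real.zero_rpow (by linarith)]
    rcases hc with hc | hc
    · left; exact_mod_cast hc.le
    · right; exact_mod_cast hc.le

lemma tent_norm {p : ℝ} (hp : 1 ≤ p) {h : ℕ} (hh : 1 ≤ h) {Tm : ℤ} {a : ℝ}
    (ha : |a| + 2 * ((2 * h : ℕ) : ℝ) + 1 ≤ Tm) :
    |lp p (fun t : ↥(Icc (-Tm) Tm) => χ ((2 * h : ℕ) : ℝ) (((t : ℤ) : ℝ) + a)) - κ0 p (2 * h)| ≤
      12 * κ0 p (2 * h) / ((2 * h : ℕ) : ℝ) := by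
  have f1 := Int.floor_le a
  have f2 := Int.lt_floor_add_one a
  have f3 := le_abs_self a
  have f4 := neg_abs_le a
  have hw0 : (0 : ℝ) ≤ ((2 * h : ℕ) : ℝ) := by positivity
  have e := tent_int hp (w := 2 * h) (by omega) (Tm := Tm) (a := ⌊a⌋)
    (by have : (⌊a⌋ : ℝ) ≤ Tm := by linarith
        have : ⌊a⌋ ≤ Tm := by exact_mod_cast this
        omega)
    (by have : 2 * ((2 * h : ℕ) : ℝ) - (⌊a⌋ : ℝ) ≤ Tm := by linarith
        exact_mod_cast this)
  have l1 := tent_lip hp hh (Icc (-Tm) Tm) a ⌊a⌋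
  have l2 := tent_lip hp hh (Icc (-Tm) Tm) ⌊a⌋ a
  have c : 0 ≤ 12 * κ0 p (2 * h) / ((2 * h : ℕ) : ℝ) :=
    div_nonneg (mul_nonneg (by norm_num) (lp_nonneg _)) hw0
  have a1 : |a - ⌊a⌋| ≤ 1 := by rw [abs_le]; constructor <;> linarith
  have a2 : |⌊a⌋ - a| ≤ 1 := by rw [abs_sub_comm]; exact a1
  have b1 := mul_le_mul_of_nonneg_left a1 c
  have b2 := mul_le_mul_of_nonneg_left a2 c
  have t1 := lp_add_le hp (fun t : ↥(Icc (-Tm) Tm) => χ ((2 * h : ℕ) : ℝ) (((t : ℤ) : ℝ) + a) -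
    χ ((2 * h : ℕ) : ℝ) (((t : ℤ) : ℝ) + (⌊a⌋ : ℤ)))
    (fun t => χ ((2 * h : ℕ) : ℝ) (((t : ℤ) : ℝ) + (⌊a⌋ : ℤ)))
  have t2 := lp_add_le hp (fun t : ↥(Icc (-Tm) Tm) =>
    χ ((2 * h : ℕ) : ℝ) (((t : ℤ) : ℝ) + (⌊a⌋ : ℤ)) - χ ((2 * h : ℕ) : ℝ) (((t : ℤ) : ℝ) + a))
    (fun t => χ ((2 * h : ℕ) : ℝ) (((t : ℤ) : ℝ) + a))
  simp only [sub_add_cancel] at t1 t2
  rw [e] at t1 t2
  rw [abs_le]; constructor <;> linarith

lemma act_sum {p M : ℝ} (hp : 1 ≤ p) (hM : 0 < M) (S : Finset ℤ)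
    (h : ∀ t ∈ S, 0 < (t : ℝ) + Real.log M) :
    ∑ t ∈ S, Real.exp (-(p * t)) ≤ 2 * M ^ p := by
  obtain ⟨t0, ht0⟩ : ∃ t0 : ℤ, t0 = ⌈-Real.log M⌉ := ⟨_, rfl⟩
  have h0 : ∀ t ∈ S, t0 ≤ t := fun t ht => by
    rw [ht0, Int.ceil_le]; linarith [h t ht]
  have h1 : ∀ t ∈ S, Real.exp (-(p * t)) ≤ M ^ p * (1 / 2) ^ (t - t0).toNat := by
    intro t ht
    obtain ⟨k, hk⟩ : ∃ k : ℕ, t = t0 + k := ⟨(t - t0).toNat, by have := h0 t ht; omega⟩
    rw [hk, add_sub_cancel_left, Int.toNat_natCast, Real.rpow_def_of_pos hM]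
    push_cast
    rw [mul_add, neg_add, Real.exp_add]
    have a : -Real.log M ≤ t0 := ht0 ▸ Int.le_ceil _
    refine mul_le_mul (Real.exp_le_exp.2 (by nlinarith)) ?_ (Real.exp_pos _).le (Real.exp_pos _).le
    rw [show -(p * (k : ℝ)) = k * (-p) by ring, Real.exp_nat_mul]
    refine pow_le_pow_left₀ (Real.exp_pos _).le ?_ k
    have b := Real.add_one_le_exp p
    rw [Real.exp_neg, ← one_div]
    exact one_div_le_one_div_of_le (by norm_num) (by linarith)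
  refine (sum_le_sum h1).trans ?_
  rw [← mul_sum, mul_comm]
  refine mul_le_mul_of_nonneg_right ?_ (by positivity)
  rw [← sum_image (s := S) (g := fun t => (t - t0).toNat) (f := fun k => (1 / 2 : ℝ) ^ k)
    (fun a ha b hb e => by
      have := h0 a ha; have := h0 b hb; simp only at e; omega)]
  obtain ⟨n, hn⟩ := (S.image fun t => (t - t0).toNat).exists_nat_subset_range
  exact (sum_le_sum_of_subset_of_nonneg hn fun _ _ _ => by positivity).trans
    (sum_geometric_two_le n)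

namespace Su
variable {ι : Type*} (s : Su ι)

noncomputable def H (j : ℕ) (x : ι) (R : ℝ) : ℝ := ∑ z ∈ s.Y j, hh s.Q (s.ρ x z / R)

noncomputable def gH (j : ℕ) (x : ι) (R : ℝ) : ℝ :=
  Real.log (max (Real.exp (-(s.Q / 2))) (min (s.H j x R) (Real.exp (s.Q / 4))))

lemma hh_double (t : ℝ) : hh s.Q t * Real.exp (s.Q * t / 2) ≤ hh s.Q (t / 2) ∨ t < 0 := by
  by_cases ht : t < 0
  · exact Or.inr ht
  left
  by_cases h : t < 1
  · unfold hh
    rw [if_pos h, if_pos (by linarith), ← Real.exp_add]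
    exact le_of_eq (by congr 1; ring)
  · have : hh s.Q t = 0 := by unfold hh; rw [if_neg h]
    rw [this, zero_mul]; exact hh_nonneg _ _

lemma H_double (j : ℕ) (x : ι) {R : ℝ} (hR : 0 < R) (m : ℝ) :
    Real.exp m * ((1 - m) * s.H j x R +
      s.Q / 2 * ∑ z ∈ s.Y j, hh s.Q (s.ρ x z / R) * (s.ρ x z / R)) ≤ s.H j x (2 * R) := by
  unfold H
  rw [mul_sum, mul_sum, ← sum_add_distrib, mul_sum]
  refine sum_le_sum fun z _ => ?_
  have t0 : 0 ≤ s.ρ x z / R := div_nonneg (s.ρ0 _ _) hR.le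
  rw [show s.ρ x z / (2 * R) = s.ρ x z / R / 2 by field_simp]
  generalize s.ρ x z / R = t at *
  rcases s.hh_double t with h | h
  · refine le_trans ?_ h
    have a := Real.add_one_le_exp (s.Q * t / 2 - m)
    have b : Real.exp (s.Q * t / 2) = Real.exp m * Real.exp (s.Q * t / 2 - m) := by
      rw [← Real.exp_add]; congr 1; ring
    have c := mul_le_mul_of_nonneg_left a (mul_nonneg (hh_nonneg s.Q t) (Real.exp_pos m).le)
    rw [b]; linarith
  · linarith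

lemma gH_mono (j : ℕ) (x : ι) {R : ℝ} (hR : 0 < R) : s.gH j x R ≤ s.gH j x (2 * R) := by
  have h := s.H_double j x hR 0
  have h1 : 0 ≤ s.Q / 2 * ∑ z ∈ s.Y j, hh s.Q (s.ρ x z / R) * (s.ρ x z / R) :=
    mul_nonneg (by have := s.Q_pos; positivity)
      (sum_nonneg fun z _ => mul_nonneg (hh_nonneg _ _) (div_nonneg (s.ρ0 _ _) hR.le))
  simp only [Real.exp_zero, sub_zero, one_mul] at h
  unfold gH
  exact Real.log_le_log (lt_max_of_lt_left (Real.exp_pos _))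
    (max_le_max le_rfl (min_le_min (by linarith) le_rfl))

lemma gH_bd (j : ℕ) (x : ι) (R : ℝ) : -(s.Q / 2) ≤ s.gH j x R ∧ s.gH j x R ≤ s.Q / 4 := by
  unfold gH
  constructor
  · rw [Real.le_log_iff_exp_le (lt_max_of_lt_left (Real.exp_pos _))]; exact le_max_left _ _
  · rw [Real.log_le_iff_le_exp (lt_max_of_lt_left (Real.exp_pos _))]
    exact max_le (Real.exp_le_exp.2 (by linarith [s.Q_pos])) (min_le_right _ _)

noncomputable def DD (l j : ℕ) (x : ι) : ℝ :=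
  if 0 < s.γ l j x then s.Q / s.R l j * av (s.Y j) (s.kx l j x) (s.hx l j x) (s.ρ x) else 0

lemma DD_le {l j : ℕ} (hj : j ≤ s.J) (x : ι) :
    s.DD l j x ≤ 2 * s.μ * (s.gH j x (2 * s.R l j) - s.gH j x (s.R l j)) := by
  classical
  have hR := s.R_pos l j
  have hQ := s.Q_pos
  have hμ := s.μ_ge
  unfold DD
  split_ifs with h
  · obtain ⟨hZ, hZμ⟩ := s.Zμ hj h
    obtain ⟨z0, hz0, h0⟩ := s.near_pt hj h
    have a1 : Real.exp (-(s.Q / 2)) ≤ s.H j x (s.R l j) := by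
      refine le_trans ?_ (single_le_sum (f := fun z => hh s.Q (s.ρ x z / s.R l j))
        (fun z _ => hh_nonneg _ _) hz0)
      unfold hh
      rw [if_pos (by linarith)]
      exact Real.exp_le_exp.2 (by nlinarith)
    have hH : 0 < s.H j x (s.R l j) := (Real.exp_pos _).trans_le a1
    have a2 : s.H j x (2 * s.R l j) ≤ Real.exp (s.Q / 4) := by
      refine le_trans ?_ (s.cnt4 hj h _ (filter_subset (fun z => s.ρ x z < 4 * s.R l j) (s.Y j))
        (fun z hz => (mem_filter.1 hz).2))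
      rw [card_filter, Nat.cast_sum]
      refine sum_le_sum fun z _ => ?_
      unfold hh
      have t0 : 0 ≤ s.ρ x z / (2 * s.R l j) := div_nonneg (s.ρ0 _ _) (by positivity)
      split_ifs with b c
      · simp only [Nat.cast_one, Real.exp_le_one_iff]; nlinarith
      · rw [div_lt_one (by positivity)] at b; exact absurd (by linarith) c
      · simp
      · simp
    obtain ⟨A, hA⟩ : ∃ A, A = ∑ z ∈ s.Y j, hh s.Q (s.ρ x z / s.R l j) * (s.ρ x z / s.R l j) :=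
      ⟨_, rfl⟩
    have hA0 : 0 ≤ A := hA ▸ sum_nonneg fun z _ => mul_nonneg (hh_nonneg _ _) (s.sv_nonneg _ _ _ _)
    have a3 := s.H_double j x hR (s.Q / 2 * A / s.H j x (s.R l j))
    rw [← hA] at a3
    have e : (1 - s.Q / 2 * A / s.H j x (s.R l j)) * s.H j x (s.R l j) + s.Q / 2 * A =
        s.H j x (s.R l j) := by field_simp; ring
    rw [e] at a3
    have a4 : s.H j x (s.R l j) ≤ s.H j x (2 * s.R l j) := by
      refine le_trans ?_ a3
      exact le_mul_of_one_le_left hH.le (Real.one_le_exp (by positivity))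
    unfold gH
    rw [min_eq_left a2, min_eq_left (a4.trans a2), max_eq_right a1, max_eq_right (a1.trans a4)]
    have a5 := Real.log_le_log (by positivity) a3
    rw [Real.log_mul (Real.exp_pos _).ne' hH.ne', Real.log_exp] at a5
    have e2 : s.Q / s.R l j * av (s.Y j) (s.kx l j x) (s.hx l j x) (s.ρ x) =
        s.Q * A / ∑ z ∈ s.Y j, s.kx l j x z := by
      unfold av
      rw [hA, mul_div_assoc', mul_sum, mul_sum]
      congr 1
      exact sum_congr rfl fun z _ => by unfold Su.hx; ring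
    have a6 : s.Q * A / ∑ z ∈ s.Y j, s.kx l j x z ≤
        2 * s.μ * (s.Q / 2 * A / s.H j x (s.R l j)) := by
      rw [mul_div_assoc', div_le_div_iff₀ hZ hH]
      have := mul_le_mul_of_nonneg_left hZμ (by positivity : 0 ≤ s.Q * A)
      have e3 : s.H j x (s.R l j) = ∑ z ∈ s.Y j, s.hx l j x z := rfl
      rw [e3]; linarith
    rw [e2]
    exact a6.trans (mul_le_mul_of_nonneg_left (by linarith) (by positivity))
  · exact mul_nonneg (by positivity) (sub_nonneg.2 (s.gH_mono j x hR))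

lemma DD_sum {j : ℕ} (hj : j ≤ s.J) (x : ι) (n : ℕ) :
    ∑ l ∈ range n, s.DD l j x ≤ 2 * s.μ * s.Q := by
  refine (sum_le_sum fun l _ => s.DD_le hj x).trans ?_
  have e : ∀ l, s.R l j = 2 * s.R (l + 1) j := fun l => by unfold R; rw [s.E_succ l]; ring
  have : ∀ l ∈ range n, 2 * s.μ * (s.gH j x (2 * s.R l j) - s.gH j x (s.R l j)) =
      2 * s.μ * (s.gH j x (2 * s.R l j) - s.gH j x (2 * s.R (l + 1) j)) := fun l _ => by
    rw [← e l]
  rw [sum_congr rfl this, ← mul_sum, sum_range_sub' (fun l => s.gH j x (2 * s.R l j))]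
  have a := (s.gH_bd j x (2 * s.R 0 j)).2
  have b := (s.gH_bd j x (2 * s.R n j)).1
  have := s.μ_ge
  have := s.Q_pos
  exact mul_le_mul_of_nonneg_left (by linarith) (by positivity)

lemma XX_le {Ω : Type*} [Fintype Ω] {p : ℝ} (hp : 1 ≤ p) (φ : ι → Ω → ℝ)
    (hφ : ∀ x y, s.ρ x y = lp p (fun ω => φ x ω - φ y ω)) {j : ℕ} (hj : j ≤ s.J) (x : ι)
    (n : ℕ) : lp p (fun ω => ∑ l ∈ range n, s.PP l j x (fun z => φ z ω)) ≤ 2 * s.μ * s.Q := by
  refine (lp_sum_le hp _ _).trans (le_trans (sum_le_sum fun l _ => ?_) (s.DD_sum hj x n))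
  unfold PP DD
  split_ifs with h
  · have hZ := (s.Zμ hj h).1
    have hc : 0 ≤ s.Q / s.R l j := div_nonneg s.Q_pos.le (s.R_pos _ _).le
    rw [lp_smul hp hc]
    refine mul_le_mul_of_nonneg_left ?_ hc
    unfold P av
    simp only [sum_div]
    refine (lp_sum_le hp _ _).trans (sum_le_sum fun z _ => le_of_eq ?_)
    have hc' : 0 ≤ s.hx l j x z / ∑ z ∈ s.Y j, s.kx l j x z :=
      div_nonneg (s.hx_nonneg _ _ _ _) hZ.le
    simp only [mul_div_right_comm]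
    rw [lp_smul hp hc', hφ x z]
    congr 1
    exact lp_congr fun ω => by rw [abs_abs, abs_sub_comm]
  · rw [lp_zero hp]

end Su
end Vale.Agent.P249
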