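import Vale.Agent.P249.Pair
import Vale.Agent.P249.Norm
import Vale.Agent.P249.Hash
import Vale.Agent.P249.Hier

namespace Vale.Agent.P249
open Finset

variable {ι Ω : Type*} [Fintype ι] [Fintype Ω] {p : ℝ}

lemma lp_self (hp : 1 ≤ p) (v : Ω → ℝ) : lp p (fun ω => v ω - v ω) = 0 := by
  simp only [sub_self]; exact lp_zero hp

lemma exists_su [Nonempty ι] (hp : 1 ≤ p) (φ : ι → Ω → ℝ) {J c g t : ℕ} {Q : ℝ} (hc : 1 ≤ c)
    (hQ : 16 * (((J + 1 : ℕ) : ℝ) + 2) ^ 2 * ((c : ℝ) + 1) * 32 ^ (J + 1) ≤ Q) (hg : 1 ≤ g)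
    (ht : 1 ≤ t) (hn : (Fintype.card ι : ℝ) < Real.exp (t / g)) (hJ : Fintype.card ι ≤ g ^ J)
    (htQ : (t : ℝ) ≤ Real.exp (Q / 4)) :
    ∃ s : Su ι, (∀ x y, s.ρ x y = lp p (fun ω => φ x ω - φ y ω)) ∧ s.J = J + 1 ∧ s.c = c ∧
      s.Q = Q ∧ ∃ (I : ℕ) (y0 : ι), (∀ x f, s.mix 0 x f = f y0) ∧
        ∀ x ω, s.mix I x (fun z => φ z ω) = φ x ω := by
  classical
  obtain ⟨ρ, hρ⟩ : ∃ ρ : ι → ι → ℝ, ρ = fun x y => lp p (fun ω => φ x ω - φ y ω) := ⟨_, rfl⟩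
  have ρ0 : ∀ x y, 0 ≤ ρ x y := fun x y => by rw [hρ]; exact lp_nonneg _
  have sy : ∀ x y, ρ x y = ρ y x := fun x y => by
    rw [hρ]; exact lp_congr fun ω => abs_sub_comm _ _
  have tri : ∀ x y z, ρ x z ≤ ρ x y + ρ y z := fun x y z => by
    rw [hρ]
    have := lp_add_le hp (fun ω => φ x ω - φ y ω) (fun ω => φ y ω - φ z ω)
    simpa only [sub_add_sub_cancel] using this
  have ρx : ∀ x, ρ x x = 0 := fun x => by rw [hρ]; exact lp_self hp _
  obtain ⟨Y, y0, hY0, hY1, hne, hY⟩ := hierarchy ρ hg ht hn hJ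
  have hE : 0 < 1 + 8 * ∑ x, ρ x y0 := by
    have : 0 ≤ ∑ x, ρ x y0 := sum_nonneg fun x _ => ρ0 x y0
    positivity
  let s : Su ι :=
    { ρ := ρ, ρ0 := ρ0, symm := sy, tri := tri, J := J + 1, c := c, Q := Q,
      E0 := 1 + 8 * ∑ x, ρ x y0, Y := Y, r := fun j x => (Y j).inf' (hne j) (ρ x),
      hc := hc, hQ := hQ, hE := hE
      rlip := fun j x y => by
        obtain ⟨z, hz, e⟩ := exists_mem_eq_inf' (hne j) (ρ y)
        have a := inf'_le (ρ x) hz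
        have b := tri x y z
        rw [e]; linarith
      r0 := fun x => le_antisymm ((inf'_le (ρ x) (by rw [hY0]; exact mem_univ x)).trans
        (ρx x).le) ((le_inf'_iff _ _).2 fun z _ => ρ0 x z)
      near := fun j _ x => by
        obtain ⟨z, hz, e⟩ := exists_mem_eq_inf' (hne j) (ρ x)
        exact ⟨z, hz, e.ge⟩
      cnt := fun j hj x R' W h1 h2 h3 => by
        have := hY j hj x W h2 fun hlt z hz z' hz' =>
          (h3 z hz).trans_le ((h1 hlt).trans (inf'_le (ρ x) hz'))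
        exact le_trans (by exact_mod_cast this) htQ }
  have lim : Filter.Tendsto (fun I => s.R I s.J) Filter.atTop (nhds 0) := by
    have h := (tendsto_pow_atTop_nhds_zero_of_lt_one (by norm_num : (0 : ℝ) ≤ 1 / 2)
      (by norm_num)).const_mul (s.E0 * 32 ^ s.J)
    rw [mul_zero] at h
    refine h.congr fun I => ?_
    unfold Su.R Su.E
    rw [one_div, inv_pow]; ring
  have ev : ∀ᶠ I in Filter.atTop, ∀ x z, ρ x z < s.R I s.J → ρ x z = 0 := by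
    refine Filter.eventually_all.2 fun x => Filter.eventually_all.2 fun z => ?_
    rcases (ρ0 x z).eq_or_lt with h | h
    · exact Filter.Eventually.of_forall fun _ _ => h.symm
    · exact (lim.eventually (gt_mem_nhds h)).mono fun I h1 h2 => absurd h1 (not_lt.2 h2.le)
  obtain ⟨I, hI⟩ := ev.exists
  refine ⟨s, fun x y => by rw [show s.ρ = ρ from rfl, hρ], rfl, rfl, rfl, I, y0, fun x f => ?_,
    fun x ω => ?_⟩
  · refine s.mix_top hY1 x ?_ f
    have a : s.r s.J x ≤ ρ x y0 := inf'_le (ρ x) (by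
      show y0 ∈ Y (J + 1)
      rw [hY1]; exact mem_singleton_self _)
    have b : ρ x y0 ≤ ∑ x, ρ x y0 :=
      single_le_sum (f := fun x => ρ x y0) (fun x _ => ρ0 x y0) (mem_univ x)
    have c : s.E0 ≤ s.R 0 s.J := by
      unfold Su.R Su.E
      rw [pow_zero, div_one]
      exact le_mul_of_one_le_right hE.le (one_le_pow₀ (by norm_num))
    have d : s.E0 = 1 + 8 * ∑ x, ρ x y0 := rfl
    linarith
  · refine s.mix_bot I x _ fun z hz => ?_
    have a := hI x z hz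
    have b := abs_le_lp hp (fun ω => φ x ω - φ z ω) ω
    rw [hρ] at a
    dsimp only at a
    rw [a] at b
    have := abs_nonpos_iff.1 b
    linarith

namespace Su
variable (s : Su ι)

noncomputable def XX (n : ℕ) (φ : ι → Ω → ℝ) (j : ℕ) (x : ι) (ω : Ω) : ℝ :=
  ∑ l ∈ range n, s.PP l j x (fun z => φ z ω)

noncomputable def GG (p : ℝ) (n : ℕ) (φ : ι → Ω → ℝ) (x : ι) (ω : Ω) : ℝ :=
  lp p (fun j : Fin (s.J + 1) => s.XX n φ j x ω)

omit [Fintype ι] [Fintype Ω] in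
lemma XX_nonneg (n : ℕ) (φ : ι → Ω → ℝ) (j : ℕ) (x : ι) (ω : Ω) : 0 ≤ s.XX n φ j x ω :=
  sum_nonneg fun _ _ => s.PP_nonneg _ _ _ _

omit [Fintype ι] [Fintype Ω] in
lemma XX_le_GG (hp : 1 ≤ p) (n : ℕ) (φ : ι → Ω → ℝ) {j : ℕ} (hj : j ≤ s.J) (x : ι) (ω : Ω) :
    s.XX n φ j x ω ≤ s.GG p n φ x ω :=
  (le_abs_self _).trans
    (abs_le_lp hp (fun j : Fin (s.J + 1) => s.XX n φ j x ω) ⟨j, Nat.lt_succ_of_le hj⟩)

omit [Fintype ι] in
lemma GG_le (hp : 1 ≤ p) (n : ℕ) (φ : ι → Ω → ℝ)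
    (hφ : ∀ x y, s.ρ x y = lp p (fun ω => φ x ω - φ y ω)) (x : ι) :
    lp p (s.GG p n φ x) ≤ ((s.J : ℝ) + 1) ^ (1 / p) * (2 * s.μ * s.Q) := by
  have h0 : 0 ≤ 2 * s.μ * s.Q := by have := s.μ_ge; have := s.Q_pos; positivity
  refine lp_le_of_rpow hp (by positivity) ?_
  have e : ∀ ω, |s.GG p n φ x ω| ^ p = ∑ j : Fin (s.J + 1), |s.XX n φ j x ω| ^ p := fun ω => by
    unfold GG; rw [abs_of_nonneg (lp_nonneg _), lp_rpow hp]
  simp only [e]
  rw [sum_comm, Real.mul_rpow (by positivity) h0, ← Real.rpow_mul (by positivity),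
    one_div_mul_cancel (by linarith), Real.rpow_one]
  have := sum_le_card_nsmul univ (fun j : Fin (s.J + 1) => ∑ ω, |s.XX n φ j x ω| ^ p)
    ((2 * s.μ * s.Q) ^ p) (fun j _ => by
      rw [← lp_rpow hp]
      exact Real.rpow_le_rpow (lp_nonneg _)
        (s.XX_le hp φ hφ (Nat.lt_succ_iff.1 j.2) x n) (by linarith))
  simpa using this

noncomputable def δ0 (n : ℕ) (φ : ι → Ω → ℝ) (lam : ℝ) (ω : Ω) : ℝ :=
  1 / (Fintype.card Ω + 1) + (lam ^ s.c)⁻¹ * ∑ x, ∑ j ∈ range (s.J + 1), s.XX n φ j x ω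

lemma δ0_pos (n : ℕ) (φ : ι → Ω → ℝ) {lam : ℝ} (hl : 1 ≤ lam) (ω : Ω) : 0 < s.δ0 n φ lam ω := by
  unfold δ0
  have : 0 ≤ ∑ x, ∑ j ∈ range (s.J + 1), s.XX n φ j x ω :=
    sum_nonneg fun _ _ => sum_nonneg fun _ _ => s.XX_nonneg _ _ _ _ _
  positivity

lemma δ0_le (hp : 1 ≤ p) (n : ℕ) (φ : ι → Ω → ℝ)
    (hφ : ∀ x y, s.ρ x y = lp p (fun ω => φ x ω - φ y ω)) {lam : ℝ} (hl : 1 ≤ lam)
    (hlam : Fintype.card ι * ((s.J + 1) * (2 * s.μ * s.Q)) ≤ lam ^ s.c) :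
    lp p (s.δ0 n φ lam) ≤ 2 := by
  have h1 : lp p (fun _ : Ω => 1 / ((Fintype.card Ω : ℝ) + 1)) ≤ 1 := by
    refine lp_le_of_rpow hp zero_le_one ?_
    have hm : (0 : ℝ) ≤ Fintype.card Ω := Nat.cast_nonneg _
    have a : (1 / ((Fintype.card Ω : ℝ) + 1)) ^ p ≤ (1 / ((Fintype.card Ω : ℝ) + 1)) ^ (1 : ℝ) :=
      Real.rpow_le_rpow_of_exponent_ge (by positivity)
        (by rw [div_le_one (by positivity)]; linarith) hp
    rw [Real.rpow_one] at a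
    rw [sum_const, card_univ, nsmul_eq_mul, abs_of_pos (by positivity), Real.one_rpow]
    refine (mul_le_mul_of_nonneg_left a hm).trans ?_
    rw [mul_one_div, div_le_one (by positivity)]; linarith
  have h2 : lp p (fun ω => ∑ x, ∑ j ∈ range (s.J + 1), s.XX n φ j x ω) ≤
      Fintype.card ι * ((s.J + 1) * (2 * s.μ * s.Q)) := by
    refine (lp_sum_le hp _ _).trans ?_
    have := sum_le_card_nsmul univ
      (fun x => lp p (fun ω => ∑ j ∈ range (s.J + 1), s.XX n φ j x ω))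
      ((s.J + 1) * (2 * s.μ * s.Q)) (fun x _ => (lp_sum_le hp _ _).trans (by
        have := sum_le_card_nsmul (range (s.J + 1)) (fun j => lp p (s.XX n φ j x))
          (2 * s.μ * s.Q) (fun j hj => s.XX_le hp φ hφ (Nat.lt_succ_iff.1 (mem_range.1 hj)) x n)
        simpa using this))
    simpa using this
  have hp' : 0 < lam ^ s.c := by positivity
  refine (lp_add_le hp _ _).trans ?_
  rw [lp_smul hp (by positivity)]
  have := mul_le_mul_of_nonneg_left (h2.trans hlam) (by positivity : 0 ≤ (lam ^ s.c)⁻¹)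
  rw [inv_mul_cancel₀ hp'.ne'] at this
  linarith

omit [Fintype ι] in
lemma emb_act {w δ t : ℝ} (hw : 0 < w) (hδ : 0 < δ) (I : ℕ) (f : ι → ℝ) (x : ι)
    (h : s.emb (fun a => χ w (t + a)) δ I f x ≠ 0) : 0 < t + Real.log (s.Sg δ x f (I + 7)) := by
  obtain ⟨i, hi, h1⟩ := exists_ne_zero_of_sum_ne_zero h
  by_contra hc
  apply h1
  have := Real.log_le_log (hδ.trans_le (s.Sg_ge δ x f (i + 4)))
    (s.Sg_mono δ x f (by have := mem_range.1 hi; omega : i + 4 ≤ I + 7))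
  dsimp only
  rw [χ_zero hw (Or.inl (by linarith)), smul_zero]

theorem atoms (hp : 1 ≤ p) (φ : ι → Ω → ℝ)
    (hφ : ∀ x y, s.ρ x y = lp p (fun ω => φ x ω - φ y ω)) {I : ℕ} {y0 : ι}
    (h0 : ∀ x f, s.mix 0 x f = f y0) (hI : ∀ x ω, s.mix I x (fun z => φ z ω) = φ x ω)
    {h : ℕ} (hh : 1 ≤ h) {lam θ Φ : ℝ} (hl : 1 ≤ lam)
    (hlam : Fintype.card ι * ((s.J + 1) * (2 * s.μ * s.Q)) ≤ lam ^ s.c)
    (hΦ : 2 * (((s.J : ℝ) + 1) ^ (1 / p) * (2 * s.μ * s.Q)) + 1 ≤ Φ)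
    (hθ : 12 / ((2 * h : ℕ) : ℝ) * (1 + 1200000 * s.μ * (Φ + 2)) ≤ θ) (hθ1 : θ ≤ 1) :
    ∃ (T : Finset ℤ) (ν : Ω × ↥T → ℝ) (ψ : ι → Ω × ↥T → ℝ), (∀ a, 0 ≤ ν a) ∧
      (∀ x (B : Finset (Ω × ↥T)), (∀ a ∈ B, ψ x a ≠ 0) →
        ∑ a ∈ B, ν a ≤ 2 * (2 + 20 * 32 ^ s.J * Φ) ^ p) ∧
      (∀ x y a, |ψ x a - ψ y a| ≤
        200000 * s.μ * lam * Real.exp (2 * ((2 * h : ℕ) : ℝ)) * s.ρ x y) ∧
      ∀ x y, (κ0 p (2 * h) * (1 - θ)) ^ p * s.ρ x y ^ p ≤ ∑ a, ν a * |ψ x a - ψ y a| ^ p ∧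
        ∑ a, ν a * |ψ x a - ψ y a| ^ p ≤ (κ0 p (2 * h) * (1 + θ)) ^ p * s.ρ x y ^ p := by
  classical
  have : Fact (1 ≤ ENNReal.ofReal p) := ⟨by simpa using hp⟩
  have tl := tent_lip hp hh
  have tn := fun Tm a => tent_norm hp hh (Tm := Tm) (a := a)
  obtain ⟨w, hw⟩ : ∃ w : ℝ, w = ((2 * h : ℕ) : ℝ) := ⟨_, rfl⟩
  have hw1 : 1 ≤ w := by rw [hw]; exact_mod_cast (by omega : 1 ≤ 2 * h)
  have hw0 : 0 < w := by linarith
  obtain ⟨κ, hκ⟩ : ∃ κ, κ = κ0 p (2 * h) := ⟨_, rfl⟩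
  have hκ0 : 0 ≤ κ := hκ ▸ lp_nonneg _
  rw [← hw, ← hκ] at tl tn ⊢
  rw [← hw] at hθ
  obtain ⟨δ, hδ⟩ : ∃ δ, δ = s.δ0 (I + 7 + 1) φ lam := ⟨_, rfl⟩
  have δp : ∀ ω, 0 < δ ω := hδ ▸ s.δ0_pos _ φ hl
  have δl : lp p δ ≤ 2 := hδ ▸ s.δ0_le hp _ φ hφ hl hlam
  obtain ⟨Mi, hMi⟩ : ∃ Mi : ι → ι → Ω → ℝ, Mi = fun x y ω =>
    Real.log ((s.Sg (δ ω) x (fun z => φ z ω) (I + 7) + s.Sg (δ ω) y (fun z => φ z ω) (I + 7)) / 2)
    := ⟨_, rfl⟩
  obtain ⟨Tm, hTm⟩ : ∃ Tm : ℤ, ∀ x y ω, |Mi x y ω| + 2 * w + 1 ≤ Tm := by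
    refine ⟨⌈∑ k : ι × ι × Ω, |Mi k.1 k.2.1 k.2.2| + 2 * w + 1⌉, fun x y ω =>
      le_trans ?_ (Int.le_ceil _)⟩
    have := single_le_sum (f := fun k : ι × ι × Ω => |Mi k.1 k.2.1 k.2.2|)
      (fun _ _ => abs_nonneg _) (mem_univ (x, y, ω))
    linarith
  have hμ := s.μ_ge
  have hQ := s.Q_pos
  have GG0 : ∀ x ω, 0 ≤ s.GG p (I + 7 + 1) φ x ω := fun x ω => lp_nonneg _
  refine ⟨Icc (-Tm) Tm, fun a => Real.exp (-(p * (a.2 : ℤ))), fun x a => Real.exp (a.2 : ℤ) *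
    s.emb (fun b => χ w (((a.2 : ℤ) : ℝ) + b)) (δ a.1) I (fun z => φ z a.1) x,
    fun a => (Real.exp_pos _).le, fun x B hB => ?_, fun x y a => ?_, fun x y => ?_⟩
  · have h1 : ∑ a ∈ B, Real.exp (-(p * (a.2 : ℤ))) ≤
        ∑ ω, 2 * |s.Sg (δ ω) x (fun z => φ z ω) (I + 7)| ^ p := by
      rw [← sum_fiberwise_of_maps_to (g := Prod.fst) (t := univ) (fun a _ => mem_univ _)]
      refine sum_le_sum fun ω _ => ?_
      have hM := (δp ω).trans_le (s.Sg_ge (δ ω) x (fun z => φ z ω) (I + 7))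
      rw [abs_of_pos hM, ← sum_image (s := B.filter fun a => a.1 = ω) (g := fun a => (a.2 : ℤ))
        (f := fun t : ℤ => Real.exp (-(p * t))) (fun a ha b hb e => Prod.ext
          ((mem_filter.1 ha).2.trans (mem_filter.1 hb).2.symm) (Subtype.ext e))]
      refine act_sum hp hM _ fun t ht => ?_
      obtain ⟨a, ha, rfl⟩ := mem_image.1 ht
      obtain ⟨ha1, rfl⟩ := mem_filter.1 ha
      exact s.emb_act hw0 (δp _) I _ x (right_ne_zero_of_mul (hB a ha1))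
    refine h1.trans ?_
    rw [← mul_sum, ← lp_rpow hp]
    refine mul_le_mul_of_nonneg_left (Real.rpow_le_rpow (lp_nonneg _) ?_ (by linarith)) (by norm_num)
    refine (lp_mono hp (w := fun ω => δ ω + 20 * 32 ^ s.J * s.GG p (I + 7 + 1) φ x ω)
      fun ω => ?_).trans ((lp_add_le hp _ _).trans ?_)
    · rw [abs_of_pos ((δp ω).trans_le (s.Sg_ge _ _ _ _))]
      exact s.Sg_total _ x _ fun j hj => s.XX_le_GG hp _ φ hj x ω
    · rw [lp_smul hp (by positivity)]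
      have a := s.GG_le hp (I + 7 + 1) φ hφ x
      have b : 0 ≤ ((s.J : ℝ) + 1) ^ (1 / p) * (2 * s.μ * s.Q) := by positivity
      exact add_le_add δl (mul_le_mul_of_nonneg_left (by linarith) (by positivity))
  · obtain ⟨ω, t, ht⟩ := a
    dsimp only
    have hS : ∀ x, ∀ l ≤ I + 4, ∀ j ≤ s.J, s.PP l j x (fun z => φ z ω) ≤
        ∑ x, ∑ j ∈ range (s.J + 1), s.XX (I + 7 + 1) φ j x ω := fun x l hl j hj =>
      ((single_le_sum (f := fun l => s.PP l j x (fun z => φ z ω)) (fun _ _ => s.PP_nonneg _ _ _ _)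
        (mem_range.2 (by omega : l < I + 7 + 1))).trans
        (single_le_sum (f := fun j => s.XX (I + 7 + 1) φ j x ω) (fun _ _ => s.XX_nonneg _ _ _ _ _)
          (mem_range.2 (Nat.lt_succ_of_le hj)))).trans
        (single_le_sum (f := fun x => ∑ j ∈ range (s.J + 1), s.XX (I + 7 + 1) φ j x ω)
          (fun _ _ => sum_nonneg fun _ _ => s.XX_nonneg _ _ _ _ _) (mem_univ x))
    have L := s.lip_atom (fun b => χ w ((t : ℝ) + b)) (fun a b => by
        have := χ_lip hw0 ((t : ℝ) + a) ((t : ℝ) + b)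
        rw [add_sub_add_left_eq_sub] at this
        exact this.trans (div_le_self (abs_nonneg _) hw1))
      (fun a => by rw [abs_of_nonneg (χ_nonneg _ _)]; exact χ_le_one hw0 _)
      (Real.exp_pos (2 * w - t)) (fun a ha => by
        rw [Real.log_exp] at ha; exact χ_zero hw0 (Or.inr (by linarith)))
      x y (fun z => φ z ω) (δp ω) hl (fun l hl j hj => ⟨hS x l hl j hj, hS y l hl j hj⟩)
      (by rw [hδ]; unfold δ0; exact le_add_of_nonneg_left (by positivity))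
      (by rw [h0, h0])
    rw [← mul_sub, abs_mul, abs_of_pos (Real.exp_pos _)]
    refine (mul_le_mul_of_nonneg_left L (Real.exp_pos _).le).trans (le_of_eq ?_)
    rw [Real.exp_sub]; field_simp
  · obtain ⟨TT, hTT⟩ : ∃ TT : ℝ → PiLp (ENNReal.ofReal p) (fun _ : ↥(Icc (-Tm) Tm) => ℝ),
      TT = fun b => WithLp.toLp (ENNReal.ofReal p)
        fun t : ↥(Icc (-Tm) Tm) => χ w (((t : ℤ) : ℝ) + b) := ⟨_, rfl⟩
    have hT : ∀ a b, ‖TT a - TT b‖ ≤ 12 * κ / w * |a - b| := fun a b => by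
      rw [norm_eq_lp hp, hTT]; exact tl _ a b
    have hT2 : ∀ ω, |‖TT (Mi x y ω)‖ - κ| ≤ 12 * κ / w := fun ω => by
      rw [norm_eq_lp hp, hTT]; exact tn Tm _ (hTm x y ω)
    obtain ⟨nn, hnn⟩ : ∃ nn : Ω → ℝ, nn = fun ω =>
      ‖s.emb TT (δ ω) I (fun z => φ z ω) x - s.emb TT (δ ω) I (fun z => φ z ω) y‖ := ⟨_, rfl⟩
    have ev : ∀ ω x (t : ↥(Icc (-Tm) Tm)), s.emb TT (δ ω) I (fun z => φ z ω) x t =
        s.emb (fun b => χ w (((t : ℤ) : ℝ) + b)) (δ ω) I (fun z => φ z ω) x := by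
      intro ω x t
      unfold emb
      rw [hTT]; simp
    have e1 : ∑ a : Ω × ↥(Icc (-Tm) Tm), Real.exp (-(p * (a.2 : ℤ))) *
        |Real.exp (a.2 : ℤ) *
          s.emb (fun b => χ w (((a.2 : ℤ) : ℝ) + b)) (δ a.1) I (fun z => φ z a.1) x -
        Real.exp (a.2 : ℤ) *
          s.emb (fun b => χ w (((a.2 : ℤ) : ℝ) + b)) (δ a.1) I (fun z => φ z a.1) y| ^ p =
        lp p nn ^ p := by
      rw [lp_rpow hp, Fintype.sum_prod_type]
      refine sum_congr rfl fun ω _ => ?_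
      rw [hnn]
      dsimp only
      rw [abs_of_nonneg (norm_nonneg _), norm_eq_lp hp, lp_rpow hp]
      refine sum_congr rfl fun t _ => ?_
      rw [← mul_sub, abs_mul, abs_of_pos (Real.exp_pos _),
        Real.mul_rpow (Real.exp_pos _).le (abs_nonneg _), ← Real.exp_mul, ← mul_assoc,
        ← Real.exp_add, PiLp.sub_apply, ev, ev]
      rw [show -(p * ((t : ℤ) : ℝ)) + ((t : ℤ) : ℝ) * p = 0 by ring, Real.exp_zero, one_mul]
    rw [e1]
    have hρ := s.ρ0 x y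
    obtain ⟨F, hF⟩ : ∃ F : Ω → ℝ, F = fun ω => s.GG p (I + 7 + 1) φ x ω +
      s.GG p (I + 7 + 1) φ y ω + (s.ρ x y)⁻¹ * |φ x ω - φ y ω| := ⟨_, rfl⟩
    have lv : lp p (fun ω => |φ x ω - φ y ω|) = s.ρ x y := by
      rw [hφ]; exact lp_congr fun ω => abs_abs _
    have Fl : lp p F ≤ Φ := by
      rw [hF]
      refine (lp_add_le hp _ _).trans ((add_le_add (lp_add_le hp _ _) le_rfl).trans ?_)
      rw [lp_smul hp (by positivity), lv]
      have a := s.GG_le hp (I + 7 + 1) φ hφ x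
      have b := s.GG_le hp (I + 7 + 1) φ hφ y
      have c : (s.ρ x y)⁻¹ * (s.ρ x y) ≤ 1 := inv_mul_le_one_of_le₀ le_rfl hρ
      linarith
    have pt : ∀ ω, abs (nn ω - κ * |φ x ω - φ y ω|) ≤ 12 * κ / w * |φ x ω - φ y ω| +
        1200000 * s.μ * (12 * κ / w) * s.ρ x y * (F ω + δ ω) := by
      intro ω
      have v0 : 0 ≤ (s.ρ x y)⁻¹ * |φ x ω - φ y ω| := by positivity
      have m := s.main_err TT (by positivity) hT x y (fun z => φ z ω) (I := I) (F := F ω) (δp ω)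
        (by rw [hφ]; exact lp_self hp _) (by rw [hφ]; exact lp_self hp _)
        (fun j hj => (s.XX_le_GG hp _ φ hj x ω).trans (by rw [hF]; linarith [GG0 y ω]))
        (fun j hj => (s.XX_le_GG hp _ φ hj y ω).trans (by rw [hF]; linarith [GG0 x ω]))
        (by
          rcases hρ.eq_or_lt with h | h
          · have := abs_le_lp hp (fun ω => φ x ω - φ y ω) ω
            rw [← hφ, ← h] at this
            rw [← h, zero_mul]; exact this
          · rw [hF]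
            have a := mul_nonneg hρ (add_nonneg (GG0 x ω) (GG0 y ω))
            have b : s.ρ x y * ((s.ρ x y)⁻¹ * |φ x ω - φ y ω|) = |φ x ω - φ y ω| := by
              field_simp
            linarith)
        (by rw [h0, h0]) (hI x ω) (hI y ω)
      have m2 := (abs_norm_sub_norm_le _ _).trans m
      have m3 := mul_le_mul_of_nonneg_left (hT2 ω) (abs_nonneg (φ x ω - φ y ω))
      rw [norm_smul, Real.norm_eq_abs] at m2
      rw [← abs_of_nonneg (abs_nonneg (φ x ω - φ y ω)), ← abs_mul, abs_abs, mul_sub] at m3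
      rw [hMi] at m3
      rw [hnn]
      dsimp only at m2 m3 ⊢
      rw [abs_le] at m2 m3 ⊢
      constructor <;> linarith [m2.1, m2.2, m3.1, m3.2]
    have tot : lp p (fun ω => nn ω - κ * |φ x ω - φ y ω|) ≤ κ * θ * s.ρ x y := by
      refine (lp_mono hp pt).trans ((lp_add_le hp _ _).trans ?_)
      rw [lp_smul hp (by positivity), lp_smul hp (by positivity), lv]
      have a := (lp_add_le hp F δ).trans (add_le_add Fl δl)
      have b := mul_le_mul_of_nonneg_left a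
        (by positivity : 0 ≤ 1200000 * s.μ * (12 * κ / w) * s.ρ x y)
      have c := mul_le_mul_of_nonneg_left hθ (mul_nonneg hκ0 hρ)
      have e : κ * s.ρ x y * (12 / w * (1 + 1200000 * s.μ * (Φ + 2))) =
        12 * κ / w * s.ρ x y + 1200000 * s.μ * (12 * κ / w) * s.ρ x y * (Φ + 2) := by ring
      linarith
    have u1 := lp_add_le hp (fun ω => nn ω - κ * |φ x ω - φ y ω|) (fun ω => κ * |φ x ω - φ y ω|)
    have u2 := lp_add_le hp (fun ω => κ * |φ x ω - φ y ω| - nn ω) nn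
    rw [lp_congr (v := fun ω => κ * |φ x ω - φ y ω| - nn ω)
      (w := fun ω => nn ω - κ * |φ x ω - φ y ω|) fun ω => abs_sub_comm _ _] at u2
    simp only [sub_add_cancel] at u1 u2
    rw [lp_smul hp hκ0, lv] at u1 u2
    have hθ0 : 0 ≤ θ := le_trans (by
      have : 0 ≤ Φ := (lp_nonneg _).trans Fl
      positivity) hθ
    rw [← Real.mul_rpow (mul_nonneg hκ0 (by linarith)) hρ, ← Real.mul_rpow (by positivity) hρ]
    exact ⟨Real.rpow_le_rpow (mul_nonneg (mul_nonneg hκ0 (by linarith)) hρ) (by linarith)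
      (by linarith), Real.rpow_le_rpow (lp_nonneg _) (by linarith) (by linarith)⟩

end Su
end Vale.Agent.P249
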