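import Mathlib

namespace Vale.Agent.P249

/-- The `ℓ_p` norm of a finitely indexed real vector. -/
noncomputable def lp {κ : Type*} [Fintype κ] (p : ℝ) (v : κ → ℝ) : ℝ :=
  (∑ k, |v k| ^ p) ^ (1 / p)

end Vale.Agent.P249
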