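import Mathlib

namespace Vale.Agent.P249
open Finset

noncomputable def kk (Q : ℝ) (b : ℕ) (s : ℝ) : ℝ := Real.exp (-(Q * s)) * (max (1 - s) 0) ^ b
noncomputable def hh (Q : ℝ) (s : ℝ) : ℝ := if s < 1 then Real.exp (-(Q * s)) else 0

lemma kk_nonneg (Q : ℝ) (b : ℕ) (s : ℝ) : 0 ≤ kk Q b s := by
  unfold kk; positivity

lemma hh_nonneg (Q s : ℝ) : 0 ≤ hh Q s := by
  unfold hh; split_ifs
  · positivity
  · exact le_rfl

lemma kk_le_hh (Q : ℝ) {b : ℕ} (hb : 1 ≤ b) {s : ℝ} (hs : 0 ≤ s) : kk Q b s ≤ hh Q s := by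
  unfold kk hh
  split_ifs with h
  · have h1 : (max (1 - s) 0) ^ b ≤ 1 :=
      pow_le_one₀ (le_max_right _ _) (max_le (by linarith) zero_le_one)
    have := Real.exp_pos (-(Q * s))
    nlinarith
  · have : max (1 - s) 0 = 0 := max_eq_right (by linarith)
    rw [this, zero_pow (by omega)]; simp

lemma kk_eq_zero (Q : ℝ) {b : ℕ} (hb : 1 ≤ b) {s : ℝ} (hs : 1 ≤ s) : kk Q b s = 0 := by
  unfold kk
  have : max (1 - s) 0 = 0 := max_eq_right (by linarith)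
  rw [this, zero_pow (by omega)]; simp

lemma pow_tradeoff {u lam : ℝ} (hu : 0 ≤ u) (hl : 0 < lam) (c : ℕ) :
    u ^ c ≤ lam * u ^ (c + 1) + (lam ^ c)⁻¹ := by
  have h1 : 0 ≤ lam * u ^ (c + 1) := by positivity
  have h2 : 0 ≤ (lam ^ c)⁻¹ := by positivity
  by_cases h : 1 ≤ lam * u
  · have : u ^ c * 1 ≤ u ^ c * (lam * u) := mul_le_mul_of_nonneg_left h (by positivity)
    have e : lam * u ^ (c + 1) = u ^ c * (lam * u) := by ring
    linarith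
  · push Not at h
    have : u ≤ lam⁻¹ := by
      rw [← one_div, le_div_iff₀ hl]; linarith
    have := pow_le_pow_left₀ hu this c
    rw [inv_pow] at this
    linarith

lemma kk_tradeoff (Q : ℝ) {c : ℕ} (hc : 1 ≤ c) {lam : ℝ} (hl : 0 < lam) (s : ℝ) :
    kk Q c s ≤ lam * kk Q (c + 1) s + (lam ^ c)⁻¹ * hh Q s := by
  by_cases h : s < 1
  · unfold kk hh
    rw [if_pos h]
    have := pow_tradeoff (le_max_right (1 - s) 0) hl c
    have h2 := mul_le_mul_of_nonneg_left this (Real.exp_pos (-(Q * s))).le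
    nlinarith
  · push Not at h
    rw [kk_eq_zero Q hc h]
    have := kk_nonneg Q (c + 1) s
    have := hh_nonneg Q s
    positivity

lemma pow_sub_le {u v : ℝ} (hv : 0 ≤ v) (h : v ≤ u) (c : ℕ) :
    u ^ (c + 1) - v ^ (c + 1) ≤ (c + 1 : ℕ) * (u - v) * u ^ c := by
  induction c with
  | zero => simp
  | succ k ih =>
    have hu : 0 ≤ u := hv.trans h
    have h1 : v ^ (k + 1) ≤ u ^ (k + 1) := pow_le_pow_left₀ hv h _
    have h2 := mul_le_mul_of_nonneg_left ih hu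
    have h3 := mul_le_mul_of_nonneg_left h1 (sub_nonneg.2 h)
    push_cast at *
    have e1 : u ^ (k + 1 + 1) - v ^ (k + 1 + 1) =
      u * (u ^ (k + 1) - v ^ (k + 1)) + (u - v) * v ^ (k + 1) := by ring
    have e2 : u * (((k : ℝ) + 1) * (u - v) * u ^ k) = (k + 1) * (u - v) * u ^ (k + 1) := by ring
    nlinarith

lemma kk_diff_le {Q : ℝ} (hQ : 0 ≤ Q) (c : ℕ) {s s' : ℝ} (hs : 0 ≤ s) (h : s ≤ s') :
    |kk Q (c + 1) s - kk Q (c + 1) s'| ≤ (Q + (c + 1 : ℕ)) * (s' - s) * kk Q c s := by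
  unfold kk
  obtain ⟨u, hu⟩ : ∃ u, u = max (1 - s) 0 := ⟨_, rfl⟩
  obtain ⟨v, hv⟩ : ∃ v, v = max (1 - s') 0 := ⟨_, rfl⟩
  rw [← hu, ← hv]
  have hv0 : 0 ≤ v := hv ▸ le_max_right _ _
  have hvu : v ≤ u := by rw [hu, hv]; exact max_le_max (by linarith) le_rfl
  have hu1 : u ≤ 1 := by rw [hu]; exact max_le (by linarith) zero_le_one
  have huv : u - v ≤ s' - s := by
    have : u ≤ v + (s' - s) := by
      rw [hu]
      have : 1 - s' ≤ v := hv ▸ le_max_left _ _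
      exact max_le (by linarith) (by linarith)
    linarith
  obtain ⟨A, hA⟩ : ∃ A, A = Real.exp (-(Q * s)) := ⟨_, rfl⟩
  obtain ⟨B, hB⟩ : ∃ B, B = Real.exp (-(Q * s')) := ⟨_, rfl⟩
  rw [← hA, ← hB]
  have hA0 : 0 < A := hA ▸ Real.exp_pos _
  have hB0 : 0 < B := hB ▸ Real.exp_pos _
  have hBA : B ≤ A := by
    rw [hA, hB]; apply Real.exp_le_exp.2; nlinarith
  have hAB : A - B ≤ A * (Q * (s' - s)) := by
    have e : B = A * Real.exp (-(Q * (s' - s))) := by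
      rw [hA, hB, ← Real.exp_add]; congr 1; ring
    have := Real.add_one_le_exp (-(Q * (s' - s)))
    rw [e]; nlinarith
  have hu0 : 0 ≤ u := hv0.trans hvu
  have p1 := pow_sub_le hv0 hvu c
  have p2 : v ^ (c + 1) ≤ u ^ (c + 1) := pow_le_pow_left₀ hv0 hvu _
  have p3 : u ^ (c + 1) ≤ u ^ c := pow_le_pow_of_le_one hu0 hu1 (by omega)
  have p4 : 0 ≤ v ^ (c + 1) := by positivity
  have p5 : 0 ≤ u ^ c := by positivity
  have hd : 0 ≤ s' - s := by linarith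
  rw [abs_of_nonneg (by nlinarith)]
  have q1 : A * (u ^ (c + 1) - v ^ (c + 1)) ≤ A * (((c + 1 : ℕ) : ℝ) * (s' - s) * u ^ c) := by
    apply mul_le_mul_of_nonneg_left _ hA0.le
    refine p1.trans ?_
    gcongr
  have q2 : (A - B) * v ^ (c + 1) ≤ (A * (Q * (s' - s))) * u ^ c :=
    mul_le_mul hAB (p2.trans p3) p4 (by positivity)
  nlinarith

lemma kk_diff {Q : ℝ} (hQ : 0 ≤ Q) (c : ℕ) {s s' : ℝ} (hs : 0 ≤ s) (hs' : 0 ≤ s') :
    |kk Q (c + 1) s - kk Q (c + 1) s'| ≤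
      (Q + (c + 1 : ℕ)) * |s - s'| * (kk Q c s + kk Q c s') := by
  have h1 := kk_nonneg Q c s
  have h2 := kk_nonneg Q c s'
  rcases le_total s s' with h | h
  · refine (kk_diff_le hQ c hs h).trans ?_
    rw [abs_sub_comm s s', abs_of_nonneg (by linarith : 0 ≤ s' - s)]
    have : 0 ≤ (Q + (c + 1 : ℕ)) * (s' - s) := mul_nonneg (by positivity) (by linarith)
    nlinarith
  · rw [abs_sub_comm]
    refine (kk_diff_le hQ c hs' h).trans ?_
    rw [abs_of_nonneg (by linarith : 0 ≤ s - s')]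
    have : 0 ≤ (Q + (c + 1 : ℕ)) * (s - s') := mul_nonneg (by positivity) (by linarith)
    nlinarith

variable {ι : Type*}

/-- Weighted average. -/
noncomputable def av (Y : Finset ι) (k : ι → ℝ) (a : ι → ℝ) (h : ι → ℝ) : ℝ :=
  (∑ z ∈ Y, a z * h z) / ∑ z ∈ Y, k z

lemma av_mono {Y : Finset ι} {k a h h' : ι → ℝ} (hZ : 0 < ∑ z ∈ Y, k z)
    (ha : ∀ z ∈ Y, 0 ≤ a z) (hh : ∀ z ∈ Y, h z ≤ h' z) : av Y k a h ≤ av Y k a h' := by
  unfold av
  apply div_le_div_of_nonneg_right _ hZ.le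
  exact sum_le_sum fun z hz => mul_le_mul_of_nonneg_left (hh z hz) (ha z hz)

lemma av_mono_w {Y : Finset ι} {k a a' h : ι → ℝ} (hZ : 0 < ∑ z ∈ Y, k z)
    (ha : ∀ z ∈ Y, a z ≤ a' z) (hh : ∀ z ∈ Y, 0 ≤ h z) : av Y k a h ≤ av Y k a' h := by
  unfold av
  apply div_le_div_of_nonneg_right _ hZ.le
  exact sum_le_sum fun z hz => mul_le_mul_of_nonneg_right (ha z hz) (hh z hz)

lemma av_nonneg {Y : Finset ι} {k a h : ι → ℝ} (hZ : 0 ≤ ∑ z ∈ Y, k z)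
    (ha : ∀ z ∈ Y, 0 ≤ a z) (hh : ∀ z ∈ Y, 0 ≤ h z) : 0 ≤ av Y k a h :=
  div_nonneg (sum_nonneg fun z hz => mul_nonneg (ha z hz) (hh z hz)) hZ

lemma av_add_const {Y : Finset ι} {k a h : ι → ℝ} (hZ : 0 < ∑ z ∈ Y, k z) {μ c : ℝ}
    (hc : 0 ≤ c) (hμ : ∑ z ∈ Y, a z ≤ μ * ∑ z ∈ Y, k z) :
    av Y k a (fun z => h z + c) ≤ av Y k a h + μ * c := by
  unfold av
  simp only [mul_add, sum_add_distrib, ← sum_mul, add_div]
  have : (∑ z ∈ Y, a z) * c / ∑ z ∈ Y, k z ≤ μ * c := by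
    rw [div_le_iff₀ hZ]; nlinarith
  linarith

lemma av_sub_const {Y : Finset ι} {k h : ι → ℝ} (hZ : 0 < ∑ z ∈ Y, k z) (c : ℝ) :
    av Y k k h - c = av Y k k (fun z => h z - c) := by
  unfold av
  simp only [mul_sub, sum_sub_distrib, ← sum_mul]
  field_simp

lemma abs_av_le {Y : Finset ι} {k a h : ι → ℝ} (hZ : 0 < ∑ z ∈ Y, k z)
    (ha : ∀ z ∈ Y, 0 ≤ a z) : |av Y k a h| ≤ av Y k a (fun z => |h z|) := by
  unfold av
  rw [abs_div, abs_of_pos hZ]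
  apply div_le_div_of_nonneg_right _ hZ.le
  refine (abs_sum_le_sum_abs _ _).trans (sum_le_sum fun z hz => ?_)
  rw [abs_mul, abs_of_nonneg (ha z hz)]

lemma abs_av_sub_le {Y : Finset ι} {k h g : ι → ℝ} (hZ : 0 < ∑ z ∈ Y, k z)
    (hk : ∀ z ∈ Y, 0 ≤ k z) (c : ℝ) (hg : ∀ z ∈ Y, |h z - c| ≤ g z) :
    |av Y k k h - c| ≤ av Y k k g := by
  rw [av_sub_const hZ]
  exact (abs_av_le hZ hk).trans (av_mono hZ hk hg)

lemma av_lin {Y : Finset ι} {k a a' h : ι → ℝ} (l l' : ℝ) :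
    av Y k (fun z => l * a z + l' * a' z) h = l * av Y k a h + l' * av Y k a' h := by
  unfold av
  simp only [add_mul, sum_add_distrib, mul_assoc, ← mul_sum]
  ring

lemma one_class_aux {Y : Finset ι} {kx ky ax ay h : ι → ℝ} {ε μ : ℝ}
    (hZy : 0 < ∑ z ∈ Y, ky z) (hle : ∑ z ∈ Y, ky z ≤ ∑ z ∈ Y, kx z)
    (hax : ∀ z ∈ Y, 0 ≤ ax z) (hay : ∀ z ∈ Y, 0 ≤ ay z) (hε : 0 ≤ ε)
    (hk : ∀ z ∈ Y, |kx z - ky z| ≤ ε * (ax z + ay z))
    (hμ : ∑ z ∈ Y, ax z ≤ μ * ∑ z ∈ Y, kx z) (hεμ : ε * μ ≤ 1 / 2) :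
    |av Y kx kx h - av Y ky ky h| ≤ 2 * ε * (av Y kx ax (fun z => |h z - av Y kx kx h|) +
      av Y ky ay (fun z => |h z - av Y ky ky h|)) := by
  have hZx : 0 < ∑ z ∈ Y, kx z := hZy.trans_le hle
  obtain ⟨mx, hmx⟩ : ∃ m, m = av Y kx kx h := ⟨_, rfl⟩
  obtain ⟨my, hmy⟩ : ∃ m, m = av Y ky ky h := ⟨_, rfl⟩
  have e0 : av Y ky ky (fun z => h z - my) = 0 := by rw [← av_sub_const hZy, hmy, sub_self]
  have e1 : ∑ z ∈ Y, ky z * (h z - my) = 0 := by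
    unfold av at e0
    rcases div_eq_zero_iff.1 e0 with h | h
    · exact h
    · exact absurd h hZy.ne'
  have e2 : mx - my = av Y kx (fun z => kx z - ky z) (fun z => h z - my) := by
    rw [hmx, av_sub_const hZx]
    unfold av
    simp only [sub_mul, sum_sub_distrib, e1, sub_zero]
  have e3 : |mx - my| ≤ ε * av Y kx ax (fun z => |h z - my|) +
      ε * av Y kx ay (fun z => |h z - my|) := by
    rw [e2, ← av_lin]
    unfold av
    rw [abs_div, abs_of_pos hZx]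
    apply div_le_div_of_nonneg_right _ hZx.le
    refine (abs_sum_le_sum_abs _ _).trans (sum_le_sum fun z hz => ?_)
    rw [abs_mul]
    apply mul_le_mul_of_nonneg_right _ (abs_nonneg _)
    have := hk z hz
    linarith
  have e4 : av Y kx ay (fun z => |h z - my|) ≤ av Y ky ay (fun z => |h z - my|) := by
    unfold av
    exact div_le_div_of_nonneg_left
      (sum_nonneg fun z hz => mul_nonneg (hay z hz) (abs_nonneg _)) hZy hle
  have e5 : av Y kx ax (fun z => |h z - my|) ≤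
      av Y kx ax (fun z => |h z - mx|) + μ * |mx - my| := by
    refine le_trans (av_mono hZx hax fun z _ => ?_) (av_add_const hZx (abs_nonneg _) hμ)
    exact abs_sub_le _ _ _
  rw [← hmx, ← hmy]
  have h6 := mul_le_mul_of_nonneg_left e4 hε
  have h7 := mul_le_mul_of_nonneg_left e5 hε
  have h8 := mul_le_mul_of_nonneg_right hεμ (abs_nonneg (mx - my))
  nlinarith

lemma one_class {Y : Finset ι} {kx ky ax ay h : ι → ℝ} {ε μ : ℝ}
    (hZx : 0 < ∑ z ∈ Y, kx z) (hZy : 0 < ∑ z ∈ Y, ky z)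
    (hax : ∀ z ∈ Y, 0 ≤ ax z) (hay : ∀ z ∈ Y, 0 ≤ ay z) (hε : 0 ≤ ε)
    (hk : ∀ z ∈ Y, |kx z - ky z| ≤ ε * (ax z + ay z))
    (hμx : ∑ z ∈ Y, ax z ≤ μ * ∑ z ∈ Y, kx z) (hμy : ∑ z ∈ Y, ay z ≤ μ * ∑ z ∈ Y, ky z)
    (hεμ : ε * μ ≤ 1 / 2) :
    |av Y kx kx h - av Y ky ky h| ≤ 2 * ε * (av Y kx ax (fun z => |h z - av Y kx kx h|) +
      av Y ky ay (fun z => |h z - av Y ky ky h|)) := by
  rcases le_total (∑ z ∈ Y, ky z) (∑ z ∈ Y, kx z) with hle | hle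
  · exact one_class_aux hZy hle hax hay hε hk hμx hεμ
  · rw [abs_sub_comm, add_comm]
    refine one_class_aux hZx hle hay hax hε (fun z hz => ?_) hμy hεμ
    rw [abs_sub_comm, add_comm]; exact hk z hz

end Vale.Agent.P249
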