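import Vale.Agent.P249.Kernel

namespace Vale.Agent.P249
open Finset

structure Su (ι : Type*) where
  ρ : ι → ι → ℝ
  ρ0 : ∀ x y, 0 ≤ ρ x y
  symm : ∀ x y, ρ x y = ρ y x
  tri : ∀ x y z, ρ x z ≤ ρ x y + ρ y z
  J : ℕ
  c : ℕ
  Q : ℝ
  E0 : ℝ
  Y : ℕ → Finset ι
  r : ℕ → ι → ℝ
  hc : 1 ≤ c
  hQ : 16 * ((J : ℝ) + 2) ^ 2 * ((c : ℝ) + 1) * 32 ^ J ≤ Q
  hE : 0 < E0
  rlip : ∀ j x y, r j x ≤ r j y + ρ x y
  r0 : ∀ x, r 0 x = 0
  near : ∀ j ≤ J, ∀ x, ∃ z ∈ Y j, ρ x z ≤ r j x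
  cnt : ∀ j ≤ J, ∀ x (R' : ℝ) (W : Finset ι), (j < J → R' ≤ r (j + 1) x) → W ⊆ Y j →
    (∀ z ∈ W, ρ x z < R') → (W.card : ℝ) ≤ Real.exp (Q / 4)

namespace Su
variable {ι : Type*} (s : Su ι)

noncomputable def E (l : ℕ) : ℝ := s.E0 / 2 ^ l
noncomputable def R (l j : ℕ) : ℝ := s.E l * 32 ^ j
noncomputable def μ : ℝ := 2 * 4 ^ (s.c + 1)
noncomputable def kx (l j : ℕ) (x : ι) : ι → ℝ := fun z => kk s.Q (s.c + 1) (s.ρ x z / s.R l j)
noncomputable def ax (l j : ℕ) (x : ι) : ι → ℝ := fun z => kk s.Q s.c (s.ρ x z / s.R l j)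
noncomputable def hx (l j : ℕ) (x : ι) : ι → ℝ := fun z => hh s.Q (s.ρ x z / s.R l j)
noncomputable def Ex (l j : ℕ) (x : ι) (h : ι → ℝ) : ℝ := av (s.Y j) (s.kx l j x) (s.kx l j x) h
noncomputable def P (l j : ℕ) (x : ι) (f : ι → ℝ) : ℝ :=
  av (s.Y j) (s.kx l j x) (s.hx l j x) (fun z => |f z - f x|)
noncomputable def γ (l j : ℕ) (x : ι) : ℝ :=
  max 0 (min (2 - 4 * s.r j x / s.R l j)
    ((Ioc j s.J).fold min 1 (fun j' => 8 * s.r j' x / s.R l j' - 1)))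
noncomputable def G (l : ℕ) (x : ι) : ℝ := ∑ j ∈ range (s.J + 1), s.γ l j x ^ (s.c + 1)
noncomputable def π (l j : ℕ) (x : ι) : ℝ := s.γ l j x ^ (s.c + 1) / s.G l x
noncomputable def mix (l : ℕ) (x : ι) (h : ι → ℝ) : ℝ :=
  ∑ j ∈ range (s.J + 1), s.π l j x * s.Ex l j x h
noncomputable def U (l : ℕ) (x : ι) (f : ι → ℝ) : ℝ := s.mix l x (fun z => |f z - s.mix l x f|)
noncomputable def PP (l j : ℕ) (x : ι) (f : ι → ℝ) : ℝ :=
  if 0 < s.γ l j x then s.Q / s.R l j * s.P l j x f else 0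
noncomputable def e (l : ℕ) (x : ι) (f : ι → ℝ) : ℝ :=
  s.Q / s.E l * (|s.mix l x f - s.mix (l - 1) x f| + s.U l x f)

lemma E_pos (l : ℕ) : 0 < s.E l := by unfold E; have := s.hE; positivity
lemma R_pos (l j : ℕ) : 0 < s.R l j := by unfold R; have := s.E_pos l; positivity
lemma E_succ (l : ℕ) : s.E l = 2 * s.E (l + 1) := by unfold E; rw [pow_succ]; field_simp
lemma E_anti {l l' : ℕ} (h : l ≤ l') : s.E l' ≤ s.E l := by
  unfold E
  exact div_le_div_of_nonneg_left s.hE.le (by positivity) (pow_le_pow_right₀ (by norm_num) h)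
lemma μ_ge : 1 ≤ s.μ := by
  unfold μ
  have : (1 : ℝ) ≤ 4 ^ (s.c + 1) := one_le_pow₀ (by norm_num)
  linarith

lemma Q_ge : ((s.c : ℝ) + 1) ≤ s.Q ∧ 20 * 32 ^ s.J ≤ s.Q ∧ 1 ≤ s.Q := by
  have h := s.hQ
  have h1 : (1 : ℝ) ≤ 32 ^ s.J := one_le_pow₀ (by norm_num)
  have h2 : (0 : ℝ) ≤ s.J := Nat.cast_nonneg _
  have h3 : (0 : ℝ) ≤ s.c := Nat.cast_nonneg _
  have h4 : (4 : ℝ) ≤ ((s.J : ℝ) + 2) ^ 2 := by nlinarith
  have h5 : 16 * 4 * ((s.c : ℝ) + 1) * 32 ^ s.J ≤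
      16 * ((s.J : ℝ) + 2) ^ 2 * ((s.c : ℝ) + 1) * 32 ^ s.J := by gcongr
  refine ⟨by nlinarith, by nlinarith, by nlinarith⟩

lemma Q_pos : 0 < s.Q := lt_of_lt_of_le one_pos s.Q_ge.2.2

lemma γ_nonneg (l j : ℕ) (x : ι) : 0 ≤ s.γ l j x := le_max_left _ _

lemma γ_le_one (l j : ℕ) (x : ι) : s.γ l j x ≤ 1 := by
  unfold γ
  refine max_le zero_le_one ((min_le_right _ _).trans ?_)
  exact (fold_min_le _).2 (Or.inl le_rfl)

lemma alive1 {l j : ℕ} {x : ι} (h : 0 < s.γ l j x) : s.r j x < s.R l j / 2 := by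
  unfold γ at h
  rcases lt_max_iff.1 h with h | h
  · exact absurd h (lt_irrefl _)
  · have h1 := (lt_min_iff.1 h).1
    have hR := s.R_pos l j
    have : 4 * s.r j x / s.R l j < 2 := by linarith
    rw [div_lt_iff₀ hR] at this
    linarith

lemma alive2 {l j j' : ℕ} {x : ι} (h : 0 < s.γ l j x) (h1 : j < j') (h2 : j' ≤ s.J) :
    s.R l j' / 8 < s.r j' x := by
  unfold γ at h
  rcases lt_max_iff.1 h with h | h
  · exact absurd h (lt_irrefl _)
  · have h3 := (lt_min_iff.1 h).2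
    have h4 := ((lt_fold_min _).1 h3).2 j' (mem_Ioc.2 ⟨h1, h2⟩)
    have hR := s.R_pos l j'
    have : 1 < 8 * s.r j' x / s.R l j' := by linarith
    rw [lt_div_iff₀ hR] at this
    linarith

lemma exists_γ_one (l : ℕ) (x : ι) : ∃ j ≤ s.J, s.γ l j x = 1 := by
  classical
  obtain ⟨j, hj⟩ : ∃ j, j = Nat.findGreatest (fun j => s.r j x ≤ s.R l j / 4) s.J := ⟨_, rfl⟩
  have h1 : s.r j x ≤ s.R l j / 4 := by
    rw [hj]
    refine Nat.findGreatest_spec (P := fun j => s.r j x ≤ s.R l j / 4) (Nat.zero_le _) ?_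
    have := s.R_pos l 0
    simp only [s.r0]; positivity
  refine ⟨j, hj ▸ Nat.findGreatest_le _, le_antisymm (s.γ_le_one _ _ _) ?_⟩
  unfold γ
  refine le_max_of_le_right (le_min ?_ ((le_fold_min _).2 ⟨le_rfl, fun j' hj' => ?_⟩))
  · have hR := s.R_pos l j
    have : 4 * s.r j x / s.R l j ≤ 1 := by rw [div_le_iff₀ hR]; linarith
    linarith
  · obtain ⟨a, b⟩ := mem_Ioc.1 hj'
    have := Nat.findGreatest_is_greatest (P := fun j => s.r j x ≤ s.R l j / 4) (hj ▸ a) b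
    have hR := s.R_pos l j'
    push Not at this
    have : 2 ≤ 8 * s.r j' x / s.R l j' := by rw [le_div_iff₀ hR]; linarith
    linarith

lemma γ_le (l j : ℕ) (x y : ι) : s.γ l j x ≤ s.γ l j y + 8 * s.ρ x y / s.R l j := by
  have hR := s.R_pos l j
  have hρ := s.ρ0 x y
  have hd : 0 ≤ 8 * s.ρ x y / s.R l j := by positivity
  unfold γ
  refine max_le (add_nonneg (le_max_left _ _) hd) ?_
  rw [← sub_le_iff_le_add]
  refine le_max_of_le_right (le_min ?_ ((le_fold_min _).2 ⟨?_, fun j' hj' => ?_⟩))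
  · have h1 := s.rlip j y x
    rw [s.symm y x] at h1
    have : 4 * s.r j y / s.R l j ≤ 4 * s.r j x / s.R l j + 8 * s.ρ x y / s.R l j := by
      rw [← add_div]; apply div_le_div_of_nonneg_right _ hR.le; linarith
    have := min_le_left (2 - 4 * s.r j x / s.R l j)
      ((Ioc j s.J).fold min 1 (fun j' => 8 * s.r j' x / s.R l j' - 1))
    linarith
  · have h1 := min_le_right (2 - 4 * s.r j x / s.R l j)
      ((Ioc j s.J).fold min 1 (fun j' => 8 * s.r j' x / s.R l j' - 1))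
    have h2 : (Ioc j s.J).fold min 1 (fun j' => 8 * s.r j' x / s.R l j' - 1) ≤ 1 :=
      (fold_min_le _).2 (Or.inl le_rfl)
    linarith
  · have h1 := min_le_right (2 - 4 * s.r j x / s.R l j)
      ((Ioc j s.J).fold min 1 (fun j' => 8 * s.r j' x / s.R l j' - 1))
    have h2 : (Ioc j s.J).fold min 1 (fun j' => 8 * s.r j' x / s.R l j' - 1) ≤
        8 * s.r j' x / s.R l j' - 1 := (fold_min_le _).2 (Or.inr ⟨j', hj', le_rfl⟩)
    have hR' := s.R_pos l j'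
    have h3 : s.R l j ≤ s.R l j' := by
      unfold R
      exact mul_le_mul_of_nonneg_left
        (pow_le_pow_right₀ (by norm_num) (mem_Ioc.1 hj').1.le) (s.E_pos l).le
    have h4 : 8 * s.ρ x y / s.R l j' ≤ 8 * s.ρ x y / s.R l j :=
      div_le_div_of_nonneg_left (by positivity) hR h3
    have h5 : 8 * s.r j' x / s.R l j' ≤ 8 * s.r j' y / s.R l j' + 8 * s.ρ x y / s.R l j' := by
      rw [← add_div]; apply div_le_div_of_nonneg_right _ hR'.le; linarith [s.rlip j' x y]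
    linarith

lemma γ_lip (l j : ℕ) (x y : ι) : |s.γ l j x - s.γ l j y| ≤ 8 * s.ρ x y / s.R l j := by
  have h1 := s.γ_le l j x y
  have h2 := s.γ_le l j y x
  rw [s.symm y x] at h2
  rw [abs_le]; constructor <;> linarith

lemma G_ge (l : ℕ) (x : ι) : 1 ≤ s.G l x := by
  obtain ⟨j, hj, h⟩ := s.exists_γ_one l x
  have := single_le_sum (f := fun j => s.γ l j x ^ (s.c + 1))
    (fun i _ => pow_nonneg (s.γ_nonneg l i x) _) (mem_range.2 (Nat.lt_succ_of_le hj))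
  simp only [h, one_pow] at this
  exact this

lemma G_le (l : ℕ) (x : ι) : s.G l x ≤ s.J + 1 := by
  have := sum_le_card_nsmul (range (s.J + 1)) (fun j => s.γ l j x ^ (s.c + 1)) 1
    (fun i _ => pow_le_one₀ (s.γ_nonneg l i x) (s.γ_le_one l i x))
  unfold G
  simpa using this

lemma π_nonneg (l j : ℕ) (x : ι) : 0 ≤ s.π l j x :=
  div_nonneg (pow_nonneg (s.γ_nonneg _ _ _) _) (zero_le_one.trans (s.G_ge l x))

lemma π_sum (l : ℕ) (x : ι) : ∑ j ∈ range (s.J + 1), s.π l j x = 1 := by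
  unfold π
  rw [← sum_div]
  exact div_self (by have := s.G_ge l x; positivity)

lemma π_dead {l j : ℕ} {x : ι} (h : ¬ 0 < s.γ l j x) : s.π l j x = 0 := by
  have : s.γ l j x = 0 := le_antisymm (not_lt.1 h) (s.γ_nonneg _ _ _)
  unfold π; rw [this]; simp

lemma π_le_one {l j : ℕ} (hj : j ≤ s.J) (x : ι) : s.π l j x ≤ 1 := by
  rw [← s.π_sum l x]
  exact single_le_sum (f := fun j => s.π l j x) (fun i _ => s.π_nonneg l i x)
    (mem_range.2 (Nat.lt_succ_of_le hj))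

lemma sv_nonneg (l j : ℕ) (x z : ι) : 0 ≤ s.ρ x z / s.R l j :=
  div_nonneg (s.ρ0 _ _) (s.R_pos _ _).le

lemma kx_nonneg (l j : ℕ) (x z : ι) : 0 ≤ s.kx l j x z := kk_nonneg _ _ _
lemma ax_nonneg (l j : ℕ) (x z : ι) : 0 ≤ s.ax l j x z := kk_nonneg _ _ _
lemma hx_nonneg (l j : ℕ) (x z : ι) : 0 ≤ s.hx l j x z := hh_nonneg _ _
lemma kx_le (l j : ℕ) (x z : ι) : s.kx l j x z ≤ s.hx l j x z :=
  kk_le_hh _ (by omega) (s.sv_nonneg _ _ _ _)
lemma ax_le (l j : ℕ) (x z : ι) : s.ax l j x z ≤ s.hx l j x z :=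
  kk_le_hh _ s.hc (s.sv_nonneg _ _ _ _)

lemma cnt4 {l j : ℕ} (hj : j ≤ s.J) {x : ι} (h : 0 < s.γ l j x) (W : Finset ι) (hW : W ⊆ s.Y j)
    (hW' : ∀ z ∈ W, s.ρ x z < 4 * s.R l j) : (W.card : ℝ) ≤ Real.exp (s.Q / 4) := by
  refine s.cnt j hj x (4 * s.R l j) W (fun hlt => ?_) hW hW'
  have := s.alive2 h (Nat.lt_succ_self j) hlt
  have e : s.R l (j + 1) = 32 * s.R l j := by unfold R; ring
  linarith

lemma near_pt {l j : ℕ} (hj : j ≤ s.J) {x : ι} (h : 0 < s.γ l j x) :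
    ∃ z ∈ s.Y j, s.ρ x z / s.R l j < 1 / 2 := by
  obtain ⟨z, hz, h1⟩ := s.near j hj x
  refine ⟨z, hz, ?_⟩
  rw [div_lt_iff₀ (s.R_pos l j)]
  have := s.alive1 h
  linarith

lemma Zμ {l j : ℕ} (hj : j ≤ s.J) {x : ι} (h : 0 < s.γ l j x) :
    0 < ∑ z ∈ s.Y j, s.kx l j x z ∧
      ∑ z ∈ s.Y j, s.hx l j x z ≤ s.μ * ∑ z ∈ s.Y j, s.kx l j x z := by
  classical
  obtain ⟨z0, hz0, h0⟩ := s.near_pt hj h
  have hQ := s.Q_pos
  have hR := s.R_pos l j
  have key : ∀ t : ℝ, t ≤ 3 / 4 → Real.exp (-(s.Q * t)) ≤ 4 ^ (s.c + 1) * kk s.Q (s.c + 1) t := by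
    intro t ht
    unfold kk
    have h1 : (1 / 4 : ℝ) ≤ max (1 - t) 0 := le_max_of_le_left (by linarith)
    have h2 := pow_le_pow_left₀ (by norm_num) h1 (s.c + 1)
    have h3 : (4 : ℝ) ^ (s.c + 1) * (1 / 4) ^ (s.c + 1) = 1 := by rw [← mul_pow]; norm_num
    have h4 : (1 : ℝ) ≤ 4 ^ (s.c + 1) * (max (1 - t) 0) ^ (s.c + 1) := by
      exact h3.symm.le.trans (mul_le_mul_of_nonneg_left h2 (by positivity))
    have := Real.exp_pos (-(s.Q * t))
    nlinarith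
  have h1 : Real.exp (-(s.Q / 2)) ≤ 4 ^ (s.c + 1) * ∑ z ∈ s.Y j, s.kx l j x z := by
    have a := key _ (by linarith : s.ρ x z0 / s.R l j ≤ 3 / 4)
    have b : s.kx l j x z0 ≤ ∑ z ∈ s.Y j, s.kx l j x z :=
      single_le_sum (f := s.kx l j x) (fun z _ => s.kx_nonneg l j x z) hz0
    have c : Real.exp (-(s.Q / 2)) ≤ Real.exp (-(s.Q * (s.ρ x z0 / s.R l j))) := by
      apply Real.exp_le_exp.2; nlinarith
    exact c.trans (a.trans (mul_le_mul_of_nonneg_left b (by positivity)))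
  have hZ : 0 < ∑ z ∈ s.Y j, s.kx l j x z := by
    have := (Real.exp_pos _).trans_le h1
    exact (mul_pos_iff_of_pos_left (by positivity)).1 this
  refine ⟨hZ, ?_⟩
  have h2 : ∀ z ∈ s.Y j, s.hx l j x z ≤ 4 ^ (s.c + 1) * s.kx l j x z +
      if s.ρ x z < 4 * s.R l j then Real.exp (-(s.Q * (3 / 4))) else 0 := by
    intro z _
    have hk : 0 ≤ 4 ^ (s.c + 1) * s.kx l j x z := by
      have := s.kx_nonneg l j x z; positivity
    unfold hx hh
    by_cases a : s.ρ x z / s.R l j < 1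
    · rw [if_pos a, if_pos (by rw [div_lt_iff₀ hR] at a; linarith)]
      by_cases b : s.ρ x z / s.R l j ≤ 3 / 4
      · have := key _ b
        have := Real.exp_pos (-(s.Q * (3 / 4)))
        unfold kx; linarith
      · have : Real.exp (-(s.Q * (s.ρ x z / s.R l j))) ≤ Real.exp (-(s.Q * (3 / 4))) := by
          apply Real.exp_le_exp.2; push Not at b; nlinarith
        linarith
    · rw [if_neg a]
      have : 0 ≤ if s.ρ x z < 4 * s.R l j then Real.exp (-(s.Q * (3 / 4))) else 0 := by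
        split_ifs
        · positivity
        · exact le_rfl
      linarith
  have h3 := sum_le_sum h2
  rw [sum_add_distrib, ← mul_sum, ← sum_filter, sum_const, nsmul_eq_mul] at h3
  have h4 := s.cnt4 hj h _ (filter_subset (fun z => s.ρ x z < 4 * s.R l j) (s.Y j))
    (fun z hz => (mem_filter.1 hz).2)
  have h5 : Real.exp (s.Q / 4) * Real.exp (-(s.Q * (3 / 4))) = Real.exp (-(s.Q / 2)) := by
    rw [← Real.exp_add]; congr 1; ring
  have h6 := mul_le_mul_of_nonneg_right h4 (Real.exp_pos (-(s.Q * (3 / 4)))).le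
  unfold μ
  linarith

end Su
end Vale.Agent.P249
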