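import Vale.Agent.P249.Level

namespace Vale.Agent.P249
open Finset

def Lip1 (g : ℝ → ℝ) : Prop := ∀ a b, |g a - g b| ≤ |a - b|

lemma lip1_id : Lip1 (fun a => a) := fun _ _ => le_rfl
lemma lip1_abs (c : ℝ) : Lip1 (fun a => |a - c|) := fun a b => by
  have := abs_abs_sub_abs_le_abs_sub (a - c) (b - c)
  rwa [sub_sub_sub_cancel_right] at this

namespace Su
variable {ι : Type*} (s : Su ι)

noncomputable def u (l j : ℕ) (x : ι) (f : ι → ℝ) : ℝ :=
  s.Ex l j x (fun z => |f z - s.mix l x f|)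

lemma P_nonneg (l j : ℕ) (x : ι) (f : ι → ℝ) : 0 ≤ s.P l j x f :=
  av_nonneg (sum_nonneg fun z _ => s.kx_nonneg l j x z) (fun z _ => s.hx_nonneg l j x z)
    (fun _ _ => abs_nonneg _)

lemma u_nonneg (l j : ℕ) (x : ι) (f : ι → ℝ) : 0 ≤ s.u l j x f :=
  av_nonneg (sum_nonneg fun z _ => s.kx_nonneg l j x z) (fun z _ => s.kx_nonneg l j x z)
    (fun _ _ => abs_nonneg _)

lemma PP_nonneg (l j : ℕ) (x : ι) (f : ι → ℝ) : 0 ≤ s.PP l j x f := by
  unfold PP
  split_ifs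
  · exact mul_nonneg (div_nonneg s.Q_pos.le (s.R_pos _ _).le) (s.P_nonneg _ _ _ _)
  · exact le_rfl

lemma P_eq {l j : ℕ} {x : ι} (h : 0 < s.γ l j x) (f : ι → ℝ) :
    s.P l j x f = s.R l j / s.Q * s.PP l j x f := by
  unfold PP; rw [if_pos h]
  have := s.Q_pos; have := s.R_pos l j
  field_simp

lemma U_eq (l : ℕ) (x : ι) (f : ι → ℝ) :
    s.U l x f = ∑ j ∈ range (s.J + 1), s.π l j x * s.u l j x f := rfl

lemma U_nonneg (l : ℕ) (x : ι) (f : ι → ℝ) : 0 ≤ s.U l x f := by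
  rw [U_eq]
  exact sum_nonneg fun j _ => mul_nonneg (s.π_nonneg _ _ _) (s.u_nonneg l j x f)

lemma e_nonneg (l : ℕ) (x : ι) (f : ι → ℝ) : 0 ≤ s.e l x f :=
  mul_nonneg (div_nonneg s.Q_pos.le (s.E_pos _).le) (add_nonneg (abs_nonneg _) (s.U_nonneg _ _ _))

section
variable {l j : ℕ} (hj : j ≤ s.J) {x : ι} (h : 0 < s.γ l j x) (f : ι → ℝ) {g : ℝ → ℝ}
  (hg : Lip1 g)
include hj h

lemma Ex_abs_le : s.Ex l j x (fun z => |f z - f x|) ≤ s.P l j x f :=
  av_mono_w (s.Zμ hj h).1 (fun z _ => s.kx_le l j x z) (fun _ _ => abs_nonneg _)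

lemma u_le : s.u l j x f ≤ s.P l j x f + |f x - s.mix l x f| := by
  have hZ := (s.Zμ hj h).1
  have h1 : s.u l j x f ≤ s.Ex l j x (fun z => |f z - f x| + |f x - s.mix l x f|) :=
    av_mono hZ (fun z _ => s.kx_nonneg l j x z) (fun z _ => abs_sub_le _ _ _)
  have h2 := av_add_const (a := s.kx l j x) (h := fun z => |f z - f x|) (μ := 1) hZ
    (abs_nonneg (f x - s.mix l x f)) (by rw [one_mul])
  have h3 := s.Ex_abs_le hj h f
  unfold Ex at *
  linarith

include hg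

lemma Ex_dev : |s.Ex l j x (fun z => g (f z)) - g (f x)| ≤ s.P l j x f :=
  (abs_av_sub_le (s.Zμ hj h).1 (fun z _ => s.kx_nonneg l j x z) _
    (fun _ _ => hg _ _)).trans (s.Ex_abs_le hj h f)

lemma Ex_dev2 : |s.Ex l j x (fun z => g (f z)) - g (s.mix l x f)| ≤ s.u l j x f :=
  abs_av_sub_le (s.Zμ hj h).1 (fun z _ => s.kx_nonneg l j x z) _ (fun _ _ => hg _ _)

lemma A1 : av (s.Y j) (s.kx l j x) (s.hx l j x)
    (fun z => |g (f z) - s.Ex l j x (fun z => g (f z))|) ≤ 2 * s.μ * s.P l j x f := by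
  obtain ⟨hZ, hμ⟩ := s.Zμ hj h
  have h0 := s.Ex_dev hj h f hg
  have h1 : av (s.Y j) (s.kx l j x) (s.hx l j x)
      (fun z => |g (f z) - s.Ex l j x (fun z => g (f z))|) ≤
      av (s.Y j) (s.kx l j x) (s.hx l j x) (fun z => |f z - f x| + s.P l j x f) := by
    refine av_mono hZ (fun z _ => s.hx_nonneg l j x z) (fun z _ => ?_)
    have a := abs_sub_le (g (f z)) (g (f x)) (s.Ex l j x (fun z => g (f z)))
    rw [abs_sub_comm (g (f x))] at a
    linarith [hg (f z) (f x)]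
  have h2 := av_add_const (a := s.hx l j x) (h := fun z => |f z - f x|) hZ
    (s.P_nonneg l j x f) hμ
  have h3 : av (s.Y j) (s.kx l j x) (s.hx l j x) (fun z => |f z - f x|) = s.P l j x f := rfl
  have := s.μ_ge
  have := s.P_nonneg l j x f
  nlinarith

lemma A1' : av (s.Y j) (s.kx l j x) (s.ax l j x)
    (fun z => |g (f z) - s.Ex l j x (fun z => g (f z))|) ≤ 2 * s.μ * s.P l j x f :=
  (av_mono_w (s.Zμ hj h).1 (fun z _ => s.ax_le l j x z) (fun _ _ => abs_nonneg _)).trans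
    (s.A1 hj h f hg)

lemma A2 {lam : ℝ} (hl : 0 < lam) : av (s.Y j) (s.kx l j x) (s.ax l j x)
    (fun z => |g (f z) - s.Ex l j x (fun z => g (f z))|) ≤
      2 * lam * s.u l j x f + (lam ^ s.c)⁻¹ * (2 * s.μ * s.P l j x f) := by
  obtain ⟨hZ, hμ⟩ := s.Zμ hj h
  have h1 := av_mono_w (a := s.ax l j x)
    (a' := fun z => lam * s.kx l j x z + (lam ^ s.c)⁻¹ * s.hx l j x z)
    (h := fun z => |g (f z) - s.Ex l j x (fun z => g (f z))|) hZ
    (fun z _ => kk_tradeoff s.Q s.hc hl _) (fun _ _ => abs_nonneg _)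
  rw [av_lin] at h1
  have h2 := s.A1 hj h f hg
  have h0 := s.Ex_dev2 hj h f hg
  have h3 : av (s.Y j) (s.kx l j x) (s.kx l j x)
      (fun z => |g (f z) - s.Ex l j x (fun z => g (f z))|) ≤
      av (s.Y j) (s.kx l j x) (s.kx l j x) (fun z => |f z - s.mix l x f| + s.u l j x f) := by
    refine av_mono hZ (fun z _ => s.kx_nonneg l j x z) (fun z _ => ?_)
    have a := abs_sub_le (g (f z)) (g (s.mix l x f)) (s.Ex l j x (fun z => g (f z)))
    rw [abs_sub_comm (g (s.mix l x f))] at a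
    linarith [hg (f z) (s.mix l x f)]
  have h4 := av_add_const (a := s.kx l j x) (h := fun z => |f z - s.mix l x f|) (μ := 1) hZ
    (s.u_nonneg l j x f) (by rw [one_mul])
  have h5 : av (s.Y j) (s.kx l j x) (s.kx l j x) (fun z => |f z - s.mix l x f|) =
    s.u l j x f := rfl
  have h6 := mul_le_mul_of_nonneg_left h2 (by positivity : 0 ≤ (lam ^ s.c)⁻¹)
  have h7 := mul_le_mul_of_nonneg_left (h3.trans h4) hl.le
  rw [h5] at h7
  linarith

end

lemma cls {l j : ℕ} (hj : j ≤ s.J) {x y : ι} (hx : 0 < s.γ l j x) (hy : 0 < s.γ l j y)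
    (hc : 4 * s.μ * s.Q * s.ρ x y ≤ s.R l j) (h : ι → ℝ) :
    |s.Ex l j x h - s.Ex l j y h| ≤ 4 * (s.Q / s.R l j) * s.ρ x y *
      (av (s.Y j) (s.kx l j x) (s.ax l j x) (fun z => |h z - s.Ex l j x h|) +
        av (s.Y j) (s.kx l j y) (s.ax l j y) (fun z => |h z - s.Ex l j y h|)) := by
  obtain ⟨hZx, hμx⟩ := s.Zμ hj hx
  obtain ⟨hZy, hμy⟩ := s.Zμ hj hy
  have hR := s.R_pos l j
  have hQ := s.Q_pos
  have hρ := s.ρ0 x y
  have := one_class (h := h) (ε := 2 * (s.Q / s.R l j) * s.ρ x y) (μ := s.μ) hZx hZy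
    (fun z _ => s.ax_nonneg l j x z) (fun z _ => s.ax_nonneg l j y z) (by positivity)
    (fun z _ => ?_) ((sum_le_sum fun z _ => s.ax_le l j x z).trans hμx)
    ((sum_le_sum fun z _ => s.ax_le l j y z).trans hμy) ?_
  · unfold Ex; linarith
  · refine (kk_diff hQ.le s.c (s.sv_nonneg l j x z) (s.sv_nonneg l j y z)).trans ?_
    apply mul_le_mul_of_nonneg_right _ (add_nonneg (kk_nonneg _ _ _) (kk_nonneg _ _ _))
    have a : |s.ρ x z / s.R l j - s.ρ y z / s.R l j| ≤ s.ρ x y / s.R l j := by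
      rw [← sub_div, abs_div, abs_of_pos hR]
      apply div_le_div_of_nonneg_right _ hR.le
      have := s.tri x y z
      have := s.tri y x z
      rw [s.symm y x] at this
      rw [abs_le]; constructor <;> linarith
    have b : s.Q + ((s.c + 1 : ℕ) : ℝ) ≤ 2 * s.Q := by
      have := s.Q_ge.1; push_cast; linarith
    calc _ ≤ (2 * s.Q) * (s.ρ x y / s.R l j) := mul_le_mul b a (abs_nonneg _) (by positivity)
      _ = _ := by ring
  · have : 2 * (s.Q / s.R l j) * s.ρ x y * s.μ = (4 * s.μ * s.Q * s.ρ x y) / s.R l j / 2 := by ring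
    rw [this]
    have : (4 * s.μ * s.Q * s.ρ x y) / s.R l j ≤ 1 := by rw [div_le_one hR]; exact hc
    linarith

lemma clsB1 {l j : ℕ} (hj : j ≤ s.J) {x y : ι} (hx : 0 < s.γ l j x) (hy : 0 < s.γ l j y)
    (f : ι → ℝ) {g : ℝ → ℝ} (hg : Lip1 g) :
    |s.Ex l j x (fun z => g (f z)) - s.Ex l j y (fun z => g (f z))| ≤
      8 * s.μ * s.ρ x y * (s.PP l j x f + s.PP l j y f) + |f x - f y| := by
  have hR := s.R_pos l j
  have hQ := s.Q_pos
  have hρ := s.ρ0 x y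
  have hμ := s.μ_ge
  have px := s.PP_nonneg l j x f
  have py := s.PP_nonneg l j y f
  by_cases hc : 4 * s.μ * s.Q * s.ρ x y ≤ s.R l j
  · have h1 := s.cls hj hx hy hc (fun z => g (f z))
    have h2 := s.A1' hj hx f hg
    have h3 := s.A1' hj hy f hg
    rw [s.P_eq hx] at h2
    rw [s.P_eq hy] at h3
    have h4 := mul_le_mul_of_nonneg_left (add_le_add h2 h3)
      (by positivity : 0 ≤ 4 * (s.Q / s.R l j) * s.ρ x y)
    have e : 4 * (s.Q / s.R l j) * s.ρ x y * (2 * s.μ * (s.R l j / s.Q * s.PP l j x f) +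
        2 * s.μ * (s.R l j / s.Q * s.PP l j y f)) =
        8 * s.μ * s.ρ x y * (s.PP l j x f + s.PP l j y f) := by field_simp; ring
    have := abs_nonneg (f x - f y)
    linarith
  · push Not at hc
    have h2 := s.Ex_dev hj hx f hg
    have h3 := s.Ex_dev hj hy f hg
    rw [s.P_eq hx] at h2
    rw [s.P_eq hy] at h3
    have h4 : s.R l j / s.Q ≤ 4 * s.μ * s.ρ x y := by rw [div_le_iff₀ hQ]; linarith
    have h5 := mul_le_mul_of_nonneg_right h4 px
    have h6 := mul_le_mul_of_nonneg_right h4 py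
    have h7 := hg (f x) (f y)
    have h8 : 0 ≤ s.μ * s.ρ x y * (s.PP l j x f + s.PP l j y f) := by positivity
    rw [abs_le] at h2 h3 h7 ⊢
    constructor <;> nlinarith

lemma clsB2 {l j : ℕ} (hj : j ≤ s.J) {x y : ι} (hx : 0 < s.γ l j x) (hy : 0 < s.γ l j y)
    (hc : 4 * s.μ * s.Q * s.ρ x y ≤ s.R l j)
    (f : ι → ℝ) {g : ℝ → ℝ} (hg : Lip1 g) {lam : ℝ} (hl : 0 < lam) :
    |s.Ex l j x (fun z => g (f z)) - s.Ex l j y (fun z => g (f z))| ≤
      8 * lam * (s.Q / s.R l j) * s.ρ x y * (s.u l j x f + s.u l j y f) +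
      8 * s.μ * s.ρ x y * (lam ^ s.c)⁻¹ * (s.PP l j x f + s.PP l j y f) := by
  have hR := s.R_pos l j
  have hQ := s.Q_pos
  have hρ := s.ρ0 x y
  have h1 := s.cls hj hx hy hc (fun z => g (f z))
  have h2 := s.A2 hj hx f hg hl
  have h3 := s.A2 hj hy f hg hl
  rw [s.P_eq hx] at h2
  rw [s.P_eq hy] at h3
  have h4 := mul_le_mul_of_nonneg_left (add_le_add h2 h3)
    (by positivity : 0 ≤ 4 * (s.Q / s.R l j) * s.ρ x y)
  refine h1.trans (h4.trans (le_of_eq ?_))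
  field_simp; ring

lemma π_diff (l j : ℕ) (x y : ι) {δ : ℝ} (hδ : 0 ≤ δ)
    (h : ∀ j ≤ s.J, |s.γ l j x - s.γ l j y| ≤ δ) (hj : j ≤ s.J) :
    s.π l j x - s.π l j y ≤ (s.J + 2) * (s.c + 1) * δ * s.γ l j x ^ s.c := by
  have pw : ∀ j ≤ s.J, ∀ x y : ι, |s.γ l j x - s.γ l j y| ≤ δ →
      s.γ l j x ^ (s.c + 1) - s.γ l j y ^ (s.c + 1) ≤ (s.c + 1) * δ * s.γ l j x ^ s.c := by
    intro j _ x y h
    have hx := s.γ_nonneg l j x
    have hy := s.γ_nonneg l j y
    rcases le_total (s.γ l j y) (s.γ l j x) with a | a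
    · refine (pow_sub_le hy a s.c).trans ?_
      push_cast
      have := (abs_le.1 h).2
      gcongr
    · have := pow_le_pow_left₀ hx a (s.c + 1)
      have : 0 ≤ (s.c + 1) * δ * s.γ l j x ^ s.c := by positivity
      linarith
  have hG : s.G l y - s.G l x ≤ (s.J + 1) * ((s.c + 1) * δ) := by
    unfold G
    rw [← sum_sub_distrib]
    have := sum_le_card_nsmul (range (s.J + 1))
      (fun j => s.γ l j y ^ (s.c + 1) - s.γ l j x ^ (s.c + 1)) ((s.c + 1) * δ) (fun i hi => by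
        have hi' := Nat.lt_succ_iff.1 (mem_range.1 hi)
        have a := pw i hi' y x (by rw [abs_sub_comm]; exact h i hi')
        have b : s.γ l i y ^ s.c ≤ 1 := pow_le_one₀ (s.γ_nonneg _ _ _) (s.γ_le_one _ _ _)
        have c := mul_le_mul_of_nonneg_left b (by positivity : 0 ≤ ((s.c : ℝ) + 1) * δ)
        linarith)
    simpa using this
  have gx := s.G_ge l x
  have gy := s.G_ge l y
  have a := pw j hj x y (h j hj)
  obtain ⟨A, hA⟩ : ∃ A, A = s.γ l j x ^ s.c := ⟨_, rfl⟩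
  have hA0 : 0 ≤ A := hA ▸ pow_nonneg (s.γ_nonneg _ _ _) _
  have hX : s.γ l j x ^ (s.c + 1) ≤ A := hA ▸
    pow_le_pow_of_le_one (s.γ_nonneg _ _ _) (s.γ_le_one _ _ _) (by omega)
  have hX0 : 0 ≤ s.γ l j x ^ (s.c + 1) := pow_nonneg (s.γ_nonneg _ _ _) _
  rw [← hA] at a ⊢
  unfold π
  generalize s.γ l j x ^ (s.c + 1) = X at *
  generalize s.γ l j y ^ (s.c + 1) = Y at *
  generalize s.G l x = Gx at *
  generalize s.G l y = Gy at *
  obtain ⟨D, hD⟩ : ∃ D, D = ((s.c : ℝ) + 1) * δ := ⟨_, rfl⟩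
  rw [← hD] at hG a
  have hD0 : 0 ≤ D := by rw [hD]; positivity
  have e1 : X / Gx - Y / Gy = X * ((Gy - Gx) / (Gx * Gy)) + (X - Y) / Gy := by field_simp; ring
  have e2 : (Gy - Gx) / (Gx * Gy) ≤ (s.J + 1) * D := by
    rw [div_le_iff₀ (by positivity)]
    have : 1 ≤ Gx * Gy := by nlinarith
    have : 0 ≤ ((s.J : ℝ) + 1) * D := by positivity
    nlinarith
  have e3 : (X - Y) / Gy ≤ D * A := by
    rw [div_le_iff₀ (by positivity)]
    have : 0 ≤ D * A := by positivity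
    nlinarith
  have e4 := mul_le_mul_of_nonneg_left e2 hX0
  have e5 := mul_le_mul_of_nonneg_right hX (by positivity : 0 ≤ ((s.J : ℝ) + 1) * D)
  have e6 : ((s.J : ℝ) + 2) * (s.c + 1) * δ * A = (s.J + 1) * D * A + D * A := by rw [hD]; ring
  rw [e1, e6]; linarith

end Su
end Vale.Agent.P249
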