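import Vale.Agent.P249.Level2

namespace Vale.Agent.P249
open Finset

lemma mix_split (I : Finset ℕ) (px py ax ay : ℕ → ℝ) (κ : ℝ) (hx : ∑ j ∈ I, px j = 1)
    (hy : ∑ j ∈ I, py j = 1) (hx0 : ∀ j, 0 ≤ px j) (hy0 : ∀ j, 0 ≤ py j) :
    |∑ j ∈ I, px j * ax j - ∑ j ∈ I, py j * ay j| ≤
      ∑ j ∈ I, (min (px j) (py j) * |ax j - ay j| + (px j - min (px j) (py j)) * |ax j - κ| +
        (py j - min (py j) (px j)) * |ay j - κ|) := by
  have e : ∑ j ∈ I, px j * ax j - ∑ j ∈ I, py j * ay j =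
      ∑ j ∈ I, (min (px j) (py j) * (ax j - ay j) + (px j - min (px j) (py j)) * (ax j - κ) -
        (py j - min (py j) (px j)) * (ay j - κ)) := by
    have : ∀ j ∈ I, min (px j) (py j) * (ax j - ay j) + (px j - min (px j) (py j)) * (ax j - κ) -
        (py j - min (py j) (px j)) * (ay j - κ) =
        px j * ax j - py j * ay j - κ * px j + κ * py j := by
      intro j _; rw [min_comm (py j)]; ring
    rw [sum_congr rfl this]
    simp only [sum_add_distrib, sum_sub_distrib, ← mul_sum, hx, hy]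
    ring
  rw [e]
  refine (abs_sum_le_sum_abs _ _).trans (sum_le_sum fun j _ => ?_)
  have h1 : 0 ≤ min (px j) (py j) := le_min (hx0 j) (hy0 j)
  have h2 : 0 ≤ px j - min (px j) (py j) := sub_nonneg.2 (min_le_left _ _)
  have h3 : 0 ≤ py j - min (py j) (px j) := sub_nonneg.2 (min_le_left _ _)
  refine (abs_sub _ _).trans (add_le_add ((abs_add_le _ _).trans ?_) ?_)
  · rw [abs_mul, abs_mul, abs_of_nonneg h1, abs_of_nonneg h2]
  · rw [abs_mul, abs_of_nonneg h3]

namespace Su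
variable {ι : Type*} (s : Su ι)

lemma π_part (l j : ℕ) (x y : ι) {δ : ℝ} (hδ : 0 ≤ δ)
    (h : ∀ j ≤ s.J, |s.γ l j x - s.γ l j y| ≤ δ) (hj : j ≤ s.J) :
    s.π l j x - min (s.π l j x) (s.π l j y) ≤ (s.J + 2) * (s.c + 1) * δ * s.γ l j x ^ s.c := by
  rcases le_total (s.π l j x) (s.π l j y) with a | a
  · rw [min_eq_left a, sub_self]
    have := s.γ_nonneg l j x
    positivity
  · rw [min_eq_right a]; exact s.π_diff l j x y hδ h hj

lemma γ_lip' (l : ℕ) (x y : ι) {τ : ℝ} (hτ : 0 < τ)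
    (h : ∀ j ≤ s.J, (0 < s.γ l j x ∨ 0 < s.γ l j y) → τ ≤ 32 ^ j) :
    ∀ j ≤ s.J, |s.γ l j x - s.γ l j y| ≤ 8 * s.ρ x y / (s.E l * τ) := by
  intro j hj
  have hE := s.E_pos l
  have hρ := s.ρ0 x y
  by_cases a : 0 < s.γ l j x ∨ 0 < s.γ l j y
  · refine (s.γ_lip l j x y).trans (div_le_div_of_nonneg_left (by positivity) (by positivity) ?_)
    exact mul_le_mul_of_nonneg_left (h j hj a) hE.le
  · push Not at a
    rw [le_antisymm a.1 (s.γ_nonneg _ _ _), le_antisymm a.2 (s.γ_nonneg _ _ _), sub_self, abs_zero]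
    positivity

lemma P_le {l j : ℕ} (hj : j ≤ s.J) {x : ι} (h : 0 < s.γ l j x) {f : ι → ℝ} {S : ℝ}
    (hS : s.PP l j x f ≤ S) : s.P l j x f ≤ 32 ^ s.J * (s.E l / s.Q) * S := by
  rw [s.P_eq h]
  have hQ := s.Q_pos
  have hE := s.E_pos l
  have h1 : s.R l j / s.Q ≤ 32 ^ s.J * (s.E l / s.Q) := by
    unfold R
    have : (32 : ℝ) ^ j ≤ 32 ^ s.J := pow_le_pow_right₀ (by norm_num) hj
    calc s.E l * 32 ^ j / s.Q = 32 ^ j * (s.E l / s.Q) := by ring
      _ ≤ _ := by gcongr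
  exact mul_le_mul h1 hS (s.PP_nonneg _ _ _ _) (by positivity)

lemma mix_dev (l : ℕ) (x : ι) (f : ι → ℝ) :
    |f x - s.mix l x f| ≤ ∑ j ∈ range (s.J + 1), s.π l j x * s.P l j x f := by
  have e : s.mix l x f - f x = ∑ j ∈ range (s.J + 1), s.π l j x * (s.Ex l j x f - f x) := by
    simp only [mul_sub, sum_sub_distrib, ← sum_mul, s.π_sum, one_mul]; rfl
  rw [abs_sub_comm, e]
  refine (abs_sum_le_sum_abs _ _).trans (sum_le_sum fun j hj => ?_)
  rw [abs_mul, abs_of_nonneg (s.π_nonneg _ _ _)]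
  by_cases h : 0 < s.γ l j x
  · exact mul_le_mul_of_nonneg_left
      (s.Ex_dev (Nat.lt_succ_iff.1 (mem_range.1 hj)) h f lip1_id) (s.π_nonneg _ _ _)
  · rw [s.π_dead h]; simp

lemma mix_dev' (l : ℕ) (x : ι) (f : ι → ℝ) {S : ℝ} (hS : ∀ j ≤ s.J, s.PP l j x f ≤ S) :
    |f x - s.mix l x f| ≤ 32 ^ s.J * (s.E l / s.Q) * S := by
  refine (s.mix_dev l x f).trans ?_
  rw [← one_mul (32 ^ s.J * (s.E l / s.Q) * S), ← s.π_sum l x, sum_mul]
  refine sum_le_sum fun j hj => ?_
  have hj' := Nat.lt_succ_iff.1 (mem_range.1 hj)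
  by_cases h : 0 < s.γ l j x
  · exact mul_le_mul_of_nonneg_left (s.P_le hj' h (hS j hj')) (s.π_nonneg _ _ _)
  · rw [s.π_dead h]; simp

lemma β_le {ρ E τ : ℝ} (hρ : 0 ≤ ρ) (hE : 0 < E) (hτ : 0 < τ) :
    (s.J + 2) * ((s.J + 2) * (s.c + 1) * (8 * ρ / (E * τ))) * 32 ^ s.J ≤
      s.Q * ρ / (E * τ) / 2 := by
  have h := mul_le_mul_of_nonneg_right s.hQ (by positivity : 0 ≤ ρ / (E * τ) / 2)
  calc _ = 16 * ((s.J : ℝ) + 2) ^ 2 * ((s.c : ℝ) + 1) * 32 ^ s.J * (ρ / (E * τ) / 2) := by ring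
    _ ≤ _ := h
    _ = _ := by ring

lemma B1 (l : ℕ) (x y : ι) (f : ι → ℝ) {g : ℝ → ℝ} (hg : Lip1 g) {S : ℝ}
    (hSx : ∀ j ≤ s.J, s.PP l j x f ≤ S) (hSy : ∀ j ≤ s.J, s.PP l j y f ≤ S) :
    |s.mix l x (fun z => g (f z)) - s.mix l y (fun z => g (f z))| ≤
      17 * s.μ * s.ρ x y * S + |f x - f y| := by
  have hE := s.E_pos l
  have hρ := s.ρ0 x y
  have hQ := s.Q_pos
  have hμ := s.μ_ge
  have hS : 0 ≤ S := (s.PP_nonneg l 0 x f).trans (hSx 0 (Nat.zero_le _))
  have hδ := s.γ_lip' l x y one_pos (fun j _ _ => one_le_pow₀ (by norm_num))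
  obtain ⟨β, hβ⟩ : ∃ β, β = ((s.J : ℝ) + 2) * (s.c + 1) * (8 * s.ρ x y / (s.E l * 1)) := ⟨_, rfl⟩
  have hβ0 : 0 ≤ β := by rw [hβ]; positivity
  obtain ⟨t, ht⟩ : ∃ t, t = β * (32 ^ s.J * (s.E l / s.Q) * S) := ⟨_, rfl⟩
  have ht0 : 0 ≤ t := by rw [ht]; positivity
  have ht1 : (s.J + 2) * t ≤ s.ρ x y * S / 2 := by
    have h := s.β_le hρ hE one_pos
    rw [← hβ] at h
    have h2 := mul_le_mul_of_nonneg_right h (by positivity : 0 ≤ s.E l / s.Q * S)
    have e : s.Q * s.ρ x y / (s.E l * 1) / 2 * (s.E l / s.Q * S) = s.ρ x y * S / 2 := by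
      field_simp
    rw [ht]; linarith
  have part : ∀ j ≤ s.J, ∀ x' y' : ι, (∀ j ≤ s.J, s.PP l j x' f ≤ S) →
      (∀ j ≤ s.J, |s.γ l j x' - s.γ l j y'| ≤ 8 * s.ρ x y / (s.E l * 1)) →
      (s.π l j x' - min (s.π l j x') (s.π l j y')) *
        |s.Ex l j x' (fun z => g (f z)) - g (f x')| ≤ t := by
    intro j hj x' y' hS' hδ'
    by_cases h : 0 < s.γ l j x'
    · have a := s.π_part l j x' y' (by positivity) hδ' hj
      rw [← hβ] at a
      have b : s.γ l j x' ^ s.c ≤ 1 := pow_le_one₀ (s.γ_nonneg _ _ _) (s.γ_le_one _ _ _)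
      have c := (s.Ex_dev hj h f hg).trans (s.P_le hj h (hS' j hj))
      rw [ht]
      exact mul_le_mul (by nlinarith) c (abs_nonneg _) hβ0
    · rw [s.π_dead h, min_eq_left (s.π_nonneg _ _ _)]; simpa using ht0
  refine (mix_split _ _ _ _ _ (g (f x)) (s.π_sum l x) (s.π_sum l y) (s.π_nonneg l · x)
    (s.π_nonneg l · y)).trans ?_
  have key : ∀ j ∈ range (s.J + 1),
      min (s.π l j x) (s.π l j y) *
          |s.Ex l j x (fun z => g (f z)) - s.Ex l j y (fun z => g (f z))| +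
        (s.π l j x - min (s.π l j x) (s.π l j y)) * |s.Ex l j x (fun z => g (f z)) - g (f x)| +
        (s.π l j y - min (s.π l j y) (s.π l j x)) * |s.Ex l j y (fun z => g (f z)) - g (f x)| ≤
      s.π l j y * (16 * s.μ * s.ρ x y * S + |f x - f y|) + 2 * t := by
    intro j hj
    have hj' := Nat.lt_succ_iff.1 (mem_range.1 hj)
    have p1 := part j hj' x y hSx hδ
    have p2 := part j hj' y x hSy (fun j hj => by rw [abs_sub_comm]; exact hδ j hj)
    have m0 : 0 ≤ min (s.π l j x) (s.π l j y) := le_min (s.π_nonneg _ _ _) (s.π_nonneg _ _ _)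
    have m1 : min (s.π l j x) (s.π l j y) ≤ s.π l j y := min_le_right _ _
    have p3 : min (s.π l j x) (s.π l j y) *
        |s.Ex l j x (fun z => g (f z)) - s.Ex l j y (fun z => g (f z))| ≤
        min (s.π l j x) (s.π l j y) * (16 * s.μ * s.ρ x y * S + |f x - f y|) := by
      by_cases hx : 0 < s.γ l j x
      · by_cases hy : 0 < s.γ l j y
        · refine mul_le_mul_of_nonneg_left ((s.clsB1 hj' hx hy f hg).trans ?_) m0
          have := mul_le_mul_of_nonneg_left (add_le_add (hSx j hj') (hSy j hj'))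
            (by positivity : 0 ≤ 8 * s.μ * s.ρ x y)
          linarith
        · rw [s.π_dead hy, min_eq_right (s.π_nonneg _ _ _)]; simp
      · rw [s.π_dead hx, min_eq_left (s.π_nonneg _ _ _)]; simp
    have p4 : |s.Ex l j y (fun z => g (f z)) - g (f x)| ≤
        |s.Ex l j y (fun z => g (f z)) - g (f y)| + |f x - f y| := by
      have := abs_sub_le (s.Ex l j y (fun z => g (f z))) (g (f y)) (g (f x))
      have := hg (f y) (f x)
      rw [abs_sub_comm (f y)] at this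
      linarith
    rw [min_comm (s.π l j y)] at p2 ⊢
    have p5 := mul_le_mul_of_nonneg_left p4 (sub_nonneg.2 m1)
    have p6 : 0 ≤ (s.π l j y - min (s.π l j x) (s.π l j y)) * (16 * s.μ * s.ρ x y * S) :=
      mul_nonneg (sub_nonneg.2 m1) (by positivity)
    nlinarith
  refine (sum_le_sum key).trans ?_
  rw [sum_add_distrib, ← sum_mul, s.π_sum, sum_const, card_range, nsmul_eq_mul]
  push_cast
  have : s.ρ x y * S ≤ s.μ * s.ρ x y * S := by
    have := mul_le_mul_of_nonneg_right hμ (by positivity : 0 ≤ s.ρ x y * S)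
    linarith
  nlinarith

lemma B2part {l j : ℕ} (hj : j ≤ s.J) (x y : ι) (f : ι → ℝ) {S δ lam : ℝ} (hδ0 : 0 ≤ δ)
    (hl : 0 < lam) (hS : ∀ j ≤ s.J, s.PP l j x f ≤ S)
    (hδ : ∀ j ≤ s.J, |s.γ l j x - s.γ l j y| ≤ δ) :
    (s.π l j x - min (s.π l j x) (s.π l j y)) * s.u l j x f ≤
      (s.J + 2) * (s.c + 1) * δ * (lam * (s.J + 2) * (s.π l j x * s.u l j x f) +
        (lam ^ s.c)⁻¹ * (2 * (32 ^ s.J * (s.E l / s.Q) * S))) := by
  have hS0 : 0 ≤ S := (s.PP_nonneg l 0 x f).trans (hS 0 (Nat.zero_le _))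
  have hE := s.E_pos l
  have hQ := s.Q_pos
  have hu := s.u_nonneg l j x f
  have hπ := s.π_nonneg l j x
  by_cases h : 0 < s.γ l j x
  · have a := s.π_part l j x y hδ0 hδ hj
    have b := pow_tradeoff h.le hl s.c
    have c : s.γ l j x ^ (s.c + 1) ≤ (s.J + 2) * s.π l j x := by
      have g1 := s.G_ge l x
      have g2 := s.G_le l x
      have e : s.γ l j x ^ (s.c + 1) = s.G l x * s.π l j x := by
        unfold π; field_simp
      rw [e]; exact mul_le_mul_of_nonneg_right (by linarith) hπ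
    have d : s.u l j x f ≤ 2 * (32 ^ s.J * (s.E l / s.Q) * S) := by
      have := s.u_le hj h f
      have := s.P_le hj h (hS j hj)
      have := s.mix_dev' l x f hS
      linarith
    refine (mul_le_mul_of_nonneg_right a hu).trans ?_
    rw [mul_assoc _ (s.γ l j x ^ s.c)]
    apply mul_le_mul_of_nonneg_left _ (by positivity)
    have e1 := mul_le_mul_of_nonneg_right b hu
    have e2 := mul_le_mul_of_nonneg_left d (by positivity : 0 ≤ (lam ^ s.c)⁻¹)
    have e3 := mul_le_mul_of_nonneg_right (mul_le_mul_of_nonneg_left c hl.le) hu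
    nlinarith
  · rw [s.π_dead h, min_eq_left (s.π_nonneg _ _ _)]
    simp only [sub_self, zero_mul, mul_zero, zero_add]
    positivity

lemma B2aux (l : ℕ) (x y : ι) (f : ι → ℝ) {g : ℝ → ℝ} (hg : Lip1 g) {S τ lam : ℝ}
    (hSx : ∀ j ≤ s.J, s.PP l j x f ≤ S) (hSy : ∀ j ≤ s.J, s.PP l j y f ≤ S) (hτ : 1 ≤ τ)
    (hτ' : ∀ j ≤ s.J, (0 < s.γ l j x ∨ 0 < s.γ l j y) → τ ≤ 32 ^ j)
    (hc : 4 * s.μ * s.Q * s.ρ x y ≤ s.E l * τ) (hl : 0 < lam) :
    |s.mix l x (fun z => g (f z)) - s.mix l y (fun z => g (f z))| ≤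
      9 * lam * (s.Q * s.ρ x y / (s.E l * τ)) * (s.U l x f + s.U l y f) +
        18 * s.μ * s.ρ x y * (lam ^ s.c)⁻¹ * S + |s.mix l x f - s.mix l y f| / 2 := by
  have hE := s.E_pos l
  have hρ := s.ρ0 x y
  have hQ := s.Q_pos
  have hμ := s.μ_ge
  have hτ0 : 0 < τ := by linarith
  have hS : 0 ≤ S := (s.PP_nonneg l 0 x f).trans (hSx 0 (Nat.zero_le _))
  have hδ := s.γ_lip' l x y hτ0 hτ'
  obtain ⟨β, hβ⟩ : ∃ β, β = ((s.J : ℝ) + 2) * (s.c + 1) * (8 * s.ρ x y / (s.E l * τ)) := ⟨_, rfl⟩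
  have hβ0 : 0 ≤ β := by rw [hβ]; positivity
  obtain ⟨a, ha⟩ : ∃ a, a = s.Q * s.ρ x y / (s.E l * τ) := ⟨_, rfl⟩
  have ha0 : 0 ≤ a := by rw [ha]; positivity
  obtain ⟨L, hL⟩ : ∃ L, L = (lam ^ s.c)⁻¹ := ⟨_, rfl⟩
  have hL0 : 0 ≤ L := by rw [hL]; positivity
  obtain ⟨t, ht⟩ : ∃ t, t = β * (L * (2 * (32 ^ s.J * (s.E l / s.Q) * S))) := ⟨_, rfl⟩
  have ht0 : 0 ≤ t := by rw [ht]; positivity
  have hb := s.β_le hρ hE hτ0
  rw [← hβ, ← ha] at hb
  have h32 : (1 : ℝ) ≤ 32 ^ s.J := one_le_pow₀ (by norm_num)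
  have hb2 : (s.J + 2) * β ≤ a / 2 := by
    have := mul_le_mul_of_nonneg_left h32 (by positivity : 0 ≤ ((s.J : ℝ) + 2) * β)
    linarith
  have ha1 : a ≤ 1 := by
    rw [ha, div_le_one (by positivity)]
    have := mul_le_mul_of_nonneg_right hμ (by positivity : 0 ≤ s.Q * s.ρ x y)
    have : 0 ≤ s.Q * s.ρ x y := by positivity
    linarith
  have ht1 : (s.J + 2) * t ≤ s.ρ x y * L * S := by
    have h2 := mul_le_mul_of_nonneg_right hb (by positivity : 0 ≤ L * (2 * (s.E l / s.Q * S)))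
    have e : a / 2 * (L * (2 * (s.E l / s.Q * S))) = s.ρ x y * L * S / τ := by
      rw [ha]; field_simp
    have e2 : s.ρ x y * L * S / τ ≤ s.ρ x y * L * S := div_le_self (by positivity) hτ
    rw [ht]; linarith
  rw [← ha, ← hL]
  obtain ⟨d, hd⟩ : ∃ d, d = |s.mix l x f - s.mix l y f| := ⟨_, rfl⟩
  have hd0 : 0 ≤ d := hd ▸ abs_nonneg _
  rw [← hd]
  refine (mix_split _ _ _ _ _ (g (s.mix l x f)) (s.π_sum l x) (s.π_sum l y) (s.π_nonneg l · x)
    (s.π_nonneg l · y)).trans ?_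
  have key : ∀ j ∈ range (s.J + 1),
      min (s.π l j x) (s.π l j y) *
          |s.Ex l j x (fun z => g (f z)) - s.Ex l j y (fun z => g (f z))| +
        (s.π l j x - min (s.π l j x) (s.π l j y)) *
          |s.Ex l j x (fun z => g (f z)) - g (s.mix l x f)| +
        (s.π l j y - min (s.π l j y) (s.π l j x)) *
          |s.Ex l j y (fun z => g (f z)) - g (s.mix l x f)| ≤
      9 * lam * a * (s.π l j x * s.u l j x f + s.π l j y * s.u l j y f) +
        s.π l j y * (16 * s.μ * s.ρ x y * L * S) + (2 * t + β * d) := by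
    intro j hj
    have hj' := Nat.lt_succ_iff.1 (mem_range.1 hj)
    have hδ0 : 0 ≤ 8 * s.ρ x y / (s.E l * τ) := by positivity
    have p1 := s.B2part hj' x y f hδ0 hl hSx hδ
    have p2 := s.B2part hj' y x f hδ0 hl hSy
      (fun j hj => by rw [abs_sub_comm]; exact hδ j hj)
    rw [← hβ, ← hL, mul_add, ← ht] at p1 p2
    have ux := s.u_nonneg l j x f
    have uy := s.u_nonneg l j y f
    have πx := s.π_nonneg l j x
    have πy := s.π_nonneg l j y
    have m0 : 0 ≤ min (s.π l j x) (s.π l j y) := le_min πx πy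
    have m1 : min (s.π l j x) (s.π l j y) ≤ s.π l j y := min_le_right _ _
    have m2 : min (s.π l j x) (s.π l j y) ≤ s.π l j x := min_le_left _ _
    rw [min_comm (s.π l j y)] at p2 ⊢
    have q1 : β * (lam * (s.J + 2) * (s.π l j x * s.u l j x f)) ≤
        lam * a * (s.π l j x * s.u l j x f) := by
      have := mul_le_mul_of_nonneg_right (hb2.trans (by linarith : a / 2 ≤ a))
        (by positivity : 0 ≤ lam * (s.π l j x * s.u l j x f))
      linarith
    have q2 : β * (lam * (s.J + 2) * (s.π l j y * s.u l j y f)) ≤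
        lam * a * (s.π l j y * s.u l j y f) := by
      have := mul_le_mul_of_nonneg_right (hb2.trans (by linarith : a / 2 ≤ a))
        (by positivity : 0 ≤ lam * (s.π l j y * s.u l j y f))
      linarith
    have p3 : min (s.π l j x) (s.π l j y) *
        |s.Ex l j x (fun z => g (f z)) - s.Ex l j y (fun z => g (f z))| ≤
        8 * lam * a * (s.π l j x * s.u l j x f + s.π l j y * s.u l j y f) +
          s.π l j y * (16 * s.μ * s.ρ x y * L * S) := by
      by_cases hx : 0 < s.γ l j x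
      · by_cases hy : 0 < s.γ l j y
        · have r1 : s.E l * τ ≤ s.R l j :=
            mul_le_mul_of_nonneg_left (hτ' j hj' (Or.inl hx)) hE.le
          have r2 := s.clsB2 hj' hx hy (hc.trans r1) f hg hl
          rw [← hL] at r2
          have r3 : s.Q / s.R l j * s.ρ x y ≤ a := by
            rw [ha, div_mul_eq_mul_div]
            exact div_le_div_of_nonneg_left (by positivity) (by positivity) r1
          have r4 := mul_le_mul_of_nonneg_left (add_le_add (hSx j hj') (hSy j hj'))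
            (by positivity : 0 ≤ 8 * s.μ * s.ρ x y * L)
          have r5 := mul_le_mul_of_nonneg_right r3
            (by positivity : 0 ≤ 8 * lam * (s.u l j x f + s.u l j y f))
          have r6 : |s.Ex l j x (fun z => g (f z)) - s.Ex l j y (fun z => g (f z))| ≤
              8 * lam * a * s.u l j x f + 8 * lam * a * s.u l j y f +
                16 * s.μ * s.ρ x y * L * S := by linarith
          refine (mul_le_mul_of_nonneg_left r6 m0).trans ?_
          have r7 := mul_le_mul_of_nonneg_right m2 (by positivity : 0 ≤ 8 * lam * a * s.u l j x f)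
          have r8 := mul_le_mul_of_nonneg_right m1 (by positivity : 0 ≤ 8 * lam * a * s.u l j y f)
          have r9 := mul_le_mul_of_nonneg_right m1
            (by positivity : 0 ≤ 16 * s.μ * s.ρ x y * L * S)
          linarith
        · rw [show min (s.π l j x) (s.π l j y) = 0 by rw [s.π_dead hy, min_eq_right πx]]
          rw [zero_mul]; positivity
      · rw [show min (s.π l j x) (s.π l j y) = 0 by rw [s.π_dead hx, min_eq_left πy]]
        rw [zero_mul]; positivity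
    have p4 : (s.π l j x - min (s.π l j x) (s.π l j y)) *
        |s.Ex l j x (fun z => g (f z)) - g (s.mix l x f)| ≤
        (s.π l j x - min (s.π l j x) (s.π l j y)) * s.u l j x f := by
      by_cases hx : 0 < s.γ l j x
      · exact mul_le_mul_of_nonneg_left (s.Ex_dev2 hj' hx f hg) (sub_nonneg.2 m2)
      · rw [s.π_dead hx, min_eq_left πy]; simp
    have p5 : (s.π l j y - min (s.π l j x) (s.π l j y)) *
        |s.Ex l j y (fun z => g (f z)) - g (s.mix l x f)| ≤
        (s.π l j y - min (s.π l j x) (s.π l j y)) * s.u l j y f + β * d := by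
      by_cases hy : 0 < s.γ l j y
      · have r1 := s.Ex_dev2 hj' hy f hg
        have r2 := abs_sub_le (s.Ex l j y (fun z => g (f z))) (g (s.mix l y f)) (g (s.mix l x f))
        have r3 := hg (s.mix l y f) (s.mix l x f)
        rw [abs_sub_comm (s.mix l y f), ← hd] at r3
        have r4 := s.π_part l j y x hδ0
          (fun j hj => by rw [abs_sub_comm]; exact hδ j hj) hj'
        rw [← hβ, min_comm] at r4
        have r5 : s.γ l j y ^ s.c ≤ 1 := pow_le_one₀ (s.γ_nonneg _ _ _) (s.γ_le_one _ _ _)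
        have r6 : s.π l j y - min (s.π l j x) (s.π l j y) ≤ β :=
          r4.trans (mul_le_of_le_one_right hβ0 r5)
        have r7 := mul_le_mul_of_nonneg_right r6 hd0
        have r8 := mul_le_mul_of_nonneg_left
          (by linarith : |s.Ex l j y (fun z => g (f z)) - g (s.mix l x f)| ≤ s.u l j y f + d)
          (sub_nonneg.2 m1)
        linarith
      · rw [s.π_dead hy, min_eq_right πx]
        simp only [sub_self, zero_mul, zero_add]; positivity
    linarith
  refine (sum_le_sum key).trans ?_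
  rw [sum_add_distrib, sum_add_distrib, ← sum_mul, s.π_sum, sum_const, card_range, nsmul_eq_mul,
    ← mul_sum, sum_add_distrib, ← s.U_eq, ← s.U_eq]
  push_cast
  have f1 : s.ρ x y * L * S ≤ s.μ * s.ρ x y * L * S := by
    have := mul_le_mul_of_nonneg_right hμ (by positivity : 0 ≤ s.ρ x y * L * S)
    linarith
  have f2 := mul_le_mul_of_nonneg_right (hb2.trans (by linarith : a / 2 ≤ 1 / 2)) hd0
  have f3 : 0 ≤ β * d := by positivity
  linarith

lemma B2 (l : ℕ) (x y : ι) (f : ι → ℝ) {g : ℝ → ℝ} (hg : Lip1 g) {S τ lam : ℝ}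
    (hSx : ∀ j ≤ s.J, s.PP l j x f ≤ S) (hSy : ∀ j ≤ s.J, s.PP l j y f ≤ S) (hτ : 1 ≤ τ)
    (hτ' : ∀ j ≤ s.J, (0 < s.γ l j x ∨ 0 < s.γ l j y) → τ ≤ 32 ^ j)
    (hc : 4 * s.μ * s.Q * s.ρ x y ≤ s.E l * τ) (hl : 0 < lam) :
    |s.mix l x (fun z => g (f z)) - s.mix l y (fun z => g (f z))| ≤
      36 * s.μ * s.ρ x y * (lam * (s.e l x f + s.e l y f) / τ + (lam ^ s.c)⁻¹ * S) := by
  have h1 := s.B2aux l x y f hg hSx hSy hτ hτ' hc hl
  have h2 := s.B2aux l x y f lip1_id hSx hSy hτ hτ' hc hl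
  have hE := s.E_pos l
  have hρ := s.ρ0 x y
  have hQ := s.Q_pos
  have hμ := s.μ_ge
  have hU : ∀ x, s.Q / s.E l * s.U l x f ≤ s.e l x f := fun x =>
    mul_le_mul_of_nonneg_left (le_add_of_nonneg_left (abs_nonneg _)) (by positivity)
  have h3 : s.Q * s.ρ x y / (s.E l * τ) * (s.U l x f + s.U l y f) ≤
      s.ρ x y * ((s.e l x f + s.e l y f) / τ) := by
    have := mul_le_mul_of_nonneg_left (add_le_add (hU x) (hU y))
      (by positivity : 0 ≤ s.ρ x y / τ)
    calc _ = s.ρ x y / τ * (s.Q / s.E l * s.U l x f + s.Q / s.E l * s.U l y f) := by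
          field_simp
      _ ≤ _ := this
      _ = _ := by ring
  have h4 : 0 ≤ lam * (s.ρ x y * ((s.e l x f + s.e l y f) / τ)) := by
    have := s.e_nonneg l x f; have := s.e_nonneg l y f; positivity
  have h5 := mul_le_mul_of_nonneg_left h3 hl.le
  have h6 := mul_le_mul_of_nonneg_right hμ h4
  have e : 36 * s.μ * s.ρ x y * (lam * (s.e l x f + s.e l y f) / τ + (lam ^ s.c)⁻¹ * S) =
      36 * (s.μ * (lam * (s.ρ x y * ((s.e l x f + s.e l y f) / τ)))) +
        2 * (18 * s.μ * s.ρ x y * (lam ^ s.c)⁻¹ * S) := by ring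
  rw [e]
  have h2' : |s.mix l x f - s.mix l y f| ≤
      9 * lam * (s.Q * s.ρ x y / (s.E l * τ)) * (s.U l x f + s.U l y f) +
        18 * s.μ * s.ρ x y * (lam ^ s.c)⁻¹ * S + |s.mix l x f - s.mix l y f| / 2 := h2
  linarith

end Su
end Vale.Agent.P249
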