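import Vale.Agent.P249.Core

namespace Vale.Agent.P249
open Finset Filter

theorem core {ι Ω : Type*} [Fintype ι] [Fintype Ω] [Nonempty ι] {p : ℝ} (hp : 1 ≤ p)
    (φ : ι → Ω → ℝ) {J c g t h d : ℕ} {Q lam θ Φ D μ S Λ : ℝ} (hc : 1 ≤ c)
    (hQ : 16 * (((J + 1 : ℕ) : ℝ) + 2) ^ 2 * ((c : ℝ) + 1) * 32 ^ (J + 1) ≤ Q) (hg : 1 ≤ g)
    (ht : 1 ≤ t) (hn : (Fintype.card ι : ℝ) < Real.exp (t / g)) (hJ : Fintype.card ι ≤ g ^ J)
    (htQ : (t : ℝ) ≤ Real.exp (Q / 4)) (hh : 1 ≤ h) (hl : 1 ≤ lam) (hμ : μ = 2 * 4 ^ (c + 1))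
    (hlam : Fintype.card ι * ((J + 2) * (2 * μ * Q)) ≤ lam ^ c)
    (hΦ : 2 * (((J : ℝ) + 2) ^ (1 / p) * (2 * μ * Q)) + 1 ≤ Φ)
    (hθ : 12 / ((2 * h : ℕ) : ℝ) * (1 + 1200000 * μ * (Φ + 2)) ≤ θ) (hθ0 : 0 < θ)
    (hθ1 : 2 * θ ≤ 1) (hD0 : 0 ≤ D) (hlow : 0 < (1 - θ) ^ p * (1 - 2 * θ) - θ)
    (hD : (1 + θ) ^ p * (1 + 2 ^ p * (2 * θ)) + θ ≤ D ^ p * ((1 - θ) ^ p * (1 - 2 * θ) - θ))
    (hS : S = 2 * (2 + 20 * 32 ^ (J + 1) * Φ) ^ p)
    (hΛ : Λ = 200000 * μ * lam * Real.exp (2 * ((2 * h : ℕ) : ℝ))) (hd1 : 1 ≤ d)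
    (hd : 2 * (Fintype.card ι : ℝ) ^ 2 ≤
      Real.exp (d * (θ ^ 2 / (2 ^ p * S)) ^ 2 / (4 * ((2 * Λ) ^ p) ^ 2))) :
    ∃ (f : ι → Fin d → ℝ) (σ : ℝ), 0 < σ ∧ ∀ x y,
      σ * lp p (fun ω => φ x ω - φ y ω) ≤ lp p (fun i => f x i - f y i) ∧
      lp p (fun i => f x i - f y i) ≤ D * σ * lp p (fun ω => φ x ω - φ y ω) := by
  classical
  obtain ⟨s, hφ, e1, e2, e3, I, y0, h0, hI⟩ := exists_su hp φ hc hQ hg ht hn hJ htQ
  have e4 : s.μ = μ := by rw [hμ, ← e2]; rfl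
  have e5 : (s.J : ℝ) + 1 = J + 2 := by rw [e1]; push_cast; ring
  have hμ1 : 1 ≤ μ := e4 ▸ s.μ_ge
  have hQ0 : 0 < Q := e3 ▸ s.Q_pos
  obtain ⟨T, ν, ψ, a1, a2, a3, a4⟩ := s.atoms hp φ hφ h0 hI hh (θ := θ) (Φ := Φ) hl
    (by rw [e5, e4, e3, e2]; exact hlam) (by rw [e5, e4, e3]; exact hΦ) (by rw [e4]; exact hθ)
    (by linarith)
  rw [e1, ← hS] at a2
  rw [e4, ← hΛ] at a3
  have hΦ0 : 0 ≤ Φ := le_trans (by positivity) hΦ
  have hS1 : 1 ≤ S := by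
    have : (1 : ℝ) ≤ (2 + 20 * 32 ^ (J + 1) * Φ) ^ p :=
      Real.one_le_rpow (by
        have : (0 : ℝ) ≤ 20 * 32 ^ (J + 1) * Φ := by positivity
        linarith) (by linarith)
    rw [hS]; linarith
  have hΛ1 : 1 ≤ Λ := by
    have a : (1 : ℝ) ≤ Real.exp (2 * ((2 * h : ℕ) : ℝ)) := Real.one_le_exp (by positivity)
    have b := one_le_mul_of_one_le_of_one_le (one_le_mul_of_one_le_of_one_le hμ1 hl) a
    rw [hΛ]; linarith
  have h2p : (1 : ℝ) ≤ 2 ^ p := Real.one_le_rpow (by norm_num) (by linarith)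
  obtain ⟨f, hf⟩ := hash_sample (θ := θ) (ε := θ ^ 2 / (2 ^ p * S)) hp ν a1 ψ s.ρ s.ρ0
    (by linarith) (by linarith) hθ0 hθ1 (by positivity) (by
      have a : (1 : ℝ) ≤ (2 * Λ) ^ p := Real.one_le_rpow (by linarith) (by linarith)
      have b : θ ^ 2 / (2 ^ p * S) ≤ 1 := by
        rw [div_le_one (by positivity)]
        have := one_le_mul_of_one_le_of_one_le h2p hS1
        nlinarith
      linarith) a2 a3 a4 d (by rw [Fintype.card_prod]; push_cast; rw [← sq]; exact hd)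
  obtain ⟨κ, hκ⟩ : ∃ κ, κ = κ0 p (2 * h) := ⟨_, rfl⟩
  have hκ1 : 1 / 2 ≤ κ := by
    have a := κ0_ge hp hh
    have b : (1 : ℝ) ≤ ((2 * h : ℕ) : ℝ) ^ (1 / p) :=
      Real.one_le_rpow (by exact_mod_cast (by omega : 1 ≤ 2 * h)) (by positivity)
    rw [hκ]; linarith
  rw [← hκ, Real.mul_rpow (by linarith) (by linarith), Real.mul_rpow (by linarith) (by linarith)]
    at hf
  obtain ⟨a, ha⟩ : ∃ a, a = θ / S * κ ^ p := ⟨_, rfl⟩
  have ha0 : 0 < a := by rw [ha]; positivity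
  have hε : θ ^ 2 / (2 ^ p * S) ≤ a * θ := by
    have b := Real.rpow_le_rpow (by norm_num) hκ1 (by linarith : 0 ≤ p)
    rw [Real.div_rpow (by norm_num) (by norm_num), Real.one_rpow] at b
    have c := mul_le_mul_of_nonneg_left b (by positivity : 0 ≤ θ / S * θ)
    calc _ = θ / S * θ * (1 / 2 ^ p) := by field_simp
      _ ≤ _ := c
      _ = _ := by rw [ha]; ring
  obtain ⟨lo, hlo⟩ : ∃ lo, lo = (1 - θ) ^ p * (1 - 2 * θ) - θ := ⟨_, rfl⟩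
  have hd0 : (0 : ℝ) < d := by exact_mod_cast hd1
  have hlo0 : 0 < d * a * lo := by rw [hlo]; positivity
  have pw : ((d * a * lo) ^ (1 / p)) ^ p = d * a * lo := by
    rw [← Real.rpow_mul hlo0.le, one_div_mul_cancel (by linarith), Real.rpow_one]
  refine ⟨f, (d * a * lo) ^ (1 / p), by positivity, fun x y => ?_⟩
  rw [← hφ]
  have hρ := s.ρ0 x y
  have hρp : 0 ≤ d * s.ρ x y ^ p := by positivity
  obtain ⟨b1, b2⟩ := hf x y
  constructor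
  · refine le_lp_of_rpow hp (by positivity) (le_trans ?_ b1)
    rw [Real.mul_rpow (by positivity) hρ, pw]
    have := mul_le_mul_of_nonneg_left hε hρp
    rw [hlo, ha] at *
    linarith
  · refine lp_le_of_rpow hp (by positivity) (b2.trans ?_)
    rw [Real.mul_rpow (by positivity) hρ, Real.mul_rpow hD0 (by positivity), pw]
    have c1 := mul_le_mul_of_nonneg_left hε hρp
    have c2 := mul_le_mul_of_nonneg_left hD (mul_nonneg hρp ha0.le)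
    rw [hlo, ha] at *
    linarith

lemma ev_exp (A r : ℝ) {b : ℝ} (hb : 0 < b) :
    ∀ᶠ N : ℝ in atTop, A * N ^ r ≤ Real.exp (b * N) := by
  have h := (isLittleO_rpow_exp_pos_mul_atTop r hb).const_mul_left A
  filter_upwards [h.bound one_pos] with N hN
  rw [one_mul, Real.norm_eq_abs, Real.norm_eq_abs, abs_of_pos (Real.exp_pos _)] at hN
  exact (le_abs_self _).trans hN

lemma exists_θ {p D : ℝ} (hp : 1 < p) (hD : 1 < D) : ∃ θ : ℝ, 0 < θ ∧ 2 * θ ≤ 1 ∧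
    0 < (1 - θ) ^ p * (1 - 2 * θ) - θ ∧
    (1 + θ) ^ p * (1 + 2 ^ p * (2 * θ)) + θ ≤ D ^ p * ((1 - θ) ^ p * (1 - 2 * θ) - θ) := by
  have c1 : Continuous fun θ : ℝ => (1 - θ) ^ p :=
    (continuous_const.sub continuous_id).rpow_const fun _ => Or.inr (by linarith)
  have c2 : Continuous fun θ : ℝ => (1 + θ) ^ p :=
    (continuous_const.add continuous_id).rpow_const fun _ => Or.inr (by linarith)
  have c3 : Continuous fun θ : ℝ => (1 - θ) ^ p * (1 - 2 * θ) - θ := by fun_prop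
  have c4 : Continuous fun θ : ℝ => (1 + θ) ^ p * (1 + 2 ^ p * (2 * θ)) + θ := by fun_prop
  have e1 : ∀ᶠ θ in nhds (0 : ℝ), 0 < (1 - θ) ^ p * (1 - 2 * θ) - θ :=
    continuous_const.continuousAt.eventually_lt c3.continuousAt (by simp)
  have e2 : ∀ᶠ θ in nhds (0 : ℝ), (1 + θ) ^ p * (1 + 2 ^ p * (2 * θ)) + θ <
      D ^ p * ((1 - θ) ^ p * (1 - 2 * θ) - θ) :=
    c4.continuousAt.eventually_lt (continuous_const.mul c3).continuousAt
      (by simpa using Real.one_lt_rpow hD (by linarith))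
  have e3 : ∀ᶠ θ in nhds (0 : ℝ), θ < 1 / 2 := gt_mem_nhds (by norm_num)
  obtain ⟨θ, ⟨⟨a, b⟩, c⟩, d⟩ :=
    ((((e1.and e2).and e3).filter_mono nhdsWithin_le_nhds).and
      (self_mem_nhdsWithin (s := Set.Ioi (0 : ℝ)) (a := 0))).exists
  exact ⟨θ, d, by linarith, a, b.le⟩

lemma exists_J {p : ℝ} (hp : 1 < p) {δ : ℝ} (hδ : 0 < δ) :
    ∃ J : ℕ, 1 ≤ J ∧ ((J : ℝ) + 2) ^ (1 / p) / J ≤ δ := by
  have h0 : 0 < 1 - 1 / p := by rw [sub_pos, div_lt_one (by linarith)]; exact hp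
  have h := ((tendsto_rpow_neg_atTop h0).comp tendsto_natCast_atTop_atTop).eventually
    (gt_mem_nhds (by positivity : 0 < δ / 3))
  obtain ⟨J, h1, h2⟩ := (h.and (eventually_ge_atTop 1)).exists
  refine ⟨J, h2, ?_⟩
  have hJ : (1 : ℝ) ≤ J := by exact_mod_cast h2
  have a : ((J : ℝ) + 2) ^ (1 / p) ≤ (3 * J) ^ (1 / p) :=
    Real.rpow_le_rpow (by linarith) (by linarith) (by positivity)
  have b : (3 : ℝ) ^ (1 / p) ≤ 3 ^ (1 : ℝ) :=
    Real.rpow_le_rpow_of_exponent_le (by norm_num) (by linarith)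
  rw [Real.rpow_one] at b
  rw [Real.mul_rpow (by norm_num) (by linarith)] at a
  simp only [Function.comp, neg_sub] at h1
  rw [Real.rpow_sub (by linarith), Real.rpow_one, div_lt_iff₀ (by linarith)] at h1
  rw [div_le_iff₀ (by linarith)]
  have c := mul_le_mul_of_nonneg_right b (by positivity : 0 ≤ (J : ℝ) ^ (1 / p))
  linarith

lemma d_bound {p η θ μ Φ N C S Λ w : ℝ} (J : ℕ) (hp : 1 < p) (hη : 0 < η) (hθ : 0 < θ)
    (hμ : 1 ≤ μ) (hN : 1 ≤ N) (hΦ0 : 0 ≤ Φ) (hΦ : Φ ≤ C * N) (hw : w ≤ η / (8 * p) * N)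
    (hS : S = 2 * (2 + 20 * 32 ^ (J + 1) * Φ) ^ p)
    (hΛ : Λ = 200000 * μ * Real.exp (η / (8 * p) * N) * Real.exp (2 * w))
    (h : (3 * (4 * ((400000 * μ) ^ p) ^ 2) * (2 ^ p * (2 * (2 + 20 * 32 ^ (J + 1) * C) ^ p)) ^ 2 /
      θ ^ 4 + 1) * N ^ (2 * p + 1) ≤ Real.exp (η / 4 * N)) :
    3 * N * (4 * ((2 * Λ) ^ p) ^ 2) / (θ ^ 2 / (2 ^ p * S)) ^ 2 + 1 ≤ Real.exp (η * N) := by
  have hC : 0 ≤ C := by
    by_contra hc
    push Not at hc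
    nlinarith
  have h1 : (2 * Λ) ^ p ≤ (400000 * μ) ^ p * Real.exp (3 * η / 8 * N) := by
    have a : 2 * Λ ≤ 400000 * μ * Real.exp (3 * (η / (8 * p) * N)) := by
      rw [hΛ, mul_assoc (200000 * μ), ← Real.exp_add]
      have := Real.exp_le_exp.2 (by linarith : η / (8 * p) * N + 2 * w ≤ 3 * (η / (8 * p) * N))
      have := mul_le_mul_of_nonneg_left this (by positivity : 0 ≤ 400000 * μ)
      linarith
    refine (Real.rpow_le_rpow (by rw [hΛ]; positivity) a (by linarith)).trans (le_of_eq ?_)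
    rw [Real.mul_rpow (by positivity) (Real.exp_pos _).le, ← Real.exp_mul]
    congr 2; field_simp
  have h2 : S ≤ 2 * (2 + 20 * 32 ^ (J + 1) * C) ^ p * N ^ p := by
    rw [hS, mul_assoc 2, ← Real.mul_rpow (by positivity) (by positivity)]
    refine mul_le_mul_of_nonneg_left (Real.rpow_le_rpow (by positivity) ?_ (by linarith))
      (by norm_num)
    have := mul_le_mul_of_nonneg_left hΦ (by positivity : (0 : ℝ) ≤ 20 * 32 ^ (J + 1))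
    linarith
  have hS0 : 0 < S := by rw [hS]; positivity
  have hΛ0 : 0 ≤ (2 * Λ) ^ p := by rw [hΛ]; positivity
  have e1 : N ^ (2 * p + 1) = N * (N ^ p) ^ 2 := by
    rw [Real.rpow_add (by linarith), Real.rpow_one, mul_comm 2 p, Real.rpow_mul (by linarith),
      Real.rpow_two, mul_comm]
  have e2 : Real.exp (η * N) = Real.exp (η / 4 * N) * Real.exp (3 * η / 8 * N) ^ 2 := by
    rw [sq, ← Real.exp_add, ← Real.exp_add]; congr 1; ring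
  have hN1 : 1 ≤ N ^ (2 * p + 1) := Real.one_le_rpow hN (by linarith)
  have hE1 : 1 ≤ Real.exp (3 * η / 8 * N) ^ 2 :=
    one_le_pow₀ (Real.one_le_exp (by positivity))
  have h3 : 3 * N * (4 * ((2 * Λ) ^ p) ^ 2) / (θ ^ 2 / (2 ^ p * S)) ^ 2 ≤
      (3 * (4 * ((400000 * μ) ^ p) ^ 2) * (2 ^ p * (2 * (2 + 20 * 32 ^ (J + 1) * C) ^ p)) ^ 2 /
      θ ^ 4) * N ^ (2 * p + 1) * Real.exp (3 * η / 8 * N) ^ 2 := by
    calc _ = 3 * N * (4 * ((2 * Λ) ^ p) ^ 2) * (2 ^ p * S) ^ 2 / θ ^ 4 := by field_simp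
      _ ≤ 3 * N * (4 * ((400000 * μ) ^ p * Real.exp (3 * η / 8 * N)) ^ 2) *
          (2 ^ p * (2 * (2 + 20 * 32 ^ (J + 1) * C) ^ p * N ^ p)) ^ 2 / θ ^ 4 := by gcongr
      _ = _ := by rw [e1]; ring
  have h4 := mul_le_mul_of_nonneg_right h (by positivity : 0 ≤ Real.exp (3 * η / 8 * N) ^ 2)
  have h5 := one_le_mul_of_one_le_of_one_le hN1 hE1
  rw [e2]; linarith

theorem dim_red {p D η : ℝ} (hp : 1 < p) (hD : 1 < D) (hη : 0 < η) :
    ∀ᶠ n : ℕ in atTop, ∀ (ι Ω : Type) [Fintype ι] [Fintype Ω] (φ : ι → Ω → ℝ),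
      Fintype.card ι = n → ∃ d : ℕ, (d : ℝ) ≤ (n : ℝ) ^ η ∧
        ∃ (f : ι → Fin d → ℝ) (σ : ℝ), 0 < σ ∧ ∀ x y,
          σ * lp p (fun ω => φ x ω - φ y ω) ≤ lp p (fun i => f x i - f y i) ∧
          lp p (fun i => f x i - f y i) ≤ D * σ * lp p (fun ω => φ x ω - φ y ω) := by
  obtain ⟨θ, hθ0, hθ1, hlow, hDθ⟩ := exists_θ hp hD
  obtain ⟨η', hη'⟩ : ∃ η', η' = η / (8 * p) := ⟨_, rfl⟩
  have hη'0 : 0 < η' := by rw [hη']; positivity
  obtain ⟨c, hc⟩ : ∃ c : ℕ, c = ⌈2 / η'⌉₊ := ⟨_, rfl⟩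
  have hc1 : 1 ≤ c := by rw [hc]; exact Nat.ceil_pos.2 (by positivity)
  have hc2 : 2 ≤ c * η' := by
    have := Nat.le_ceil (2 / η')
    rwa [← hc, div_le_iff₀ hη'0] at this
  obtain ⟨μ, hμ⟩ : ∃ μ : ℝ, μ = 2 * 4 ^ (c + 1) := ⟨_, rfl⟩
  have hμ1 : 1 ≤ μ := by
    have : (1 : ℝ) ≤ 4 ^ (c + 1) := one_le_pow₀ (by norm_num)
    rw [hμ]; linarith
  obtain ⟨J, hJ1, hJ2⟩ := exists_J hp
    (by positivity : 0 < θ / 2 * η' / (24 * 1200000 * 32 * μ ^ 2))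
  have hJ : (1 : ℝ) ≤ J := by exact_mod_cast hJ1
  obtain ⟨C, hC⟩ : ∃ C, C = 32 * μ * (((J : ℝ) + 2) ^ (1 / p) / J) := ⟨_, rfl⟩
  have hC0 : 0 ≤ C := by rw [hC]; positivity
  have ev := ((((((eventually_ge_atTop (1 : ℝ)).and (eventually_ge_atTop (4 / η'))).and
    (eventually_ge_atTop
      (16 * (((J + 1 : ℕ) : ℝ) + 2) ^ 2 * ((c : ℝ) + 1) * 32 ^ (J + 1) * J / 8))).and
    (eventually_ge_atTop (24 * (1 + 3600000 * μ) / (η' * (θ / 2))))).and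
    (ev_exp 6 1 (by positivity : (0 : ℝ) < 1 / J))).and
    (ev_exp ((J + 2) * (16 * μ / J)) 1 one_pos)).and
    (ev_exp (3 * (4 * ((400000 * μ) ^ p) ^ 2) *
      (2 ^ p * (2 * (2 + 20 * 32 ^ (J + 1) * (C + 1)) ^ p)) ^ 2 / θ ^ 4 + 1) (2 * p + 1)
      (by positivity : 0 < η / 4))
  filter_upwards [(Real.tendsto_log_atTop.comp tendsto_natCast_atTop_atTop).eventually ev,
    eventually_ge_atTop 1] with n hev hn ι Ω _ _ φ hι
  obtain ⟨N, hN⟩ : ∃ N, N = Real.log n := ⟨_, rfl⟩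
  simp only [Function.comp, ← hN, Real.rpow_one] at hev
  obtain ⟨⟨⟨⟨⟨⟨n1, n2⟩, n3⟩, n4⟩, n5⟩, n6⟩, n7⟩ := hev
  have hn0 : (0 : ℝ) < n := by exact_mod_cast hn
  have hnN : (n : ℝ) = Real.exp N := by rw [hN, Real.exp_log hn0]
  have : Nonempty ι := Fintype.card_pos_iff.1 (by omega)
  obtain ⟨g, hg⟩ : ∃ g : ℕ, g = ⌈Real.exp (N / J)⌉₊ := ⟨_, rfl⟩
  have hg1 : 1 ≤ g := by rw [hg]; exact Nat.ceil_pos.2 (Real.exp_pos _)
  have hg2 : Real.exp (N / J) ≤ g := hg ▸ Nat.le_ceil _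
  have hg3 : (g : ℝ) ≤ 2 * Real.exp (N / J) := by
    have a := Nat.ceil_lt_add_one (Real.exp_pos (N / J)).le
    have b : 1 ≤ Real.exp (N / J) := Real.one_le_exp (by positivity)
    rw [hg]; linarith
  obtain ⟨h, hh⟩ : ∃ h : ℕ, h = ⌊η' * N / 2⌋₊ := ⟨_, rfl⟩
  rw [div_le_iff₀ hη'0] at n2
  have hh1 : (h : ℝ) ≤ η' * N / 2 := hh ▸ Nat.floor_le (by positivity)
  have hh2 : η' * N / 2 < h + 1 := hh ▸ Nat.lt_floor_add_one _
  have hh3 : 1 ≤ h := by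
    have : (1 : ℝ) < h := by linarith
    exact_mod_cast this.le
  obtain ⟨Φ, hΦ⟩ : ∃ Φ, Φ = C * N + 1 := ⟨_, rfl⟩
  obtain ⟨S, hS⟩ : ∃ S, S = 2 * (2 + 20 * 32 ^ (J + 1) * Φ) ^ p := ⟨_, rfl⟩
  obtain ⟨Λ, hΛ⟩ : ∃ Λ, Λ = 200000 * μ * Real.exp (η' * N) *
    Real.exp (2 * ((2 * h : ℕ) : ℝ)) := ⟨_, rfl⟩
  have hΦ0 : 0 ≤ Φ := by rw [hΦ]; positivity
  have hS0 : 0 < S := by rw [hS]; positivity
  have hΛ0 : 0 < Λ := by rw [hΛ]; positivity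
  obtain ⟨X, hX⟩ : ∃ X, X = 3 * N * (4 * ((2 * Λ) ^ p) ^ 2) / (θ ^ 2 / (2 ^ p * S)) ^ 2 :=
    ⟨_, rfl⟩
  have hX0 : 0 < X := by rw [hX]; positivity
  have db := d_bound (C := C + 1) (w := ((2 * h : ℕ) : ℝ)) (Λ := Λ) J hp hη hθ0 hμ1 n1 hΦ0
    (by rw [hΦ]; linarith) (by rw [← hη']; push_cast; linarith) hS (by rw [← hη']; exact hΛ) n7
  refine ⟨⌈X⌉₊, ?_, core (J := J) (c := c) (g := g) (t := g * (⌈N⌉₊ + 1)) (h := h)
    (Q := 8 * N / J) (lam := Real.exp (η' * N)) (θ := θ) (Φ := Φ) hp.le φ hc1 ?_ hg1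
    (Nat.mul_pos hg1 (Nat.succ_pos _)) ?_ ?_ ?_ hh3 (Real.one_le_exp (by positivity)) hμ ?_ ?_ ?_
    hθ0 hθ1 (by linarith) hlow hDθ hS hΛ (Nat.ceil_pos.2 hX0) ?_⟩
  · rw [Real.rpow_def_of_pos hn0, ← hN, mul_comm]
    exact (Nat.ceil_lt_add_one hX0.le).le.trans (hX ▸ db)
  · rw [le_div_iff₀ (by linarith)]; linarith
  · have g0 : (0 : ℝ) < g := by exact_mod_cast hg1
    rw [hι, hnN]
    push_cast
    rw [mul_div_cancel_left₀ _ g0.ne']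
    exact Real.exp_lt_exp.2 (by linarith [Nat.le_ceil N])
  · have a := pow_le_pow_left₀ (Real.exp_pos _).le hg2 J
    rw [← Real.exp_nat_mul, mul_div_cancel₀ _ (by linarith), ← hnN] at a
    rw [hι]; exact_mod_cast a
  · push_cast
    have a := Nat.ceil_lt_add_one (by linarith : 0 ≤ N)
    rw [show 8 * N / J / 4 = N / J + 1 / J * N by ring, Real.exp_add]
    calc (g : ℝ) * (⌈N⌉₊ + 1) ≤ 2 * Real.exp (N / J) * (3 * N) :=
          mul_le_mul hg3 (by linarith) (by positivity) (by positivity)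
      _ = Real.exp (N / J) * (6 * N) := by ring
      _ ≤ _ := mul_le_mul_of_nonneg_left n5 (Real.exp_pos _).le
  · rw [hι, hnN, ← Real.exp_nat_mul]
    calc _ = Real.exp N * ((J + 2) * (16 * μ / J) * N) := by ring
      _ ≤ Real.exp N * Real.exp (1 * N) := mul_le_mul_of_nonneg_left n6 (Real.exp_pos _).le
      _ ≤ _ := by
        rw [← Real.exp_add]
        have := mul_le_mul_of_nonneg_right hc2 (by linarith : 0 ≤ N)
        exact Real.exp_le_exp.2 (by linarith)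
  · rw [hΦ, hC]; exact le_of_eq (by ring)
  · have a : 12 / ((2 * h : ℕ) : ℝ) ≤ 24 / (η' * N) := by
      push_cast
      rw [div_le_div_iff₀ (by linarith) (by positivity)]; linarith
    refine (mul_le_mul_of_nonneg_right a (by positivity)).trans ?_
    rw [div_le_iff₀ (by positivity)] at n4
    rw [le_div_iff₀ (by positivity)] at hJ2
    rw [div_mul_eq_mul_div, div_le_iff₀ (by positivity), hΦ, hC]
    have b := mul_le_mul_of_nonneg_right hJ2 (by linarith : 0 ≤ N)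
    linarith
  · have a : 3 * N ≤ ⌈X⌉₊ * (θ ^ 2 / (2 ^ p * S)) ^ 2 / (4 * ((2 * Λ) ^ p) ^ 2) := by
      have b := Nat.le_ceil X
      rw [le_div_iff₀ (by positivity), ← div_le_iff₀ (by positivity), ← hX]
      exact b
    refine le_trans ?_ (Real.exp_le_exp.2 a)
    rw [hι, hnN, show 3 * N = N + (N + N) by ring, Real.exp_add, Real.exp_add, sq]
    have := Real.add_one_le_exp N
    exact mul_le_mul_of_nonneg_right (by linarith) (by positivity)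

end Vale.Agent.P249
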