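import Mathlib

namespace Vale.Agent.P249
open Finset

lemma log_ratio_aux {a b : ℝ} (ha : 0 < a) (h : a ≤ b) :
    Real.log b - Real.log a ≤ (b - a) / (√a * √b) := by
  have hb : 0 < b := ha.trans_le h
  have sa := Real.sqrt_pos.2 ha
  have sb := Real.sqrt_pos.2 hb
  have hz : 1 ≤ √b / √a := by rw [le_div_iff₀ sa, one_mul]; exact Real.sqrt_le_sqrt h
  have h1 := Real.self_le_sinh_iff.2 (Real.log_nonneg hz)
  rw [Real.sinh_log (by positivity), Real.log_div sb.ne' sa.ne', Real.log_sqrt hb.le,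
    Real.log_sqrt ha.le] at h1
  have e : (b - a) / (√a * √b) = √b / √a - (√b / √a)⁻¹ := by
    have ea := Real.mul_self_sqrt ha.le
    have eb := Real.mul_self_sqrt hb.le
    field_simp
    nlinarith
  rw [e]; linarith

lemma log_ratio {a b : ℝ} (ha : 0 < a) (hb : 0 < b) :
    |Real.log a - Real.log b| ≤ |a - b| / (√a * √b) := by
  rcases le_total a b with h | h
  · rw [abs_sub_comm, abs_sub_comm a, abs_of_nonneg (sub_nonneg.2 (Real.log_le_log ha h)),
      abs_of_nonneg (sub_nonneg.2 h)]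
    exact log_ratio_aux ha h
  · rw [abs_of_nonneg (sub_nonneg.2 (Real.log_le_log hb h)), abs_of_nonneg (sub_nonneg.2 h),
      mul_comm]
    exact log_ratio_aux hb h

lemma log_sqrt_tele {a b : ℝ} (ha : 0 < a) (h : a ≤ b) :
    |Real.log a - Real.log b| * √a ≤ 2 * (√b - √a) := by
  have hb : 0 < b := ha.trans_le h
  have sa := Real.sqrt_pos.2 ha
  have sb := Real.sqrt_pos.2 hb
  rw [abs_sub_comm, abs_of_nonneg (sub_nonneg.2 (Real.log_le_log ha h))]
  have h1 := Real.log_le_sub_one_of_pos (div_pos sb sa)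
  rw [Real.log_div sb.ne' sa.ne', Real.log_sqrt hb.le, Real.log_sqrt ha.le] at h1
  have h2 := mul_le_mul_of_nonneg_right h1 sa.le
  have e : (√b / √a - 1) * √a = √b - √a := by field_simp
  linarith

lemma Bterm {a0 a1 a b N σ A κ : ℝ} (h0 : 0 < a0) (h01 : a0 ≤ a1) (h1 : a1 ≤ a) (hb : 0 < b)
    (hN : (a + b) / 2 ≤ N) (hκ : 0 ≤ κ) (hA : |A| ≤ σ * (a1 - a0))
    (hd : |a - b| * σ ≤ κ * √N) :
    |A| * |Real.log a - Real.log ((a + b) / 2)| ≤
      κ * ((√a1 - √a0) + (√N - √((a + b) / 2))) := by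
  have ha : 0 < a := by linarith
  obtain ⟨m, hm⟩ : ∃ m, m = (a + b) / 2 := ⟨_, rfl⟩
  rw [← hm] at hN ⊢
  have hm0 : 0 < m := by rw [hm]; positivity
  have h2 := log_ratio ha hm0
  have e1 : |a - m| = |a - b| / 2 := by
    rw [show a - m = (a - b) / 2 by rw [hm]; ring, abs_div]; norm_num
  rw [e1] at h2
  have sa := Real.sqrt_pos.2 ha
  have sm := Real.sqrt_pos.2 hm0
  have s01 : √a0 ≤ √a1 := Real.sqrt_le_sqrt h01
  have s1 : √a1 ≤ √a := Real.sqrt_le_sqrt h1
  have sN : √m ≤ √N := Real.sqrt_le_sqrt hN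
  have ea := Real.mul_self_sqrt ha.le
  have e0 := Real.mul_self_sqrt h0.le
  have e1' := Real.mul_self_sqrt (h0.le.trans h01)
  have s0 := Real.sqrt_nonneg a0
  have sam : √a ≤ 2 * √m := by
    have : √a ≤ √(4 * m) := Real.sqrt_le_sqrt (by rw [hm]; linarith)
    rwa [Real.sqrt_mul (by norm_num), show (4 : ℝ) = 2 ^ 2 by norm_num,
      Real.sqrt_sq (by norm_num)] at this
  obtain ⟨q, hq⟩ : ∃ q, q = (a1 - a0) / √a := ⟨_, rfl⟩
  have q0 : 0 ≤ q := by rw [hq]; exact div_nonneg (by linarith) sa.le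
  have q1 : q ≤ 2 * (√a1 - √a0) := by
    rw [hq, div_le_iff₀ sa]; nlinarith
  have q2 : q ≤ 2 * √m := by
    refine le_trans ?_ sam
    rw [hq, div_le_iff₀ sa]; linarith
  have h3 : |A| * |Real.log a - Real.log m| ≤ σ * (a1 - a0) * (|a - b| / 2 / (√a * √m)) :=
    mul_le_mul hA h2 (abs_nonneg _) ((abs_nonneg _).trans hA)
  have e2 : σ * (a1 - a0) * (|a - b| / 2 / (√a * √m)) = (|a - b| * σ) * (q / (2 * √m)) := by
    rw [hq]; field_simp
  have h4 := mul_le_mul_of_nonneg_right hd (by positivity : 0 ≤ q / (2 * √m))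
  have h5 : √N * (q / (2 * √m)) ≤ (√a1 - √a0) + (√N - √m) := by
    have e3 : √N * (q / (2 * √m)) = q / 2 + (√N - √m) * (q / (2 * √m)) := by field_simp; ring
    have : q / (2 * √m) ≤ 1 := by rw [div_le_one (by positivity)]; exact q2
    have := mul_le_mul_of_nonneg_left this (sub_nonneg.2 sN)
    linarith
  have h6 := mul_le_mul_of_nonneg_left h5 hκ
  linarith

variable {V : Type*} [SeminormedAddCommGroup V] [NormedSpace ℝ V]

lemma tele (cx cy : ℕ → ℝ) (A B X : ℕ → V) (h0 : cx 0 = cy 0) (k : ℕ) :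
    ‖∑ i ∈ range k, ((cx (i + 1) - cx i) • A i - (cy (i + 1) - cy i) • B i) -
      (cx k - cy k) • X k‖ ≤
    ∑ i ∈ range k, (|cx (i + 1) - cx i| * ‖A i - X i‖ + |cy (i + 1) - cy i| * ‖B i - X i‖ +
      |cx (i + 1) - cy (i + 1)| * ‖X i - X (i + 1)‖) := by
  induction k with
  | zero => simp [h0]
  | succ k ih =>
    rw [sum_range_succ, sum_range_succ]
    have e : ∑ i ∈ range k, ((cx (i + 1) - cx i) • A i - (cy (i + 1) - cy i) • B i) +
        ((cx (k + 1) - cx k) • A k - (cy (k + 1) - cy k) • B k) -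
        (cx (k + 1) - cy (k + 1)) • X (k + 1) =
        (∑ i ∈ range k, ((cx (i + 1) - cx i) • A i - (cy (i + 1) - cy i) • B i) -
          (cx k - cy k) • X k) + ((cx (k + 1) - cx k) • (A k - X k) -
          (cy (k + 1) - cy k) • (B k - X k) + (cx (k + 1) - cy (k + 1)) • (X k - X (k + 1))) := by
      module
    rw [e]
    refine (norm_add_le _ _).trans (add_le_add ih ((norm_add_le _ _).trans
      (add_le_add ((norm_sub_le _ _).trans ?_) ?_)))
    · simp only [norm_smul, Real.norm_eq_abs, le_refl]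
    · simp only [norm_smul, Real.norm_eq_abs, le_refl]

lemma coarse (T : ℝ → V) {ϖ K Mi : ℝ} (hϖ : 0 ≤ ϖ) (hT : ∀ a b, ‖T a - T b‖ ≤ ϖ * |a - b|)
    (Sx Sy cx cy σ N : ℕ → ℝ) (k : ℕ) (px : ∀ l, 0 < Sx l) (py : ∀ l, 0 < Sy l)
    (mx : Monotone Sx) (my : Monotone Sy)
    (hax : ∀ i, |cx (i + 1) - cx i| ≤ σ (i + 1) * (Sx (i + 1) - Sx i))
    (hay : ∀ i, |cy (i + 1) - cy i| ≤ σ (i + 1) * (Sy (i + 1) - Sy i))
    (h0 : cx 0 = cy 0) (hMi : 0 < Mi) (hK : 0 ≤ K)
    (hM : ∀ i < k, (Sx (i + 4) + Sy (i + 4)) / 2 ≤ Mi)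
    (h1 : ∀ i < k, |cx (i + 1) - cy (i + 1)| ≤ K / √Mi * √((Sx (i + 4) + Sy (i + 4)) / 2))
    (h2 : ∀ i < k, |Sx (i + 4) - Sy (i + 4)| * σ (i + 1) ≤ K / √Mi * √(N i))
    (hN : ∀ i < k, (Sx (i + 4) + Sy (i + 4)) / 2 ≤ N i)
    (hN' : ∑ i ∈ range k, (√(N i) - √((Sx (i + 4) + Sy (i + 4)) / 2)) ≤ 3 * √Mi) :
    ‖∑ i ∈ range k, ((cx (i + 1) - cx i) • T (Real.log (Sx (i + 4))) -
      (cy (i + 1) - cy i) • T (Real.log (Sy (i + 4)))) - (cx k - cy k) • T (Real.log Mi)‖ ≤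
      12 * ϖ * K := by
  obtain ⟨n, hn⟩ : ∃ n : ℕ → ℝ, n = fun i => if i < k then (Sx (i + 4) + Sy (i + 4)) / 2 else Mi :=
    ⟨_, rfl⟩
  have nk : n k = Mi := by rw [hn]; simp
  have ni : ∀ i < k, n i = (Sx (i + 4) + Sy (i + 4)) / 2 := fun i hi => by rw [hn]; simp [hi]
  have sM := Real.sqrt_pos.2 hMi
  obtain ⟨κ, hκ⟩ : ∃ κ, κ = K / √Mi := ⟨_, rfl⟩
  have hκ0 : 0 ≤ κ := by rw [hκ]; positivity
  rw [← hκ] at h1 h2
  have t := tele cx cy (fun i => T (Real.log (Sx (i + 4)))) (fun i => T (Real.log (Sy (i + 4))))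
    (fun i => T (Real.log (n i))) h0 k
  simp only [nk] at t
  refine t.trans ?_
  have key : ∀ i ∈ range k,
      |cx (i + 1) - cx i| * ‖T (Real.log (Sx (i + 4))) - T (Real.log (n i))‖ +
      |cy (i + 1) - cy i| * ‖T (Real.log (Sy (i + 4))) - T (Real.log (n i))‖ +
      |cx (i + 1) - cy (i + 1)| * ‖T (Real.log (n i)) - T (Real.log (n (i + 1)))‖ ≤
      ϖ * κ * ((√(Sx (i + 1)) - √(Sx i)) + (√(Sy (i + 1)) - √(Sy i)) +
        2 * (√(N i) - √((Sx (i + 4) + Sy (i + 4)) / 2)) + 2 * (√(n (i + 1)) - √(n i))) := by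
    intro i hi
    have hi' := mem_range.1 hi
    have b1 := Bterm (px i) (mx (Nat.le_succ i)) (mx (by omega : i + 1 ≤ i + 4)) (py (i + 4))
      (hN i hi') hκ0 (hax i) (h2 i hi')
    have b2 := Bterm (N := N i) (py i) (my (Nat.le_succ i)) (my (by omega : i + 1 ≤ i + 4))
      (px (i + 4)) (by rw [add_comm]; exact hN i hi') hκ0 (hay i)
      (by rw [abs_sub_comm]; exact h2 i hi')
    rw [add_comm (Sy (i + 4))] at b2
    have np : 0 < n i := by rw [ni i hi']; have := px (i + 4); have := py (i + 4); positivity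
    have nm : n i ≤ n (i + 1) := by
      by_cases h : i + 1 < k
      · rw [ni i hi', ni _ h]
        have := mx (by omega : i + 4 ≤ i + 1 + 4)
        have := my (by omega : i + 4 ≤ i + 1 + 4)
        linarith
      · rw [show i + 1 = k by omega, nk, ni i hi']; exact hM i hi'
    have b3 := log_sqrt_tele np nm
    have b4 := h1 i hi'
    rw [← ni i hi'] at b1 b2 b4 ⊢
    have c1 := mul_le_mul_of_nonneg_left (hT (Real.log (Sx (i + 4))) (Real.log (n i)))
      (abs_nonneg (cx (i + 1) - cx i))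
    have c2 := mul_le_mul_of_nonneg_left (hT (Real.log (Sy (i + 4))) (Real.log (n i)))
      (abs_nonneg (cy (i + 1) - cy i))
    have c3 := mul_le_mul (b4) (hT (Real.log (n i)) (Real.log (n (i + 1)))) (norm_nonneg _)
      (by positivity)
    have d1 := mul_le_mul_of_nonneg_left b1 hϖ
    have d2 := mul_le_mul_of_nonneg_left b2 hϖ
    have d3 := mul_le_mul_of_nonneg_left b3 (by positivity : 0 ≤ ϖ * κ)
    simp only [Nat.succ_eq_add_one] at d1 d2
    linarith
  refine (sum_le_sum key).trans ?_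
  rw [← mul_sum, sum_add_distrib, sum_add_distrib, sum_add_distrib, ← mul_sum, ← mul_sum,
    sum_range_sub (fun i => √(Sx i)), sum_range_sub (fun i => √(Sy i)),
    sum_range_sub (fun i => √(n i)), nk]
  have two : ∀ u, u ≤ 2 * Mi → √u ≤ 2 * √Mi := by
    intro u hu
    have : √u ≤ √(4 * Mi) := Real.sqrt_le_sqrt (by linarith)
    rwa [Real.sqrt_mul (by norm_num), show (4 : ℝ) = 2 ^ 2 by norm_num,
      Real.sqrt_sq (by norm_num)] at this
  have f1 : √(Sx k) - √(Sx 0) ≤ 2 * √Mi ∧ √(Sy k) - √(Sy 0) ≤ 2 * √Mi := by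
    rcases k with _ | k
    · constructor <;> simp
    · have a := hM k (Nat.lt_succ_self k)
      have b := mx (by omega : k + 1 ≤ k + 4)
      have c := my (by omega : k + 1 ≤ k + 4)
      have := px (k + 4)
      have := py (k + 4)
      have d := two (Sx (k + 1)) (by linarith)
      have e := two (Sy (k + 1)) (by linarith)
      have := Real.sqrt_nonneg (Sx 0)
      have := Real.sqrt_nonneg (Sy 0)
      constructor <;> linarith
  have f2 := Real.sqrt_nonneg (n 0)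
  have f3 : √(Sx k) - √(Sx 0) + (√(Sy k) - √(Sy 0)) +
      2 * ∑ i ∈ range k, (√(N i) - √((Sx (i + 4) + Sy (i + 4)) / 2)) + 2 * (√Mi - √(n 0)) ≤
      12 * √Mi := by linarith [f1.1, f1.2]
  refine (mul_le_mul_of_nonneg_left f3 (by positivity)).trans (le_of_eq ?_)
  rw [hκ]; field_simp

lemma geo_tail (σ : ℕ → ℝ) (h : ∀ l, σ l = 2 * σ (l + 1)) (h0 : ∀ l, 0 ≤ σ l) (k : ℕ) :
    ∀ I, k ≤ I → ∑ i ∈ Ico k I, σ (i + 1) ≤ σ k - σ I := by
  intro I hI
  induction I, hI using Nat.le_induction with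
  | base => simp
  | succ I hI ih =>
    rw [sum_Ico_succ_top hI]
    have := h I
    linarith

lemma ulog {u M : ℝ} (hu : 0 < u) (hM : 0 < M) (h : u ≤ 2 * M) :
    u * |Real.log u - Real.log M| ≤ 2 * M := by
  rcases le_total u M with a | a
  · rw [abs_sub_comm, abs_of_nonneg (sub_nonneg.2 (Real.log_le_log hu a)),
      ← Real.log_div hM.ne' hu.ne']
    have := mul_le_mul_of_nonneg_left (Real.log_le_sub_one_of_pos (div_pos hM hu)) hu.le
    have e : u * (M / u - 1) = M - u := by field_simp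
    linarith
  · rw [abs_of_nonneg (sub_nonneg.2 (Real.log_le_log hM a)), ← Real.log_div hu.ne' hM.ne']
    have h1 := Real.log_le_sub_one_of_pos (div_pos hu hM)
    have h2 : u / M ≤ 2 := by rw [div_le_iff₀ hM]; exact h
    have := mul_le_mul_of_nonneg_left (by linarith : Real.log (u / M) ≤ 1) hu.le
    linarith

end Vale.Agent.P249
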