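import Vale.Agent.P249.Level4
import Vale.Agent.P249.Seq

namespace Vale.Agent.P249
open Finset

lemma tele3 (a : ℕ → ℝ) (k : ℕ) :
    ∑ i ∈ range k, (a (i + 3) - a i) = a (k + 2) + a (k + 1) + a k - (a 2 + a 1 + a 0) := by
  induction k with
  | zero => simp
  | succ k ih => rw [sum_range_succ, ih]; ring

lemma D1aux {m Mi τ F t : ℝ} {c : ℕ} (hc : 1 ≤ c) (hm : 0 < m) (hτ : 0 < τ) (hF : 0 ≤ F)
    (h1 : 2 * m < Mi) (h2 : Mi ≤ m + 10 * τ * F) (ht : t ≤ 2 * m) :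
    1 ≤ √Mi / √m ∧ √Mi / √m * t / τ + ((√Mi / √m) ^ c)⁻¹ * F ≤ 41 * F / √Mi * √m := by
  have hM : 0 < Mi := by linarith
  have sm := Real.sqrt_pos.2 hm
  have sM := Real.sqrt_pos.2 hM
  have hl : 1 ≤ √Mi / √m := by
    rw [le_div_iff₀ sm, one_mul]; exact Real.sqrt_le_sqrt (by linarith)
  refine ⟨hl, ?_⟩
  have a : ((√Mi / √m) ^ c)⁻¹ ≤ (√Mi / √m)⁻¹ :=
    inv_anti₀ (by positivity) (le_self_pow₀ hl (by omega))
  have b : t / τ ≤ 40 * F * m / Mi := by
    rw [div_le_div_iff₀ hτ hM]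
    have : Mi ≤ 20 * τ * F := by linarith
    have := mul_le_mul ht this hM.le (by positivity)
    linarith
  have c1 := mul_le_mul_of_nonneg_left b (by positivity : 0 ≤ √Mi / √m)
  have c2 := mul_le_mul_of_nonneg_right a hF
  have em := Real.mul_self_sqrt hm.le
  have eM := Real.mul_self_sqrt hM.le
  have e1 : √Mi / √m * (40 * F * m / Mi) = 40 * F / √Mi * √m := by
    generalize √m = u at *
    generalize √Mi = v at *
    rw [← em, ← eM]; field_simp
  have e2 : (√Mi / √m)⁻¹ * F = F / √Mi * √m := by field_simp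
  have e3 : √Mi / √m * t / τ = √Mi / √m * (t / τ) := by ring
  have e4 : 41 * F / √Mi * √m = 40 * F / √Mi * √m + F / √Mi * √m := by ring
  linarith

namespace Su
variable {ι : Type*} (s : Su ι)

lemma hax (δ : ℝ) (x : ι) (f : ι → ℝ) (i : ℕ) : |s.mix (i + 1) x f - s.mix i x f| ≤
    s.σ (i + 1) * (s.Sg δ x f (i + 1) - s.Sg δ x f i) := by
  rw [Sg_succ, add_sub_cancel_left]; exact s.a_le i x f

lemma hax' {δ : ℝ} (hδ : 0 ≤ δ) (x : ι) (f : ι → ℝ) (i : ℕ) :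
    |s.mix (i + 1) x f - s.mix i x f| ≤ s.σ (i + 1) * s.Sg δ x f (i + 4) :=
  (s.a_le i x f).trans (mul_le_mul_of_nonneg_left ((s.e_le_Sg hδ x f _).trans
    (s.Sg_mono δ x f (by omega))) (s.σ_pos _).le)

lemma σ8 (i : ℕ) : s.σ (i + 1) = 8 * s.σ (i + 4) := by
  rw [s.σ_succ (i + 1), s.σ_succ (i + 1 + 1), s.σ_succ (i + 1 + 1 + 1)]; ring

lemma D1 (x y : ι) (f : ι → ℝ) {i L : ℕ} {F δ : ℝ} (hδ : 0 < δ) (hxx : s.ρ x x = 0)
    (hyy : s.ρ y y = 0) (hρ : s.ρ x y ≤ s.E i) (hL : i + 3 ≤ L)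
    (hFx : ∀ j ≤ s.J, ∑ l ∈ range (L + 1), s.PP l j x f ≤ F)
    (hFy : ∀ j ≤ s.J, ∑ l ∈ range (L + 1), s.PP l j y f ≤ F)
    (hv : |f x - f y| ≤ s.ρ x y * F) (h0 : s.mix 0 x f = s.mix 0 y f) :
    ∃ Θ, |s.mix i x f - s.mix i y f| ≤ Θ ∧ |s.Sg δ x f i - s.Sg δ y f i| * s.σ i ≤ 8 * Θ ∧
      Θ ≤ 1476 * s.μ * s.ρ x y * F / √((s.Sg δ x f L + s.Sg δ y f L) / 2) *
        √((s.Sg δ x f (i + 3) + s.Sg δ y f (i + 3)) / 2) := by
  have hS : ∀ l ≤ i, ∀ j ≤ s.J, s.PP l j x f ≤ F ∧ s.PP l j y f ≤ F := fun l hl j hj =>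
    ⟨(single_le_sum (f := fun l => s.PP l j x f) (fun l _ => s.PP_nonneg l j x f)
      (mem_range.2 (by omega))).trans (hFx j hj),
    (single_le_sum (f := fun l => s.PP l j y f) (fun l _ => s.PP_nonneg l j y f)
      (mem_range.2 (by omega))).trans (hFy j hj)⟩
  have hF : 0 ≤ F := (s.PP_nonneg 0 0 x f).trans (hS 0 (Nat.zero_le _) 0 (Nat.zero_le _)).1
  have hρ0 := s.ρ0 x y
  have hμ := s.μ_ge
  obtain ⟨m, hm⟩ : ∃ m, m = (s.Sg δ x f (i + 3) + s.Sg δ y f (i + 3)) / 2 := ⟨_, rfl⟩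
  obtain ⟨Mi, hMi⟩ : ∃ m, m = (s.Sg δ x f L + s.Sg δ y f L) / 2 := ⟨_, rfl⟩
  rw [← hm, ← hMi]
  have hm0 : 0 < m := by
    have := s.Sg_ge δ x f (i + 3); have := s.Sg_ge δ y f (i + 3); rw [hm]; linarith
  have hM0 : 0 < Mi := by
    have := s.Sg_ge δ x f L; have := s.Sg_ge δ y f L; rw [hMi]; linarith
  have sm := Real.sqrt_pos.2 hm0
  have sM := Real.sqrt_pos.2 hM0
  by_cases hc : Mi ≤ 2 * m
  · obtain ⟨a, b⟩ := s.D0' x y f i δ hS hv i le_rfl
    refine ⟨_, a, b, ?_⟩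
    have c : √Mi ≤ 2 * √m := by
      have : √Mi ≤ √(4 * m) := Real.sqrt_le_sqrt (by linarith)
      rwa [Real.sqrt_mul (by norm_num), show (4 : ℝ) = 2 ^ 2 by norm_num,
        Real.sqrt_sq (by norm_num)] at this
    rw [div_mul_eq_mul_div, le_div_iff₀ sM]
    have d : 0 ≤ s.μ * s.ρ x y * F := by positivity
    have e := mul_le_mul_of_nonneg_left c d
    have g := mul_nonneg d sm.le
    linarith
  · push Not at hc
    obtain ⟨k, hk, h1, h2⟩ := s.exists_jstar (i := i) (hxx ▸ (s.E_pos i).le)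
      (hyy ▸ (s.E_pos i).le) hρ
    have g1 := s.Sg_tail δ x f (i + 3) L hL
    have g2 := s.Sg_tail δ y f (i + 3) L hL
    have g3 := s.W_sum x f hk hFx (fun l hl j hj h => h2 l hl j hj (Or.inl h))
    have g4 := s.W_sum y f hk hFy (fun l hl j hj h => h2 l hl j hj (Or.inr h))
    have g5 := s.W_nonneg L x f
    have g6 := s.W_nonneg L y f
    have g7 := s.Sg_mono δ x f (by omega : i ≤ i + 3)
    have g8 := s.Sg_mono δ y f (by omega : i ≤ i + 3)
    obtain ⟨a, b⟩ := D1aux (τ := 32 ^ k) (t := s.Sg δ x f i + s.Sg δ y f i) s.hc hm0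
      (by positivity) hF hc (by rw [hMi, hm]; linarith) (by rw [hm]; linarith)
    obtain ⟨c, d⟩ := s.D0 x y f i hδ.le hS (one_le_pow₀ (by norm_num) : (1 : ℝ) ≤ 32 ^ k)
      (fun l hl j hj h => pow_le_pow_right₀ (by norm_num) (h1 l hl j hj h)) a h0 i le_rfl
    refine ⟨_, c, d, (mul_le_mul_of_nonneg_left b (by positivity)).trans (le_of_eq ?_)⟩
    ring

variable {V : Type*} [SeminormedAddCommGroup V] [NormedSpace ℝ V]

noncomputable def emb (T : ℝ → V) (δ : ℝ) (I : ℕ) (f : ι → ℝ) (x : ι) : V :=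
  ∑ i ∈ range I, (s.mix (i + 1) x f - s.mix i x f) • T (Real.log (s.Sg δ x f (i + 4)))

lemma main_err (T : ℝ → V) {ϖ : ℝ} (hϖ : 0 ≤ ϖ) (hT : ∀ a b, ‖T a - T b‖ ≤ ϖ * |a - b|)
    (x y : ι) (f : ι → ℝ) {I : ℕ} {F δ : ℝ} (hδ : 0 < δ) (hxx : s.ρ x x = 0)
    (hyy : s.ρ y y = 0)
    (hFx : ∀ j ≤ s.J, ∑ l ∈ range (I + 7 + 1), s.PP l j x f ≤ F)
    (hFy : ∀ j ≤ s.J, ∑ l ∈ range (I + 7 + 1), s.PP l j y f ≤ F)
    (hv : |f x - f y| ≤ s.ρ x y * F) (h0 : s.mix 0 x f = s.mix 0 y f)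
    (hIx : s.mix I x f = f x) (hIy : s.mix I y f = f y) :
    ‖s.emb T δ I f x - s.emb T δ I f y -
      (f x - f y) • T (Real.log ((s.Sg δ x f (I + 7) + s.Sg δ y f (I + 7)) / 2))‖ ≤
      1200000 * s.μ * ϖ * s.ρ x y * (F + δ) := by
  classical
  have hF : 0 ≤ F := (sum_nonneg fun l _ => s.PP_nonneg l 0 x f).trans (hFx 0 (Nat.zero_le _))
  have hρ0 := s.ρ0 x y
  have hμ := s.μ_ge
  have hQ := s.Q_pos
  have ex : ∃ k, k = I ∨ s.E (k + 4) < s.ρ x y := ⟨I, Or.inl rfl⟩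
  obtain ⟨k, hk⟩ : ∃ k, k = Nat.find ex := ⟨_, rfl⟩
  have hkI : k ≤ I := hk ▸ Nat.find_min' ex (Or.inl rfl)
  have hk1 : k = I ∨ s.E (k + 4) < s.ρ x y := hk ▸ Nat.find_spec ex
  have hk2 : ∀ i < k, s.ρ x y ≤ s.E (i + 4) := fun i hi => by
    have := Nat.find_min ex (hk ▸ hi)
    push Not at this
    exact this.2
  obtain ⟨Mi, hMi⟩ : ∃ m, m = (s.Sg δ x f (I + 7) + s.Sg δ y f (I + 7)) / 2 := ⟨_, rfl⟩
  have px : ∀ l, 0 < s.Sg δ x f l := fun l => hδ.trans_le (s.Sg_ge δ x f l)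
  have py : ∀ l, 0 < s.Sg δ y f l := fun l => hδ.trans_le (s.Sg_ge δ y f l)
  have hM0 : 0 < Mi := by have := px (I + 7); have := py (I + 7); rw [hMi]; linarith
  have hle : ∀ l ≤ I + 7, (s.Sg δ x f l + s.Sg δ y f l) / 2 ≤ Mi := fun l hl => by
    have := s.Sg_mono δ x f hl; have := s.Sg_mono δ y f hl; rw [hMi]; linarith
  have c := coarse T (K := 64 * (1476 * s.μ * s.ρ x y * F)) hϖ hT (s.Sg δ x f) (s.Sg δ y f)
    (fun l => s.mix l x f) (fun l => s.mix l y f) s.σ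
    (fun i => (s.Sg δ x f (i + 7) + s.Sg δ y f (i + 7)) / 2) k px py (s.Sg_mono δ x f)
    (s.Sg_mono δ y f) (s.hax δ x f) (s.hax δ y f) h0 hM0 (by positivity)
    (fun i hi => hle _ (by omega)) (fun i hi => by
      obtain ⟨Θ, a, _, c⟩ := s.D1 x y f (i := i + 1) (L := I + 7) hδ hxx hyy
        ((hk2 i hi).trans (s.E_anti (by omega))) (by omega) hFx hFy hv h0
      rw [← hMi] at c
      refine a.trans (c.trans ?_)
      have : 0 ≤ 1476 * s.μ * s.ρ x y * F := by positivity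
      exact mul_le_mul_of_nonneg_right (div_le_div_of_nonneg_right (by linarith)
        (Real.sqrt_nonneg _)) (Real.sqrt_nonneg _)) (fun i hi => by
      obtain ⟨Θ, _, b, c⟩ := s.D1 x y f (i := i + 4) (L := I + 7) hδ hxx hyy
        (hk2 i hi) (by omega) hFx hFy hv h0
      rw [← hMi] at c
      rw [s.σ8, mul_div_assoc, mul_assoc 64]
      linarith) (fun i hi => by
      have := s.Sg_mono δ x f (by omega : i + 4 ≤ i + 7)
      have := s.Sg_mono δ y f (by omega : i + 4 ≤ i + 7)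
      linarith) (by
      have t := tele3 (fun i => √((s.Sg δ x f (i + 4) + s.Sg δ y f (i + 4)) / 2)) k
      have a := Real.sqrt_le_sqrt (hle (k + 2 + 4) (by omega))
      have b := Real.sqrt_le_sqrt (hle (k + 1 + 4) (by omega))
      have c := Real.sqrt_le_sqrt (hle (k + 4) (by omega))
      have d := Real.sqrt_nonneg ((s.Sg δ x f (2 + 4) + s.Sg δ y f (2 + 4)) / 2)
      have e := Real.sqrt_nonneg ((s.Sg δ x f (1 + 4) + s.Sg δ y f (1 + 4)) / 2)
      have g := Real.sqrt_nonneg ((s.Sg δ x f (0 + 4) + s.Sg δ y f (0 + 4)) / 2)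
      refine le_trans (le_of_eq t) ?_
      linarith)
  rw [← hMi]
  have e : s.emb T δ I f x - s.emb T δ I f y - (f x - f y) • T (Real.log Mi) =
      (∑ i ∈ range k, ((s.mix (i + 1) x f - s.mix i x f) • T (Real.log (s.Sg δ x f (i + 4))) -
        (s.mix (i + 1) y f - s.mix i y f) • T (Real.log (s.Sg δ y f (i + 4)))) -
        (s.mix k x f - s.mix k y f) • T (Real.log Mi)) +
      ∑ i ∈ Ico k I, ((s.mix (i + 1) x f - s.mix i x f) •
          (T (Real.log (s.Sg δ x f (i + 4))) - T (Real.log Mi)) -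
        (s.mix (i + 1) y f - s.mix i y f) •
          (T (Real.log (s.Sg δ y f (i + 4))) - T (Real.log Mi))) := by
    unfold emb
    rw [← sum_range_add_sum_Ico _ hkI, ← sum_range_add_sum_Ico (fun i =>
      (s.mix (i + 1) y f - s.mix i y f) • T (Real.log (s.Sg δ y f (i + 4)))) hkI]
    have t1 := sum_Ico_sub (fun i => s.mix i x f) hkI
    have t2 := sum_Ico_sub (fun i => s.mix i y f) hkI
    simp only [sum_sub_distrib] at t1 t2
    simp only [smul_sub, sum_sub_distrib, ← sum_smul]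
    rw [t1, t2, hIx, hIy]
    module
  rw [e]
  refine (norm_add_le _ _).trans ?_
  have one : ∀ z : ι, ∀ i, s.Sg δ z f (i + 4) ≤ 2 * Mi →
      ‖(s.mix (i + 1) z f - s.mix i z f) •
        (T (Real.log (s.Sg δ z f (i + 4))) - T (Real.log Mi))‖ ≤ ϖ * (2 * Mi) * s.σ (i + 1) := by
    intro z i hz
    rw [norm_smul, Real.norm_eq_abs]
    have a := mul_le_mul (s.hax' hδ.le z f i) (hT (Real.log (s.Sg δ z f (i + 4))) (Real.log Mi))
      (norm_nonneg _) ((abs_nonneg _).trans (s.hax' hδ.le z f i))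
    have b := mul_le_mul_of_nonneg_left (ulog (hδ.trans_le (s.Sg_ge δ z f (i + 4))) hM0 hz)
      (mul_nonneg hϖ (s.σ_pos (i + 1)).le)
    linarith
  have fine : ‖∑ i ∈ Ico k I, ((s.mix (i + 1) x f - s.mix i x f) •
          (T (Real.log (s.Sg δ x f (i + 4))) - T (Real.log Mi)) -
        (s.mix (i + 1) y f - s.mix i y f) •
          (T (Real.log (s.Sg δ y f (i + 4))) - T (Real.log Mi)))‖ ≤
      ∑ i ∈ Ico k I, 4 * ϖ * Mi * s.σ (i + 1) := by
    refine norm_sum_le_of_le _ fun i hi => (norm_sub_le _ _).trans ?_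
    have a := hle (i + 4) (by have := (mem_Ico.1 hi).2; omega)
    have := px (i + 4)
    have := py (i + 4)
    have b := one x i (by linarith)
    have c := one y i (by linarith)
    linarith
  rw [← mul_sum] at fine
  have g1 : ∑ i ∈ Ico k I, s.σ (i + 1) ≤ 16 * s.ρ x y / s.Q := by
    rcases hk1 with h | h
    · rw [h]; simp only [Ico_self, sum_empty]; positivity
    · have a := geo_tail s.σ s.σ_succ (fun l => (s.σ_pos l).le) k I hkI
      have b := s.σ_pos I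
      have c : s.σ (k + 4) ≤ s.ρ x y / s.Q := div_le_div_of_nonneg_right h.le hQ.le
      have d := s.σ_succ k
      have e := s.σ8 k
      rw [mul_div_assoc]; linarith
  have g2 : Mi ≤ s.Q * (F + δ) := by
    have a := s.Sg_total δ x f hFx
    have b := s.Sg_total δ y f hFy
    have c := mul_le_mul_of_nonneg_right s.Q_ge.2.1 hF
    have d := mul_le_mul_of_nonneg_right s.Q_ge.2.2 hδ.le
    rw [hMi]; linarith
  have g3 : 4 * ϖ * Mi * ∑ i ∈ Ico k I, s.σ (i + 1) ≤ 64 * ϖ * s.ρ x y * (F + δ) := by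
    calc _ ≤ 4 * ϖ * (s.Q * (F + δ)) * (16 * s.ρ x y / s.Q) := by
          gcongr
          exact sum_nonneg fun i _ => (s.σ_pos _).le
      _ = _ := by field_simp; ring
  have g4 := mul_le_mul_of_nonneg_right hμ (by positivity : 0 ≤ ϖ * s.ρ x y * (F + δ))
  have g5 : 0 ≤ s.μ * ϖ * s.ρ x y * δ := by positivity
  have g6 : 0 ≤ s.μ * ϖ * s.ρ x y * F := by positivity
  linarith

lemma lip_atom (T : ℝ → ℝ) (hT : ∀ a b, |T a - T b| ≤ |a - b|) (hT1 : ∀ a, |T a| ≤ 1)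
    {A : ℝ} (hA : 0 < A) (hTA : ∀ a, Real.log A ≤ a → T a = 0)
    (x y : ι) (f : ι → ℝ) {I : ℕ} {S δ lam : ℝ} (hδ : 0 < δ) (hl : 1 ≤ lam)
    (hS : ∀ l ≤ I + 4, ∀ j ≤ s.J, s.PP l j x f ≤ S ∧ s.PP l j y f ≤ S)
    (hSδ : (lam ^ s.c)⁻¹ * S ≤ δ) (h0 : s.mix 0 x f = s.mix 0 y f) :
    |s.emb T δ I f x - s.emb T δ I f y| ≤ 200000 * s.μ * lam * s.ρ x y * A := by
  classical
  have hρ0 := s.ρ0 x y
  have hμ := s.μ_ge
  have px : ∀ l, 0 < s.Sg δ x f l := fun l => hδ.trans_le (s.Sg_ge δ x f l)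
  have py : ∀ l, 0 < s.Sg δ y f l := fun l => hδ.trans_le (s.Sg_ge δ y f l)
  obtain ⟨Λ, hΛ⟩ : ∃ Λ, Λ = 6912 * s.μ * s.ρ x y * lam := ⟨_, rfl⟩
  have hΛ0 : 0 ≤ Λ := by rw [hΛ]; positivity
  have D := s.D0 x y f (I + 4) hδ.le hS le_rfl (fun _ _ _ _ _ => one_le_pow₀ (by norm_num)) hl h0
  have hΘ : ∀ l, 64 * (36 * s.μ * s.ρ x y *
      (lam * (s.Sg δ x f l + s.Sg δ y f l) / 1 + (lam ^ s.c)⁻¹ * S)) ≤
      Λ * ((s.Sg δ x f l + s.Sg δ y f l) / 2) := by
    intro l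
    have a := s.Sg_ge δ x f l
    have b := s.Sg_ge δ y f l
    have c := mul_le_mul_of_nonneg_right hl
      (by linarith : 0 ≤ (s.Sg δ x f l + s.Sg δ y f l) / 2)
    have d : lam * (s.Sg δ x f l + s.Sg δ y f l) / 1 + (lam ^ s.c)⁻¹ * S ≤
      3 * (lam * ((s.Sg δ x f l + s.Sg δ y f l) / 2)) := by linarith
    have e := mul_le_mul_of_nonneg_left d (by positivity : 0 ≤ 36 * s.μ * s.ρ x y)
    rw [hΛ]; linarith
  have D2 : ∀ i ≤ I, |s.Sg δ x f (i + 4) - s.Sg δ y f (i + 4)| * s.σ (i + 1) ≤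
      Λ * ((s.Sg δ x f (i + 4) + s.Sg δ y f (i + 4)) / 2) := fun i hi => by
    have a := (D (i + 4) (by omega)).2
    have b := hΘ (i + 4)
    rw [s.σ8]; linarith
  have ex : ∃ k, k = I ∨ s.σ (k + 1) < Λ ∨
    2 * A < (s.Sg δ x f (k + 4) + s.Sg δ y f (k + 4)) / 2 := ⟨I, Or.inl rfl⟩
  obtain ⟨k, hk⟩ : ∃ k, k = Nat.find ex := ⟨_, rfl⟩
  have hkI : k ≤ I := hk ▸ Nat.find_min' ex (Or.inl rfl)
  have hk1 : k = I ∨ s.σ (k + 1) < Λ ∨
    2 * A < (s.Sg δ x f (k + 4) + s.Sg δ y f (k + 4)) / 2 := hk ▸ Nat.find_spec ex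
  have hk2 : ∀ i < k, (s.Sg δ x f (i + 4) + s.Sg δ y f (i + 4)) / 2 ≤ 2 * A := fun i hi => by
    have := Nat.find_min ex (hk ▸ hi)
    push Not at this
    exact this.2.2
  have sq : ∀ m, 0 ≤ m → m ≤ 2 * A → Λ * m ≤ Λ * (2 * A) / √(2 * A) * √m := by
    intro m h0 hm
    rw [mul_div_assoc, Real.div_sqrt, mul_assoc]
    refine mul_le_mul_of_nonneg_left ?_ hΛ0
    have := mul_le_mul_of_nonneg_right (Real.sqrt_le_sqrt hm) (Real.sqrt_nonneg m)
    rwa [Real.mul_self_sqrt h0] at this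
  have c := coarse T (ϖ := 1) (K := Λ * (2 * A)) (Mi := 2 * A) zero_le_one
    (fun a b => by rw [one_mul]; exact hT a b) (s.Sg δ x f) (s.Sg δ y f)
    (fun l => s.mix l x f) (fun l => s.mix l y f) s.σ
    (fun i => (s.Sg δ x f (i + 4) + s.Sg δ y f (i + 4)) / 2) k px py (s.Sg_mono δ x f)
    (s.Sg_mono δ y f) (s.hax δ x f) (s.hax δ y f) h0 (by positivity) (by positivity) hk2
    (fun i hi => by
      have a := (D (i + 1) (by omega)).1
      have b := hΘ (i + 1)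
      have c := s.Sg_mono δ x f (by omega : i + 1 ≤ i + 4)
      have d := s.Sg_mono δ y f (by omega : i + 1 ≤ i + 4)
      have e := mul_le_mul_of_nonneg_left (by linarith :
        (s.Sg δ x f (i + 1) + s.Sg δ y f (i + 1)) / 2 ≤
          (s.Sg δ x f (i + 4) + s.Sg δ y f (i + 4)) / 2) hΛ0
      have g := sq _ (by linarith [px (i + 4), py (i + 4)]) (hk2 i hi)
      have := abs_nonneg (s.mix (i + 1) x f - s.mix (i + 1) y f)
      linarith)
    (fun i hi => (D2 i (by omega)).trans (sq _ (by linarith [px (i + 4), py (i + 4)]) (hk2 i hi)))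
    (fun _ _ => le_rfl) (by simp)
  rw [hTA _ (Real.log_le_log hA (by linarith)), smul_zero, sub_zero, Real.norm_eq_abs] at c
  have e : s.emb T δ I f x - s.emb T δ I f y =
      (∑ i ∈ range k, ((s.mix (i + 1) x f - s.mix i x f) • T (Real.log (s.Sg δ x f (i + 4))) -
        (s.mix (i + 1) y f - s.mix i y f) • T (Real.log (s.Sg δ y f (i + 4))))) +
      ∑ i ∈ Ico k I, ((s.mix (i + 1) x f - s.mix i x f) • T (Real.log (s.Sg δ x f (i + 4))) -
        (s.mix (i + 1) y f - s.mix i y f) • T (Real.log (s.Sg δ y f (i + 4)))) := by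
    unfold emb
    rw [sum_range_add_sum_Ico _ hkI, sum_sub_distrib]
  rw [e]
  refine (abs_add_le _ _).trans ?_
  have zero : ∀ z i, A ≤ s.Sg δ z f (i + 4) →
      (s.mix (i + 1) z f - s.mix i z f) • T (Real.log (s.Sg δ z f (i + 4))) = 0 := by
    intro z i h
    rw [hTA _ (Real.log_le_log hA h), smul_zero]
  have one : ∀ z i, |(s.mix (i + 1) z f - s.mix i z f) • T (Real.log (s.Sg δ z f (i + 4)))| ≤
      A * s.σ (i + 1) := by
    intro z i
    have hσ := s.σ_pos (i + 1)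
    by_cases h : A ≤ s.Sg δ z f (i + 4)
    · rw [zero z i h, abs_zero]; positivity
    · push Not at h
      rw [smul_eq_mul, abs_mul]
      have a := mul_le_mul (s.hax' hδ.le z f i) (hT1 (Real.log (s.Sg δ z f (i + 4))))
        (abs_nonneg _) ((abs_nonneg _).trans (s.hax' hδ.le z f i))
      have b := mul_le_mul_of_nonneg_left h.le hσ.le
      linarith
  have fine : |∑ i ∈ Ico k I,
      ((s.mix (i + 1) x f - s.mix i x f) • T (Real.log (s.Sg δ x f (i + 4))) -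
        (s.mix (i + 1) y f - s.mix i y f) • T (Real.log (s.Sg δ y f (i + 4))))| ≤ 4 * Λ * A := by
    by_cases h1 : s.σ (k + 1) < Λ
    · have a : ∀ i ∈ Ico k I,
          |(s.mix (i + 1) x f - s.mix i x f) • T (Real.log (s.Sg δ x f (i + 4))) -
          (s.mix (i + 1) y f - s.mix i y f) • T (Real.log (s.Sg δ y f (i + 4)))| ≤
          2 * A * s.σ (i + 1) := fun i _ => (abs_sub _ _).trans (by linarith [one x i, one y i])
      refine (abs_sum_le_sum_abs _ _).trans ((sum_le_sum a).trans ?_)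
      rw [← mul_sum]
      have b := geo_tail s.σ s.σ_succ (fun l => (s.σ_pos l).le) k I hkI
      have c := s.σ_pos I
      have d := s.σ_succ k
      have e := mul_le_mul_of_nonneg_left
        (by linarith : ∑ i ∈ Ico k I, s.σ (i + 1) ≤ 2 * Λ) (by positivity : 0 ≤ 2 * A)
      linarith
    · rw [sum_eq_zero, abs_zero]
      · positivity
      · intro i hi
        obtain ⟨hi1, hi2⟩ := mem_Ico.1 hi
        rcases hk1 with h | h | h
        · omega
        · exact absurd h h1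
        · push Not at h1
          have a := D2 k hkI
          have b := mul_le_mul_of_nonneg_right h1
            (by linarith : 0 ≤ (s.Sg δ x f (k + 4) + s.Sg δ y f (k + 4)) / 2)
          have c : |s.Sg δ x f (k + 4) - s.Sg δ y f (k + 4)| ≤
              (s.Sg δ x f (k + 4) + s.Sg δ y f (k + 4)) / 2 :=
            le_of_mul_le_mul_right (by linarith) (s.σ_pos (k + 1))
          have d := s.Sg_mono δ x f (by omega : k + 4 ≤ i + 4)
          have e := s.Sg_mono δ y f (by omega : k + 4 ≤ i + 4)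
          rw [abs_le] at c
          rw [zero x i (by linarith [c.1]), zero y i (by linarith [c.2]), sub_zero]
  have g : 0 ≤ s.μ * lam * s.ρ x y * A := by positivity
  have g2 : Λ * A = 6912 * (s.μ * lam * s.ρ x y * A) := by rw [hΛ]; ring
  linarith

end Su
end Vale.Agent.P249
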